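import Vale.Agent.P002.Mono

/-!
P002: twisting representations by torus valued cocycles along blocks.
-/

open Matrix Finset

namespace Vale.Agent.P002

variable {G : Type} [Group G] {r m : ℕ}

/-- A representation permuting the blocks of `b`, scalar on each block on `K`. -/
structure Blocked (K : Subgroup G) (b : Fin r → Fin m) (σ : G →* Equiv.Perm (Fin m))
    (ρ : Rep G r) (χ : G → Fin m → ℂ) : Prop where
  supp : ∀ g i j, b i ≠ σ g (b j) → (ρ g).1 i j = 0
  fixK : ∀ k ∈ K, σ k = 1
  diagK : ∀ k ∈ K, (ρ k).1 = Matrix.diagonal fun i => χ k (b i)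

/-- Block scalar matrices. -/
noncomputable def tmat (b : Fin r → Fin m) (c : Fin m → ℂˣ) : Matrix (Fin r) (Fin r) ℂ :=
  Matrix.diagonal fun i => (c (b i) : ℂ)

lemma tmat_mul (b : Fin r → Fin m) (c d : Fin m → ℂˣ) :
    tmat b c * tmat b d = tmat b (c * d) := by
  simp [tmat]

lemma tmat_one (b : Fin r → Fin m) : tmat b (1 : Fin m → ℂˣ) = 1 := by
  simp [tmat]

lemma det_tmat (b : Fin r → Fin m) (c : Fin m → ℂˣ) :
    (tmat b c).det = ((∏ i, c (b i) : ℂˣ) : ℂ) := by
  simp [tmat, Units.coe_prod]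

variable {K : Subgroup G} {b : Fin r → Fin m} {σ : G →* Equiv.Perm (Fin m)} {ρ : Rep G r}
  {χ : G → Fin m → ℂ}

lemma Blocked.comm_tmat (hB : Blocked K b σ ρ χ) (g : G) (c : Fin m → ℂˣ) :
    (ρ g).1 * tmat b c = tmat b (fun q => c ((σ g)⁻¹ q)) * (ρ g).1 := by
  ext i j
  rw [tmat, tmat, mul_diagonal, diagonal_mul]
  by_cases h : b i = σ g (b j)
  · rw [h, Equiv.Perm.inv_def, Equiv.symm_apply_apply, mul_comm]
  · rw [hB.supp g i j h, zero_mul, mul_zero]

/-- The twisted matrices. -/
noncomputable def twistMat (hB : Blocked K b σ ρ χ) (η : G →* MonGrp ℂˣ m)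
    (hη : ∀ g, (η g).right = σ g) : G →* Matrix (Fin r) (Fin r) ℂ where
  toFun g := tmat b (η g).left * (ρ g).1
  map_one' := by rw [map_one η, SemidirectProduct.one_left, tmat_one, map_one ρ]; simp
  map_mul' g h := by
    have h1 : (ρ (g * h)).1 = (ρ g).1 * (ρ h).1 := congrArg Subtype.val (map_mul ρ g h)
    rw [map_mul η, SemidirectProduct.mul_left, hη, ← tmat_mul, h1]
    show tmat b (η g).left * tmat b (fun q => (η h).left ((σ g)⁻¹ q)) *
      ((ρ g).1 * (ρ h).1) = tmat b (η g).left * (ρ g).1 * (tmat b (η h).left * (ρ h).1)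
    simp only [Matrix.mul_assoc]
    rw [← Matrix.mul_assoc (ρ g).1 (tmat b _), hB.comm_tmat, Matrix.mul_assoc]

/-- The twist of a blocked representation. -/
noncomputable def twist (hB : Blocked K b σ ρ χ) (η : G →* MonGrp ℂˣ m)
    (hη : ∀ g, (η g).right = σ g) (hdet : ∀ g, (twistMat hB η hη g).det = 1) : Rep G r where
  toFun g := ⟨twistMat hB η hη g, hdet g⟩
  map_one' := Subtype.ext (map_one (twistMat hB η hη))
  map_mul' g h := Subtype.ext (map_mul (twistMat hB η hη) g h)

lemma twist_apply (hB : Blocked K b σ ρ χ) (η : G →* MonGrp ℂˣ m)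
    (hη : ∀ g, (η g).right = σ g) (hdet : ∀ g, (twistMat hB η hη g).det = 1) (g : G) :
    (twist hB η hη hdet g).1 = tmat b (η g).left * (ρ g).1 := rfl

lemma twist_blocked (hB : Blocked K b σ ρ χ) (η : G →* MonGrp ℂˣ m)
    (hη : ∀ g, (η g).right = σ g) (hdet : ∀ g, (twistMat hB η hη g).det = 1) :
    Blocked K b σ (twist hB η hη hdet) fun g q => ((η g).left q : ℂ) * χ g q where
  supp g i j h := by
    rw [twist_apply, tmat, diagonal_mul, hB.supp g i j h, mul_zero]
  fixK := hB.fixK
  diagK k hk := by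
    rw [twist_apply, hB.diagK k hk, tmat, diagonal_mul_diagonal]

/-- Semisimple as soon as diagonal on a subgroup of finite index. -/
lemma semisimple_of_diag_on (ρ : Rep G r) (K : Subgroup G) [K.FiniteIndex]
    (d : K → Fin r → ℂ) (hd : ∀ k : K, (ρ k).1 = Matrix.diagonal (d k)) : Semisimple ρ := by
  classical
  intro W hW
  let _ : Fintype (G ⧸ K) := Fintype.ofFinite _
  set R : G →* Module.End ℂ (Fin r → ℂ) :=
    { toFun := fun g => (ρ g).1.mulVecLin
      map_one' := by simp [Module.End.one_eq_id]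
      map_mul' := fun a b => by simp [Module.End.mul_eq_comp] }
  obtain ⟨W', hW', hc⟩ := diag_semisimple (ρ.comp K.subtype) d hd W (fun g => hW g)
  set p : Module.End ℂ (Fin r → ℂ) := W.projection W' hc
  have hRW : ∀ g, ∀ v ∈ W, R g v ∈ W := fun g v hv => hW g v hv
  have hpK : ∀ g ∈ K, R g * p = p * R g := by
    intro g hg
    refine LinearMap.ext fun v => ?_
    obtain ⟨w, hw, w', hw', rfl⟩ := Submodule.mem_sup.1
      (hc.sup_eq_top.symm ▸ Submodule.mem_top : v ∈ W ⊔ W')
    simp only [Module.End.mul_apply, map_add, p, Submodule.projection_apply_left hc ⟨w, hw⟩,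
      Submodule.projection_apply_left hc ⟨_, hRW g w hw⟩]
    have h1 : W.projection W' hc w' = 0 := (Submodule.projection_apply_eq_zero_iff hc).2 hw'
    have h2 : W.projection W' hc (R g w') = 0 :=
      (Submodule.projection_apply_eq_zero_iff hc).2 (hW' ⟨g, hg⟩ w' hw')
    simp only [h1, h2, map_zero]
  set φ : G ⧸ K → Module.End ℂ (Fin r → ℂ) := fun c => R c.out * p * R c.out⁻¹
  have hφ : ∀ g : G, φ g = R g * p * R g⁻¹ := by
    intro g
    obtain ⟨k, hk⟩ := QuotientGroup.mk_out_eq_mul K g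
    simp only [φ, hk, map_mul, _root_.mul_inv_rev]
    rw [mul_assoc (R g) _ p, hpK _ k.2, ← mul_assoc, ← mul_assoc,
      mul_assoc _ (R _) (R (k : G)⁻¹), ← map_mul, mul_inv_cancel, map_one, mul_one]
  set N : ℕ := Fintype.card (G ⧸ K) with hN
  set π : Module.End ℂ (Fin r → ℂ) := (N : ℂ)⁻¹ • ∑ c, φ c with hπ
  have hinv : ∀ g, R g * π = π * R g := by
    intro g
    have : R g * ∑ c, φ c = (∑ c, φ c) * R g := by
      rw [mul_sum, sum_mul]
      refine (Equiv.sum_comp (MulAction.toPerm g : Equiv.Perm (G ⧸ K)) fun c => φ c * R g).symm.trans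
        ?_ |>.symm
      refine sum_congr rfl fun c _ => ?_
      induction c using QuotientGroup.induction_on with
      | _ a =>
        show φ ((g * a : G) : G ⧸ K) * R g = R g * φ a
        rw [hφ, hφ, _root_.mul_inv_rev, mul_assoc, ← map_mul, inv_mul_cancel_right, map_mul]
        simp only [mul_assoc]
    rw [hπ, mul_smul_comm, smul_mul_assoc, this]
  have hmem : ∀ v, π v ∈ W := fun v => by
    rw [hπ, LinearMap.smul_apply, LinearMap.sum_apply]
    exact W.smul_mem _ (W.sum_mem fun c _ => hRW _ _ (Submodule.projection_apply_mem hc _))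
  have hfix : ∀ v ∈ W, π v = v := by
    intro v hv
    have : ∀ c, φ c v = v := fun c => by
      simp only [φ, Module.End.mul_apply, p,
        Submodule.projection_apply_left hc ⟨_, hRW c.out⁻¹ v hv⟩]
      rw [← Module.End.mul_apply, ← map_mul, mul_inv_cancel, map_one, Module.End.one_apply]
    rw [hπ, LinearMap.smul_apply, LinearMap.sum_apply, sum_congr rfl fun c _ => this c, sum_const,
      card_univ, ← Nat.cast_smul_eq_nsmul ℂ, smul_smul, ← hN,
      inv_mul_cancel₀ (Nat.cast_ne_zero.2 (hN ▸ Fintype.card_ne_zero)), one_smul]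
  refine ⟨LinearMap.ker π, fun g v hv => ?_, ?_⟩
  · rw [LinearMap.mem_ker] at hv ⊢
    have := LinearMap.congr_fun (hinv g) v
    simp only [Module.End.mul_apply, hv, map_zero] at this
    exact this.symm
  · refine ⟨Submodule.disjoint_def.2 fun v hv hk => ?_,
      codisjoint_iff.2 (eq_top_iff.2 fun v _ => ?_)⟩
    · rw [← hfix v hv, LinearMap.mem_ker.1 hk]
    · rw [← add_sub_cancel (π v) v]
      refine Submodule.add_mem_sup (hmem v) ?_
      rw [LinearMap.mem_ker, map_sub, hfix _ (hmem v), sub_self]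

lemma Blocked.semisimple [K.FiniteIndex] (hB : Blocked K b σ ρ χ) : Semisimple ρ :=
  semisimple_of_diag_on ρ K (fun k i => χ (k : G) (b i)) fun k => hB.diagK k k.2

/-- Twists with trivial cycle products give conjugate elements. -/
lemma twist_conj (hB : Blocked K b σ ρ χ) (η : G →* MonGrp ℂˣ m)
    (hη : ∀ g, (η g).right = σ g) (hdet : ∀ g, (twistMat hB η hη g).det = 1) (g : G)
    (h : ∀ q p, ((σ g) ^ p) q = q → (η (g ^ p)).left q = 1) :
    ∃ Q : Matrix.SpecialLinearGroup (Fin r) ℂ, twist hB η hη hdet g = Q * ρ g * Q⁻¹ := by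
  obtain ⟨t, ht⟩ := exists_conj (SemidirectProduct.inr (σ g)) (η g) (by simp [hη]) fun q p hp => by
    rw [← map_pow η, h q p (by simpa using hp),
      ← map_pow (SemidirectProduct.inr : Equiv.Perm (Fin m) →* MonGrp ℂˣ m),
      SemidirectProduct.left_inr, Pi.one_apply]
  refine exists_SL_conj (ρ g) (twist hB η hη hdet g) (tmat b t) ?_ ?_
  · rw [det_tmat]; exact Units.ne_zero _
  · rw [twist_apply, Matrix.mul_assoc, hB.comm_tmat, ← Matrix.mul_assoc, tmat_mul]
    congr 2
    have h1 := congrArg SemidirectProduct.left ht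
    rw [SemidirectProduct.mul_left, SemidirectProduct.mul_left] at h1
    simp only [SemidirectProduct.left_inl, SemidirectProduct.left_inr, map_one, mul_one, hη] at h1
    exact h1

end Vale.Agent.P002
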