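import Vale.Agent.P002.Nilpotent

/-!
P002: tools for semisimple representations with solvable image.
-/

open Module
open scoped commutatorElement

namespace Vale.Agent.P002

variable {G : Type} [Group G] {r : ℕ}

/-- Invariant subspaces of `W` have invariant complements in `W`. -/
def SemiOn (R : G →* Module.End ℂ (Fin r → ℂ)) (H : Subgroup G)
    (W : Submodule ℂ (Fin r → ℂ)) : Prop :=
  ∀ U ≤ W, StableOn R H U → ∃ U' ≤ W, StableOn R H U' ∧ Disjoint U U' ∧ U ⊔ U' = W

/-- The subgroup acts commutatively on `W`. -/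
def CommOn (R : G →* Module.End ℂ (Fin r → ℂ)) (H : Subgroup G)
    (W : Submodule ℂ (Fin r → ℂ)) : Prop :=
  ∀ h ∈ H, ∀ h' ∈ H, ∀ v ∈ W, R h (R h' v) = R h' (R h v)

/-- The derived series of a subgroup. -/
def series (H : Subgroup G) : ℕ → Subgroup G
  | 0 => H
  | k + 1 => ⁅series H k, series H k⁆

/-- Some term of the derived series acts trivially on `W`. -/
def SolvOn (R : G →* Module.End ℂ (Fin r → ℂ)) (H : Subgroup G)
    (W : Submodule ℂ (Fin r → ℂ)) : Prop :=
  ∃ n, ∀ x ∈ series H n, ∀ v ∈ W, R x v = v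

lemma series_mono {H H' : Subgroup G} (h : H' ≤ H) : ∀ n, series H' n ≤ series H n
  | 0 => h
  | n + 1 => Subgroup.commutator_mono (series_mono h n) (series_mono h n)

lemma series_le (H : Subgroup G) : ∀ n, series H n ≤ H
  | 0 => le_rfl
  | n + 1 => (Subgroup.commutator_mono (series_le H n) (series_le H n)).trans
      (Subgroup.commutator_le.2 fun a ha b hb => by
        rw [commutatorElement_def]
        exact H.mul_mem (H.mul_mem (H.mul_mem ha hb) (H.inv_mem ha)) (H.inv_mem hb))

lemma series_map {G' : Type} [Group G'] (f : G →* G') (H : Subgroup G) :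
    ∀ n, (series H n).map f = series (H.map f) n
  | 0 => rfl
  | n + 1 => by rw [series, series, Subgroup.map_commutator, series_map f H n]

lemma series_eq_derived (H : Subgroup G) :
    ∀ n, series H n = (derivedSeries H n).map H.subtype
  | 0 => by rw [series, derivedSeries_zero, ← MonoidHom.range_eq_map, Subgroup.range_subtype]
  | n + 1 => by rw [series, derivedSeries_succ, Subgroup.map_commutator, series_eq_derived H n]

lemma series_conj (H : Subgroup G) (n : ℕ) {h x : G} (hh : h ∈ H) (hx : x ∈ series H n) :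
    h * x * h⁻¹ ∈ series H n := by
  have h1 : H.map (MulAut.conj h).toMonoidHom = H := by
    ext y
    simp only [Subgroup.mem_map, MulEquiv.coe_toMonoidHom, MulAut.conj_apply]
    constructor
    · rintro ⟨z, hz, rfl⟩
      exact H.mul_mem (H.mul_mem hh hz) (H.inv_mem hh)
    · intro hy
      exact ⟨h⁻¹ * y * h, H.mul_mem (H.mul_mem (H.inv_mem hh) hy) hh, by group⟩
  have h2 : (MulAut.conj h).toMonoidHom x ∈ (series H n).map (MulAut.conj h).toMonoidHom :=
    ⟨x, hx, rfl⟩
  rwa [series_map, h1] at h2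

lemma solvOn_of_isSolvable (ρ : Rep G r) (K : Subgroup G) (W : Submodule ℂ (Fin r → ℂ))
    (h : IsSolvable (K.map ρ)) : SolvOn (linRep ρ) K W := by
  obtain ⟨n, hn⟩ := h.solvable
  refine ⟨n, fun x hx v _ => ?_⟩
  have h1 : ρ x ∈ (series K n).map ρ := ⟨x, hx, rfl⟩
  rw [series_map, series_eq_derived, hn, Subgroup.map_bot, Subgroup.mem_bot] at h1
  show (ρ x).1.mulVecLin v = v
  rw [h1]
  simp

/-- Distinct joint eigenvalue systems are at most as many as the dimension. -/
lemma finite_systems {V : Type} [AddCommGroup V] [Module ℂ V] [FiniteDimensional ℂ V]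
    {ι κ : Type} (f : κ → Module.End ℂ V) (v : ι → V) (hv : ∀ i, v i ≠ 0) (c : ι → κ → ℂ)
    (hc : ∀ i k, f k (v i) = c i k • v i) :
    (Set.range c).Finite ∧ (Set.range c).ncard ≤ finrank ℂ V := by
  classical
  obtain ⟨b, hbsub, hbspan, hbli⟩ := exists_linearIndependent ℂ (Set.range v)
  have hbfin : b.Finite := hbli.setFinite
  have : Fintype b := hbfin.fintype
  choose p hp using fun x : b => hbsub x.2
  have hcb : ∀ i, ∃ x : b, c i = c (p x) := by
    intro i
    have hi : v i ∈ Submodule.span ℂ b := by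
      rw [hbspan]; exact Submodule.subset_span ⟨i, rfl⟩
    rw [show b = Set.range (Subtype.val : b → V) by simp] at hi
    obtain ⟨a, ha⟩ := (Submodule.mem_span_range_iff_exists_fun ℂ).1 hi
    obtain ⟨x, hx⟩ : ∃ x, a x ≠ 0 := by
      by_contra hcon
      push Not at hcon
      exact hv i (by rw [← ha]; simp [hcon])
    refine ⟨x, funext fun k => ?_⟩
    have h1 := congrArg (f k) ha
    rw [map_sum, hc i k, ← ha, Finset.smul_sum, ← sub_eq_zero, ← Finset.sum_sub_distrib] at h1
    have h2 : ∀ y : b, f k (a y • (y : V)) - c i k • a y • (y : V) =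
        (a y * (c (p y) k - c i k)) • (y : V) := fun y => by
      have h3 : f k (y : V) = c (p y) k • (y : V) := by rw [← hp y]; exact hc _ k
      rw [map_smul, h3, smul_smul, smul_smul, ← sub_smul]
      congr 1
      ring
    rw [Finset.sum_congr rfl fun y _ => h2 y] at h1
    have := Fintype.linearIndependent_iff.1 hbli _ h1 x
    simp only [mul_eq_zero, hx, false_or, sub_eq_zero] at this
    exact this.symm
  have hsub : Set.range c ⊆ Set.range fun x : b => c (p x) := by
    rintro _ ⟨i, rfl⟩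
    obtain ⟨x, hx⟩ := hcb i
    exact ⟨x, hx.symm⟩
  refine ⟨(Set.finite_range _).subset hsub, ?_⟩
  calc (Set.range c).ncard ≤ (Set.range fun x : b => c (p x)).ncard :=
        Set.ncard_le_ncard hsub (Set.finite_range _)
    _ ≤ Nat.card b := by
        rw [← Nat.card_coe_set_eq]
        exact Finite.card_range_le _
    _ ≤ finrank ℂ V := by
        rw [Nat.card_eq_fintype_card]
        exact hbli.fintype_card_le_finrank

/-- Kernels of actions on small sets have small index. -/
lemma kernel_index {P : Type} [Group P] [Finite P] (H : Subgroup G) (φ : H →* P) :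
    (φ.ker.map H.subtype).relIndex H ≠ 0 ∧ (φ.ker.map H.subtype).relIndex H ≤ Nat.card P ∧
      φ.ker.map H.subtype ≤ H ∧
      ∀ h ∈ H, ∀ x ∈ φ.ker.map H.subtype, h * x * h⁻¹ ∈ φ.ker.map H.subtype := by
  have h1 : (φ.ker.map H.subtype).relIndex H = φ.ker.index := by
    rw [Subgroup.relIndex, Subgroup.subgroupOf,
      Subgroup.comap_map_eq_self_of_injective H.subtype_injective]
  refine ⟨?_, ?_, Subgroup.map_subtype_le _, ?_⟩
  · rw [h1, Subgroup.index_ker]; exact Nat.card_pos.ne'
  · rw [h1, Subgroup.index_ker]; exact Subgroup.card_le_card_group _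
  · rintro h hh _ ⟨x, hx, rfl⟩
    exact ⟨⟨h, hh⟩ * x * ⟨h, hh⟩⁻¹, φ.normal_ker.conj_mem x hx ⟨h, hh⟩, rfl⟩

lemma semiOn_restrict (R : G →* Module.End ℂ (Fin r → ℂ)) (H H' : Subgroup G) (hle : H' ≤ H)
    (hn : ∀ h ∈ H, ∀ x ∈ H', h * x * h⁻¹ ∈ H') (W : Submodule ℂ (Fin r → ℂ))
    (hW : StableOn R H W) (hs : SemiOn R H W) : SemiOn R H' W := by
  classical
  intro Z hZ hZst
  obtain ⟨U', ⟨hU', hU'st, hU'd⟩, hmax⟩ := WellFounded.has_min
    (IsWellFounded.wf (r := ((· > ·) : Submodule ℂ (Fin r → ℂ) → _ → Prop)))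
    {X | X ≤ W ∧ StableOn R H' X ∧ Disjoint Z X}
    ⟨⊥, bot_le, fun h _ v hv => by simp [(Submodule.mem_bot ℂ).1 hv], disjoint_bot_right⟩
  refine ⟨U', hU', hU'st, hU'd, le_antisymm (sup_le hZ hU') ?_⟩
  set simp' : Set (Submodule ℂ (Fin r → ℂ)) :=
    {X | X ≤ W ∧ StableOn R H' X ∧ X ≠ ⊥ ∧ IrredOn R H' X} with hsimp
  set S := sSup simp' with hS
  have hSW : S ≤ W := sSup_le fun X hX => hX.1
  have himg : ∀ h ∈ H, ∀ X ∈ simp', Submodule.map (R h) X ∈ simp' := by
    rintro h hh X ⟨hXW, hXst, hX0, hXirr⟩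
    have hst : ∀ {k : G}, k ∈ H → ∀ {Y}, StableOn R H' Y →
        StableOn R H' (Submodule.map (R k) Y) := by
      rintro k hk Y hY x hx _ ⟨y, hy, rfl⟩
      refine ⟨R (k⁻¹ * x * k) y, hY _ (by simpa using hn k⁻¹ (H.inv_mem hk) x hx) y hy, ?_⟩
      rw [← Module.End.mul_apply, ← map_mul, ← Module.End.mul_apply, ← map_mul,
        show k * (k⁻¹ * x * k) = x * k by group]
    refine ⟨fun v hv => ?_, hst hh hXst, fun h0 => hX0 ?_, fun Y hY hYst => ?_⟩
    · obtain ⟨u, hu, rfl⟩ := hv
      exact hW h hh u (hXW hu)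
    · rw [eq_bot_iff]
      intro u hu
      have h1 : R h u ∈ Submodule.map (R h) X := Submodule.mem_map_of_mem hu
      rw [h0, Submodule.mem_bot] at h1
      rw [Submodule.mem_bot, ← inv_apply R h u, h1, map_zero]
    · have hback : Submodule.map (R h⁻¹) Y ≤ X := by
        rintro _ ⟨y, hy, rfl⟩
        obtain ⟨u, hu, rfl⟩ := hY hy
        rwa [inv_apply]
      have hfwd : Submodule.map (R h) (Submodule.map (R h⁻¹) Y) = Y := by
        rw [← Submodule.map_comp, ← Module.End.mul_eq_comp, ← map_mul, mul_inv_cancel, map_one]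
        exact Submodule.map_id _
      rcases hXirr _ hback (hst (H.inv_mem hh) hYst) with h1 | h1
      · left; rw [← hfwd, h1, Submodule.map_bot]
      · right; rw [← hfwd, h1]
  have hSst : StableOn R H S := by
    intro h hh v hv
    have : Submodule.map (R h) S ≤ S := by
      rw [hS, sSup_eq_iSup, Submodule.map_iSup]
      refine iSup_le fun X => ?_
      rw [Submodule.map_iSup]
      exact iSup_le fun hX => le_iSup₂ (f := fun X (_ : X ∈ simp') => X) _ (himg h hh X hX)
    exact this ⟨v, hv, rfl⟩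
  obtain ⟨U, hUW, hUst, hUd, hUsup⟩ := hs S hSW hSst
  have hU0 : U = ⊥ := by
    by_contra hne
    obtain ⟨X, ⟨hXU, hXst, hX0⟩, hmin⟩ := WellFounded.has_min
      (IsWellFounded.wf (r := ((· < ·) : Submodule ℂ (Fin r → ℂ) → _ → Prop)))
      {X | X ≤ U ∧ StableOn R H' X ∧ X ≠ ⊥}
      ⟨U, le_rfl, fun x hx => hUst x (hle hx), hne⟩
    have hX : X ∈ simp' := ⟨hXU.trans hUW, hXst, hX0, fun Y hY hYst => by
      by_contra hcon
      push Not at hcon
      exact hmin Y ⟨hY.trans hXU, hYst, hcon.1⟩ (lt_of_le_of_ne hY hcon.2)⟩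
    exact hX0 (le_bot_iff.1 (hUd (le_sSup hX) hXU))
  rw [← hUsup, hU0, sup_bot_eq]
  refine sSup_le ?_
  rintro X ⟨hXW, hXst, hX0, hXirr⟩
  by_contra hcon
  have hXd : Disjoint (Z ⊔ U') X := by
    rw [disjoint_iff]
    refine (hXirr _ inf_le_right ?_).resolve_right fun h => hcon (h ▸ inf_le_left)
    intro x hx v hv
    refine ⟨?_, hXst x hx v hv.2⟩
    obtain ⟨z, hz, u, hu, rfl⟩ := Submodule.mem_sup.1 hv.1
    rw [map_add]
    exact Submodule.add_mem_sup (hZst x hx z hz) (hU'st x hx u hu)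
  refine hmax (U' ⊔ X) ⟨sup_le hU' hXW, fun x hx v hv => ?_, ?_⟩ ?_
  · obtain ⟨u, hu, y, hy, rfl⟩ := Submodule.mem_sup.1 hv
    rw [map_add]
    exact Submodule.add_mem_sup (hU'st x hx u hu) (hXst x hx y hy)
  · exact hU'd.disjoint_sup_right_of_disjoint_sup_left hXd
  · exact lt_of_le_of_ne le_sup_left fun h =>
      hcon ((h ▸ le_sup_right : X ≤ U').trans le_sup_right)

end Vale.Agent.P002
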