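import Vale.Agent.P002.Block
import Vale.Agent.P002.SolvBase

/-!
P002: the block data of a semisimple representation that is commutative on a normal subgroup of
finite index, and the transfer of its characters.
-/

open Matrix Finset

namespace Vale.Agent.P002

variable {G : Type} [Group G] {r m : ℕ}

lemma linRep_inj (ρ : Rep G r) (a b : G)
    (h : ∀ v, linRep ρ a v = linRep ρ b v) : ρ a = ρ b :=
  Subtype.ext (Matrix.ext_of_mulVec_single fun i => h (Pi.single i 1))

lemma abelianImage_of_commOn (ρ : Rep G r) (H : Subgroup G) (h : CommOn (linRep ρ) H ⊤) :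
    AbelianImage (ρ.comp H.subtype) := by
  intro a b
  show ρ (a : G) * ρ b = ρ b * ρ a
  rw [← map_mul, ← map_mul]
  refine linRep_inj ρ _ _ fun v => ?_
  rw [map_mul, map_mul, Module.End.mul_apply, Module.End.mul_apply]
  exact h a a.2 b b.2 v trivial

lemma semisimple_restrict (ρ : Rep G r) (hs : Semisimple ρ) (K : Subgroup G) [K.Normal] :
    Semisimple (ρ.comp K.subtype) := by
  have h1 : SemiOn (linRep ρ) ⊤ ⊤ := by
    intro U _ hU
    obtain ⟨U', hU', hc⟩ := hs U fun g v hv => hU g trivial v hv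
    exact ⟨U', le_top, fun g _ v hv => hU' g v hv, hc.disjoint, hc.sup_eq_top⟩
  have h2 := semiOn_restrict (linRep ρ) ⊤ K le_top
    (fun g _ x hx => ‹K.Normal›.conj_mem x hx g) ⊤ (fun _ _ _ _ => trivial) h1
  intro W hW
  obtain ⟨W', _, hW', hd, hsup⟩ := h2 W le_top fun g hg v hv => hW ⟨g, hg⟩ v hv
  exact ⟨W', fun g v hv => hW' g g.2 v hv, hd, codisjoint_iff.2 hsup⟩

/-- Characters on a normal subgroup where the image is commutative give a block structure. -/
theorem exists_blocked (ρ : Rep G r) (hs : Semisimple ρ) (K : Subgroup G) [K.Normal]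
    (hK : CommOn (linRep ρ) K ⊤) :
    ∃ (P : Matrix.SpecialLinearGroup (Fin r) ℂ) (m : ℕ) (b : Fin r → Fin m)
      (σ : G →* Equiv.Perm (Fin m)) (χ : G → Fin m → ℂ),
      m ≤ r ∧ Function.Surjective b ∧ Blocked K b σ (conjRep P⁻¹ ρ) χ := by
  classical
  obtain ⟨P, χ0, hχ0⟩ := exists_diag (ρ.comp K.subtype) (semisimple_restrict ρ hs K)
    (abelianImage_of_commOn ρ K hK)
  set ρd := conjRep P⁻¹ ρ with hρd
  have hd : ∀ k : K, (ρd k).1 = Matrix.diagonal (χ0 k) := fun k => by
    show (P⁻¹ * ρ k * P⁻¹⁻¹).1 = _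
    rw [inv_inv]
    exact hχ0 k
  set c : Fin r → K → ℂ := fun i k => χ0 k i with hc
  let cj : G → K → K := fun g k => ⟨g⁻¹ * k * g, by
    simpa using ‹K.Normal›.conj_mem k k.2 g⁻¹⟩
  have key : ∀ g i j, (ρd g).1 i j ≠ 0 → c i = fun k => c j (cj g k) := by
    intro g i j hij
    funext k
    have h1 : ρd k * ρd g = ρd g * ρd (cj g k : G) := by
      rw [← map_mul, ← map_mul]
      congr 1
      show (k : G) * g = g * (g⁻¹ * k * g)
      group
    have h2 := congrFun (congrFun (congrArg Subtype.val h1) i) j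
    change ((ρd k).1 * (ρd g).1) i j = ((ρd g).1 * (ρd (cj g k : G)).1) i j at h2
    rw [hd, hd, diagonal_mul, mul_diagonal, mul_comm] at h2
    exact mul_left_cancel₀ hij h2
  have hne : ∀ g j, ∃ i, (ρd g).1 i j ≠ 0 := by
    intro g j
    by_contra hcon
    push Not at hcon
    have := (ρd g).2
    rw [det_eq_zero_of_column_eq_zero j hcon] at this
    exact zero_ne_one this
  have hT : ∀ g, ∀ f ∈ Set.range c, (fun k => f (cj g k)) ∈ Set.range c := by
    rintro g _ ⟨j, rfl⟩
    obtain ⟨i, hi⟩ := hne g j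
    exact ⟨i, key g i j hi⟩
  let m := Fintype.card (Set.range c)
  let e : Set.range c ≃ Fin m := Fintype.equivFin _
  let f : G → Fin m → Fin m := fun g q => e ⟨_, hT g _ (e.symm q).2⟩
  have hf1 : ∀ q, f 1 q = q := fun q => by
    refine (Equiv.eq_symm_apply _).1 (Subtype.ext (funext fun k => ?_))
    refine congrArg (e.symm q).1 (Subtype.ext ?_)
    show (1 : G)⁻¹ * k * 1 = k
    group
  have hfm : ∀ g h q, f (g * h) q = f g (f h q) := fun g h q => by
    refine congrArg e (Subtype.ext (funext fun k => ?_))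
    simp only [f, Equiv.symm_apply_apply]
    refine congrArg (e.symm q).1 (Subtype.ext ?_)
    show (g * h)⁻¹ * k * (g * h) = h⁻¹ * (g⁻¹ * k * g) * h
    group
  let σ : G →* Equiv.Perm (Fin m) :=
    { toFun := fun g => ⟨f g, f g⁻¹, fun q => by rw [← hfm, inv_mul_cancel, hf1],
        fun q => by rw [← hfm, mul_inv_cancel, hf1]⟩
      map_one' := Equiv.ext hf1
      map_mul' := fun g h => Equiv.ext (hfm g h) }
  let b : Fin r → Fin m := fun i => e ⟨c i, i, rfl⟩
  have hb : ∀ g i j, c i = (fun k => c j (cj g k)) → b i = σ g (b j) := fun g i j h => by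
    show e _ = e _
    refine congrArg e (Subtype.ext ?_)
    simp only [b, Equiv.symm_apply_apply]
    exact h
  have hsurj : Function.Surjective b := fun q => by
    obtain ⟨i, hi⟩ := (e.symm q).2
    exact ⟨i, by rw [show b i = e (e.symm q) from congrArg e (Subtype.ext hi),
      Equiv.apply_symm_apply]⟩
  refine ⟨P, m, b, σ, fun g q => if h : g ∈ K then (e.symm q).1 ⟨g, h⟩ else 0,
    (Fintype.card_range_le c).trans_eq (Fintype.card_fin r), hsurj,
    ⟨fun g i j hij => ?_, fun k hk => Equiv.ext fun q => ?_, fun k hk => ?_⟩⟩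
  · by_contra hcon
    exact hij (hb g i j (key g i j hcon))
  · obtain ⟨j, rfl⟩ := hsurj q
    refine (hb k j j (key k j j ?_)).symm
    have h1 := (ρd k).2
    rw [hd ⟨k, hk⟩, det_diagonal] at h1
    rw [hd ⟨k, hk⟩, diagonal_apply_eq]
    intro h0
    rw [prod_eq_zero (mem_univ j) h0] at h1
    exact zero_ne_one h1
  · rw [hd ⟨k, hk⟩]
    congr 1
    funext i
    simp [b, hk, c]

variable {K : Subgroup G} {b : Fin r → Fin m} {σ : G →* Equiv.Perm (Fin m)} {ρ : Rep G r}
  {χ : G → Fin m → ℂ}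

lemma Blocked.ne_zero (hB : Blocked K b σ ρ χ) (hb : Function.Surjective b) {k : G} (hk : k ∈ K)
    (q : Fin m) : χ k q ≠ 0 := by
  obtain ⟨i, rfl⟩ := hb q
  intro h0
  have h1 := (ρ k).2
  rw [hB.diagK k hk, det_diagonal, prod_eq_zero (mem_univ i) h0] at h1
  exact zero_ne_one h1

lemma Blocked.map_one' (hB : Blocked K b σ ρ χ) (hb : Function.Surjective b) (q : Fin m) :
    χ 1 q = 1 := by
  obtain ⟨i, rfl⟩ := hb q
  have h1 := congrFun (congrFun (hB.diagK 1 K.one_mem) i) i
  simpa [map_one ρ] using h1.symm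

lemma Blocked.map_mul' (hB : Blocked K b σ ρ χ) (hb : Function.Surjective b) {k l : G}
    (hk : k ∈ K) (hl : l ∈ K) (q : Fin m) : χ (k * l) q = χ k q * χ l q := by
  obtain ⟨i, rfl⟩ := hb q
  have h1 : (ρ (k * l)).1 = (ρ k).1 * (ρ l).1 := congrArg Subtype.val (map_mul ρ k l)
  rw [hB.diagK _ (K.mul_mem hk hl), hB.diagK k hk, hB.diagK l hl, diagonal_mul_diagonal] at h1
  simpa using congrFun (congrFun h1 i) i

lemma Blocked.equivariant (hB : Blocked K b σ ρ χ) (hb : Function.Surjective b) [K.Normal]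
    (g : G) {k : G} (hk : k ∈ K) (q : Fin m) : χ (g * k * g⁻¹) (σ g q) = χ k q := by
  obtain ⟨j, rfl⟩ := hb q
  obtain ⟨i, hi⟩ : ∃ i, (ρ g).1 i j ≠ 0 := by
    by_contra hcon
    push Not at hcon
    have := (ρ g).2
    rw [det_eq_zero_of_column_eq_zero j hcon] at this
    exact zero_ne_one this
  have hbi : b i = σ g (b j) := by
    by_contra hcon
    exact hi (hB.supp g i j hcon)
  have hk' : g * k * g⁻¹ ∈ K := ‹K.Normal›.conj_mem k hk g
  have h1 : (ρ (g * k * g⁻¹)).1 * (ρ g).1 = (ρ g).1 * (ρ k).1 :=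
    congrArg Subtype.val (show ρ (g * k * g⁻¹) * ρ g = ρ g * ρ k by
      rw [← map_mul, ← map_mul]; congr 1; group)
  have h2 := congrFun (congrFun h1 i) j
  rw [hB.diagK _ hk', hB.diagK k hk, diagonal_mul, mul_diagonal, mul_comm] at h2
  rw [← hbi]
  exact mul_left_cancel₀ hi h2

lemma det_twistMat (hB : Blocked K b σ ρ χ) (η : G →* MonGrp ℂˣ m)
    (hη : ∀ g, (η g).right = σ g) (g : G) :
    (twistMat hB η hη g).det = ((∏ i, (η g).left (b i) : ℂˣ) : ℂ) := by
  show (tmat b (η g).left * (ρ g).1).det = _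
  rw [det_mul, det_tmat, (ρ g).2, mul_one]

/-- Powers at a fixed position. -/
lemma left_pow_fix {A : Type} [CommGroup A] (a : MonGrp A m) (q : Fin m) (h : a.right q = q) :
    ∀ j : ℕ, (a ^ j).left q = a.left q ^ j := by
  intro j
  induction j with
  | zero => simp
  | succ j ih =>
    rw [pow_succ', pow_succ', SemidirectProduct.mul_left, Pi.mul_apply, arrow_apply,
      Equiv.Perm.inv_eq_iff_eq.2 h.symm, ih]

/-- The transfer of the characters. -/
theorem exists_transfer [K.Normal] [K.FiniteIndex] (hB : Blocked K b σ ρ χ)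
    (hb : Function.Surjective b) :
    ∃ θ : G →* MonGrp ℂˣ m, (∀ g, (θ g).right = σ g) ∧
      (∀ k ∈ K, ∀ q, ((θ k).left q : ℂ) = χ k q ^ K.index) ∧
      ∀ g, ∏ i, (θ g).left (b i) = 1 := by
  classical
  let _ : Fintype (G ⧸ K) := Fintype.ofFinite _
  let χu : K →* (Fin m → ℂˣ) :=
    { toFun := fun k q => Units.mk0 (χ k q) (hB.ne_zero hb k.2 q)
      map_one' := funext fun q => Units.ext (hB.map_one' hb q)
      map_mul' := fun k l => funext fun q => Units.ext (hB.map_mul' hb k.2 l.2 q) }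
  let s : G ⧸ K → G := Quotient.out
  have hs : ∀ u : G ⧸ K, (s u : G ⧸ K) = u := QuotientGroup.out_eq'
  let κ : G → G ⧸ K → K := fun g u => ⟨(s (g • u))⁻¹ * g * s u, by
    rw [mul_assoc, ← QuotientGroup.eq, hs]
    conv_lhs => rw [← hs u]
    rfl⟩
  have hκ : ∀ g h u, κ (g * h) u = κ g (h • u) * κ h u := fun g h u => Subtype.ext (by
    simp only [κ, mul_smul, Subgroup.coe_mul]
    group)
  have hsσ : ∀ g u, (σ (s (g • u)))⁻¹ = (σ (s u))⁻¹ * (σ g)⁻¹ := fun g u => by
    have h1 := hB.fixK _ (κ g u).2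
    simp only [κ, map_mul, map_inv] at h1
    rw [eq_mul_inv_iff_mul_eq, ← mul_eq_one_iff_eq_inv]
    exact h1
  let Θ : G → Fin m → ℂˣ := fun g q => ∏ u, χu (κ g u) ((σ (s (g • u)))⁻¹ q)
  let θ : G →* MonGrp ℂˣ m := MonoidHom.mk' (fun g => ⟨Θ g, σ g⟩) fun g h =>
    SemidirectProduct.ext (funext fun q => by
      show Θ (g * h) q = Θ g q * Θ h ((σ g)⁻¹ q)
      simp only [Θ, hκ, map_mul, Pi.mul_apply, prod_mul_distrib, mul_smul]
      congr 1
      · exact Equiv.prod_comp (MulAction.toPerm h : Equiv.Perm (G ⧸ K))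
          fun v => χu (κ g v) ((σ (s (g • v)))⁻¹ q)
      · refine prod_congr rfl fun u _ => ?_
        rw [hsσ g (h • u), Equiv.Perm.mul_apply]) (map_mul σ g h)
  refine ⟨θ, fun _ => rfl, fun k hk q => ?_, fun g => ?_⟩
  · have hku : ∀ u : G ⧸ K, k • u = u := fun u => by
      induction u using QuotientGroup.induction_on with
      | _ a =>
        refine QuotientGroup.eq.2 ?_
        have := ‹K.Normal›.conj_mem k⁻¹ (K.inv_mem hk) a⁻¹
        simpa [mul_assoc] using this
    show ((Θ k q : ℂˣ) : ℂ) = _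
    simp only [Θ, Units.coe_prod, hku]
    rw [Subgroup.index, Nat.card_eq_fintype_card, ← card_univ, ← prod_const]
    refine prod_congr rfl fun u _ => ?_
    show χ ((s (k • u))⁻¹ * k * s u) ((σ (s u))⁻¹ q) = _
    rw [hku, ← hB.equivariant hb (s u)⁻¹ hk q, inv_inv, map_inv]
  · refine Units.ext ?_
    show ((∏ i, Θ g (b i) : ℂˣ) : ℂ) = 1
    simp only [Θ, Units.coe_prod]
    rw [prod_comm]
    refine prod_eq_one fun u _ => ?_
    set t := s (g • u)
    have hk : (κ g u : G) ∈ K := (κ g u).2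
    have hk' : t * κ g u * t⁻¹ ∈ K := ‹K.Normal›.conj_mem _ hk t
    have h1 := (ρ (t * κ g u * t⁻¹)).2
    rw [hB.diagK _ hk', det_diagonal] at h1
    refine (prod_congr rfl fun i _ => ?_).trans h1
    show χ (κ g u) ((σ t)⁻¹ (b i)) = _
    rw [← hB.equivariant hb t hk ((σ t)⁻¹ (b i)), Equiv.Perm.inv_def, Equiv.apply_symm_apply]

end Vale.Agent.P002
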