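import Mathlib

/-!
P002, integral points on character varieties: definitions.

`Rep G r` is the set of representations into `SL_r(ℂ)`; a generating family `gens` gives the
coordinates. A representation with all these coordinates in the ring of integers of `L` gives a
point of `M_r` over that ring.
-/

open Matrix

namespace Vale.Agent.P002

/-- Representations into `SL_r(ℂ)`. -/
abbrev Rep (G : Type) [Group G] (r : ℕ) : Type := G →* Matrix.SpecialLinearGroup (Fin r) ℂ

/-- The coordinates: a generator and a matrix entry. -/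
abbrev Coord (n r : ℕ) : Type := Fin n × Fin r × Fin r

variable {G : Type} [Group G] {n r : ℕ}

/-- The matrix entries of the generators. -/
def coords (gens : Fin n → G) (ρ : Rep G r) : Coord n r → ℂ :=
  fun p => (ρ (gens p.1)).1 p.2.1 p.2.2

/-- Conjugate representations. -/
def conjRep (P : Matrix.SpecialLinearGroup (Fin r) ℂ) (ρ : Rep G r) : Rep G r where
  toFun g := P * ρ g * P⁻¹
  map_one' := by simp
  map_mul' g h := by rw [map_mul]; group

/-- A polynomial in the entries that is constant on conjugacy classes of representations. -/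
def Invariant (gens : Fin n → G) (F : MvPolynomial (Coord n r) ℂ) : Prop :=
  ∀ (ρ : Rep G r) (P : Matrix.SpecialLinearGroup (Fin r) ℂ),
    MvPolynomial.eval (coords gens (conjRep P ρ)) F = MvPolynomial.eval (coords gens ρ) F

/-- An element of the ring of integers of `L`. -/
def IsInt (L : IntermediateField ℚ ℂ) (x : ℂ) : Prop := x ∈ L ∧ IsIntegral ℤ x

/-- All matrix entries of the generators are in the ring of integers of `L`. -/
def IntegralRep (gens : Fin n → G) (L : IntermediateField ℚ ℂ) (ρ : Rep G r) : Prop :=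
  ∀ p, IsInt L (coords gens ρ p)

/-- An invariant subspace. -/
def Stable (ρ : Rep G r) (W : Submodule ℂ (Fin r → ℂ)) : Prop :=
  ∀ g : G, ∀ v ∈ W, (ρ g).1 *ᵥ v ∈ W

/-- A semisimple representation. -/
def Semisimple (ρ : Rep G r) : Prop :=
  ∀ W : Submodule ℂ (Fin r → ℂ), Stable ρ W → ∃ W', Stable ρ W' ∧ IsCompl W W'

/-- In a suitable basis every matrix of the image permutes the coordinate lines. -/
def Monomial (ρ : Rep G r) : Prop :=
  ∃ P : Matrix.SpecialLinearGroup (Fin r) ℂ, ∀ g j, ∃ i, ∀ k, k ≠ i → (P⁻¹ * ρ g * P).1 k j = 0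

/-- All eigenvalues are roots of unity. -/
def QuasiUnipotent (C : Matrix.SpecialLinearGroup (Fin r) ℂ) : Prop :=
  ∀ μ : ℂ, C.1.charpoly.IsRoot μ → ∃ N : ℕ, 0 < N ∧ μ ^ N = 1

/-- The semisimple representations with prescribed classes at the elements `γ`. -/
def InY {s : ℕ} (γ : Fin s → G) (C : Fin s → Matrix.SpecialLinearGroup (Fin r) ℂ)
    (ρ : Rep G r) : Prop :=
  Semisimple ρ ∧ ∀ j, ∃ P : Matrix.SpecialLinearGroup (Fin r) ℂ, ρ (γ j) = P * C j * P⁻¹

/-- The image is commutative. -/
def AbelianImage (ρ : Rep G r) : Prop := ∀ g h : G, ρ g * ρ h = ρ h * ρ g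

end Vale.Agent.P002
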