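import Vale.Agent.P002.Defs

/-!
P002: semisimple representations with commutative image are diagonalisable, and conversely.
-/

open Matrix Module

namespace Vale.Agent.P002

variable {G : Type} [Group G] {r : ℕ}

lemma diag_semisimple (ρ : Rep G r) (χ : G → Fin r → ℂ)
    (h : ∀ g, (ρ g).1 = Matrix.diagonal (χ g)) : Semisimple ρ := by
  classical
  intro W _
  set e : Fin r → (Fin r → ℂ) := fun i => Pi.single i 1 with he
  set sp : Finset (Fin r) → Submodule ℂ (Fin r → ℂ) := fun T => Submodule.span ℂ (e '' ↑T)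
  obtain ⟨T, hT, hmax⟩ := Finset.exists_max_image
    (Finset.univ.filter fun T => Disjoint W (sp T)) Finset.card
    ⟨∅, by simp [sp]⟩
  rw [Finset.mem_filter] at hT
  refine ⟨sp T, ?_, hT.2, ?_⟩
  · intro g v hv
    induction hv using Submodule.span_induction with
    | mem x hx =>
      obtain ⟨i, hi, rfl⟩ := hx
      have : (ρ g).1 *ᵥ e i = χ g i • e i := by
        rw [h, he, diagonal_mulVec_single, mul_one, ← Pi.single_smul, smul_eq_mul, mul_one]
      rw [this]
      exact Submodule.smul_mem _ _ (Submodule.subset_span ⟨i, hi, rfl⟩)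
    | zero => simp
    | add x y _ _ hx hy => rw [mulVec_add]; exact Submodule.add_mem _ hx hy
    | smul a x _ hx => rw [mulVec_smul]; exact Submodule.smul_mem _ _ hx
  · rw [codisjoint_iff, eq_top_iff]
    intro v _
    have he' : ∀ j, e j ∈ W ⊔ sp T := by
      intro j
      by_contra hj
      have hjT : j ∉ T := fun hjT => hj (Submodule.mem_sup_right (Submodule.subset_span ⟨j, hjT, rfl⟩))
      have hd : Disjoint W (sp (insert j T)) := by
        rw [Submodule.disjoint_def]
        intro x hxW hx
        simp only [sp, Finset.coe_insert, Set.image_insert_eq] at hx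
        obtain ⟨a, y, hy, rfl⟩ := Submodule.mem_span_insert.1 hx
        rcases eq_or_ne a 0 with rfl | ha
        · rw [zero_smul, zero_add] at hxW ⊢
          exact Submodule.disjoint_def.1 hT.2 y hxW hy
        · refine absurd ?_ hj
          have : e j = a⁻¹ • ((a • e j + y) - y) := by
            rw [add_sub_cancel_right, inv_smul_smul₀ ha]
          rw [this]
          exact Submodule.smul_mem _ _ (Submodule.sub_mem _ (Submodule.mem_sup_left hxW)
            (Submodule.mem_sup_right hy))
      have := hmax _ (Finset.mem_filter.2 ⟨Finset.mem_univ _, hd⟩)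
      rw [Finset.card_insert_of_notMem hjT] at this
      omega
    rw [pi_eq_sum_univ' v]
    exact Submodule.sum_mem _ fun j _ => Submodule.smul_mem _ _ (he' j)

lemma exists_diag (ρ : Rep G r) (hs : Semisimple ρ) (ha : AbelianImage ρ) :
    ∃ P : Matrix.SpecialLinearGroup (Fin r) ℂ, ∃ χ : G → Fin r → ℂ,
      ∀ g, (P⁻¹ * ρ g * P).1 = Matrix.diagonal (χ g) := by
  classical
  set f : G → End ℂ (Fin r → ℂ) := fun g => (ρ g).1.mulVecLin with hf
  have hc : ∀ g h, Commute (f g) (f h) := by
    intro g h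
    have := congrArg (fun A : Matrix.SpecialLinearGroup (Fin r) ℂ => A.1.mulVecLin) (ha g h)
    simpa [hf, Commute, SemiconjBy, Module.End.mul_eq_comp, ← Matrix.mulVecLin_mul] using this
  have hev : ∀ g μ, (f g).maxGenEigenspace μ ≤ (f g).eigenspace μ := by
    intro g μ v hv
    have hst : Stable ρ ((f g).eigenspace μ) := by
      intro k w hw
      rw [End.mem_eigenspace_iff] at hw ⊢
      have := LinearMap.congr_fun (hc g k).eq w
      simp only [End.mul_apply, hw, map_smul] at this
      exact this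
    obtain ⟨W', hW', hcompl⟩ := hs _ hst
    obtain ⟨k, hk⟩ := (End.mem_maxGenEigenspace _ _ _).1 hv
    obtain ⟨w, hw, w', hw', rfl⟩ := Submodule.mem_sup.1
      (hcompl.sup_eq_top.symm ▸ Submodule.mem_top : v ∈ (f g).eigenspace μ ⊔ W')
    have hinj : ∀ k : ℕ, ∀ z ∈ W', ((f g - μ • 1) ^ k) z = 0 → z = 0 := by
      intro k
      induction k with
      | zero => intro z _ h; simpa using h
      | succ k ih =>
        intro z hz h
        rw [pow_succ, End.mul_apply] at h
        have hz2 : (f g - μ • 1) z ∈ W' := Submodule.sub_mem _ (hW' g z hz) (Submodule.smul_mem _ _ hz)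
        have h0 := ih _ hz2 h
        refine Submodule.disjoint_def.1 hcompl.disjoint z ?_ hz
        rw [End.mem_eigenspace_iff]
        simpa [sub_eq_zero] using h0
    have hw0 : ((f g - μ • 1) ^ (k + 1)) w = 0 := by
      rw [pow_succ, End.mul_apply]
      simp [End.mem_eigenspace_iff.1 hw]
    have : ((f g - μ • 1) ^ (k + 1)) (w + w') = 0 := by
      rw [pow_succ', End.mul_apply, hk, map_zero]
    rw [map_add, hw0, zero_add] at this
    rw [hinj _ _ hw' this, add_zero]
    exact hw
  have hsup := End.iSup_iInf_maxGenEigenspace_eq_top_of_iSup_maxGenEigenspace_eq_top_of_commute f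
    (fun g h _ => hc g h) (fun g => End.iSup_maxGenEigenspace_eq_top (f g))
  set S : Set (Fin r → ℂ) := {v | ∃ c : G → ℂ, ∀ g, (ρ g).1 *ᵥ v = c g • v}
  have hspan : Submodule.span ℂ S = ⊤ := by
    rw [eq_top_iff, ← hsup]
    refine iSup_le fun c v hv => Submodule.subset_span ⟨c, fun g => ?_⟩
    exact End.mem_eigenspace_iff.1 (hev g (c g) ((Submodule.mem_iInf _).1 hv g))
  obtain ⟨b, hbS, hbspan, hbli⟩ := exists_linearIndependent ℂ S
  let B0 := Basis.mk hbli (by rw [Subtype.range_coe, hbspan, hspan])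
  let B := B0.reindex (B0.indexEquiv (Pi.basisFun ℂ (Fin r)))
  have hB : ∀ i, B i ∈ S := fun i => by
    simp only [B, B0, Basis.reindex_apply, Basis.mk_apply]
    exact hbS (Subtype.coe_prop _)
  choose c hc' using hB
  set P0 : Matrix (Fin r) (Fin r) ℂ := Matrix.of fun a i => B i a with hP0
  have hdet : P0.det ≠ 0 := by
    have : IsUnit P0 := linearIndependent_cols_iff_isUnit.1 B.linearIndependent
    exact ((P0.isUnit_iff_isUnit_det).1 this).ne_zero
  obtain ⟨z, hz⟩ : ∃ z : ℂ, z ^ r * P0.det = 1 := by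
    rcases Nat.eq_zero_or_pos r with rfl | hr
    · exact ⟨1, by simp [Matrix.det_fin_zero]⟩
    · obtain ⟨z, hz⟩ := IsAlgClosed.exists_pow_nat_eq P0.det⁻¹ hr
      exact ⟨z, by rw [hz, inv_mul_cancel₀ hdet]⟩
  let P : Matrix.SpecialLinearGroup (Fin r) ℂ := ⟨z • P0, by rw [det_smul, Fintype.card_fin, hz]⟩
  refine ⟨P, fun g i => c i g, fun g => ?_⟩
  have h1 : (ρ g).1 * P.1 = P.1 * Matrix.diagonal (fun i => c i g) := by
    ext a i
    have := congrFun (hc' i g) a
    simp only [P, Matrix.mul_smul, Matrix.smul_apply, mul_diagonal, smul_eq_mul]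
    rw [show ((ρ g).1 * P0) a i = ((ρ g).1 *ᵥ B i) a from rfl, this, Pi.smul_apply, smul_eq_mul,
      hP0, of_apply]
    ring
  have h2 : (P⁻¹).1 * P.1 = 1 := congrArg Subtype.val (inv_mul_cancel P)
  show (P⁻¹).1 * (ρ g).1 * P.1 = _
  rw [Matrix.mul_assoc, h1, ← Matrix.mul_assoc, h2, Matrix.one_mul]

end Vale.Agent.P002
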