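import Vale.Agent.P002.BlockData

/-!
P002: finite linear groups have a solvable subgroup of bounded index, so virtually solvable
images contain solvable subgroups of bounded index.
-/

open Matrix Finset
open scoped commutatorElement Matrix.Norms.Operator ComplexOrder MatrixOrder

namespace Vale.Agent.P002

variable {G : Type} [Group G] {d : ℕ}

/-- Conjugate a finite matrix group into the unitary group. -/
lemma exists_unitary_model (Φ : G →* Matrix (Fin d) (Fin d) ℂ) (hfin : (Set.range Φ).Finite) :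
    ∃ U : G →* Matrix (Fin d) (Fin d) ℂ, (Set.range U).Finite ∧
      (∀ g i j, ‖U g i j‖ ≤ 1) ∧ ∀ g, U g = 1 → Φ g = 1 := by
  classical
  set T := hfin.toFinset with hT
  have h1T : (1 : Matrix (Fin d) (Fin d) ℂ) ∈ T := hfin.mem_toFinset.2 ⟨1, map_one Φ⟩
  set M := ∑ x ∈ T, xᴴ * x with hM
  have hpd : M.PosDef := by
    rw [hM, ← Finset.add_sum_erase T (fun x => xᴴ * x) h1T, conjTranspose_one, Matrix.one_mul]
    exact Matrix.PosDef.one.add_posSemidef
      (Matrix.posSemidef_sum _ fun x _ => Matrix.posSemidef_conjTranspose_mul_self x)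
  obtain ⟨B, hB⟩ : ∃ B : Matrix (Fin d) (Fin d) ℂ, M = Bᴴ * B :=
    ⟨CFC.sqrt M, by
      rw [(CFC.sqrt_nonneg M).posSemidef.1, CFC.sqrt_mul_sqrt_self M hpd.posSemidef.nonneg]⟩
  have hBu : IsUnit B.det := by
    have h := hpd.isUnit
    rw [Matrix.isUnit_iff_isUnit_det, hB, det_mul] at h
    exact isUnit_of_mul_isUnit_right h
  have hinv : ∀ g, Φ g⁻¹ * Φ g = 1 := fun g => by rw [← map_mul, inv_mul_cancel, map_one]
  have hinv' : ∀ g, Φ g * Φ g⁻¹ = 1 := fun g => by rw [← map_mul, mul_inv_cancel, map_one]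
  have hfix : ∀ g, (Φ g)ᴴ * M * Φ g = M := by
    intro g
    rw [hM, mul_sum, sum_mul]
    refine sum_bij' (fun x _ => x * Φ g) (fun x _ => x * Φ g⁻¹) ?_ ?_ ?_ ?_ ?_
    · intro x hx
      obtain ⟨a, rfl⟩ := hfin.mem_toFinset.1 hx
      exact hfin.mem_toFinset.2 ⟨a * g, map_mul Φ a g⟩
    · intro x hx
      obtain ⟨a, rfl⟩ := hfin.mem_toFinset.1 hx
      exact hfin.mem_toFinset.2 ⟨a * g⁻¹, map_mul Φ a g⁻¹⟩
    · intro x _
      rw [Matrix.mul_assoc, hinv', Matrix.mul_one]
    · intro x _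
      rw [Matrix.mul_assoc, hinv, Matrix.mul_one]
    · intro x _
      simp only [conjTranspose_mul, Matrix.mul_assoc]
  let U : G →* Matrix (Fin d) (Fin d) ℂ := MonoidHom.mk
    ⟨fun g => B * Φ g * B⁻¹, by rw [map_one, Matrix.mul_one, Matrix.mul_nonsing_inv B hBu]⟩
    fun g h => by
      show B * Φ (g * h) * B⁻¹ = B * Φ g * B⁻¹ * (B * Φ h * B⁻¹)
      rw [map_mul]
      simp only [← Matrix.mul_assoc]
      rw [Matrix.mul_assoc (B * Φ g) B⁻¹, Matrix.nonsing_inv_mul B hBu, Matrix.mul_one]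
  refine ⟨U, (hfin.image fun x => B * x * B⁻¹).subset ?_, fun g i j => ?_, fun g hg => ?_⟩
  · rintro _ ⟨g, rfl⟩
    exact ⟨Φ g, ⟨g, rfl⟩, rfl⟩
  · refine entry_norm_bound_of_unitary (Matrix.mem_unitaryGroup_iff'.2 ?_) i j
    show (B * Φ g * B⁻¹)ᴴ * (B * Φ g * B⁻¹) = 1
    calc (B * Φ g * B⁻¹)ᴴ * (B * Φ g * B⁻¹)
        = (B⁻¹)ᴴ * ((Φ g)ᴴ * (Bᴴ * B) * Φ g) * B⁻¹ := by
          simp only [conjTranspose_mul, Matrix.mul_assoc]
      _ = (B⁻¹)ᴴ * (Bᴴ * B) * B⁻¹ := by rw [← hB, hfix]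
      _ = 1 := by
          rw [← Matrix.mul_assoc, ← conjTranspose_mul, Matrix.mul_nonsing_inv B hBu,
            conjTranspose_one, Matrix.one_mul, Matrix.mul_nonsing_inv B hBu]
  · have h : B * Φ g * B⁻¹ = 1 := hg
    calc Φ g = B⁻¹ * (B * Φ g * B⁻¹) * B := by
          simp only [← Matrix.mul_assoc, Matrix.nonsing_inv_mul B hBu, Matrix.one_mul]
          rw [Matrix.mul_assoc, Matrix.nonsing_inv_mul B hBu, Matrix.mul_one]
      _ = 1 := by rw [h, Matrix.mul_one, Matrix.nonsing_inv_mul B hBu]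

lemma norm_le_of_entry {C : ℝ} (A : Matrix (Fin d) (Fin d) ℂ) (hC : 0 ≤ C)
    (h : ∀ i j, ‖A i j‖ ≤ C) : ‖A‖ ≤ (d + 1) * C := by
  rw [Matrix.linfty_opNorm_def]
  have hn : (Finset.univ.sup fun i => ∑ j, ‖A i j‖₊) ≤ ((d + 1) * C).toNNReal := by
    refine Finset.sup_le fun i _ => ?_
    rw [← NNReal.coe_le_coe, Real.coe_toNNReal _ (by positivity), NNReal.coe_sum]
    calc ∑ j, (‖A i j‖₊ : ℝ) ≤ ∑ _j : Fin d, C := sum_le_sum fun j _ => h i j
      _ = d * C := by simp
      _ ≤ (d + 1) * C := by nlinarith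
  exact (NNReal.coe_le_coe.2 hn).trans_eq (Real.coe_toNNReal _ (by positivity))

/-- The subgroup generated by the elements close to the identity. -/
def nearSub (U : G →* Matrix (Fin d) (Fin d) ℂ) (t : ℝ) : Subgroup G :=
  Subgroup.closure {g | ‖U g - 1‖ < t ∧ ‖U g⁻¹ - 1‖ < t}

/-- Finite linear groups have a solvable subgroup of bounded index. -/
theorem exists_solvable_bound (d : ℕ) :
    ∃ J : ℕ, ∀ {G : Type} [Group G] (Φ : G →* Matrix (Fin d) (Fin d) ℂ),
      (Set.range Φ).Finite → ∃ H : Subgroup G, H.index ≠ 0 ∧ H.index ≤ J ∧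
        ∃ k, ∀ x ∈ series H k, Φ x = 1 := by
  classical
  set C : ℝ := d + 1 with hCdef
  have hC : 1 ≤ C := by simp [C]
  set ε : ℝ := 1 / (4 * C) with hεdef
  have hε : 0 < ε := by positivity
  have : ProperSpace (Matrix (Fin d) (Fin d) ℂ) := FiniteDimensional.proper_rclike ℂ _
  obtain ⟨c, -, hcfin, hccov⟩ := Metric.finite_approx_of_totallyBounded
    (isCompact_closedBall (0 : Matrix (Fin d) (Fin d) ℂ) C).totallyBounded (ε / (2 * C))
    (by positivity)
  refine ⟨hcfin.toFinset.card, fun {G} _ Φ hfin => ?_⟩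
  obtain ⟨U, hUfin, hUent, hUker⟩ := exists_unitary_model Φ hfin
  have hUn : ∀ g, ‖U g‖ ≤ C := fun g =>
    (norm_le_of_entry (U g) zero_le_one (hUent g)).trans_eq (mul_one _)
  set H := nearSub U ε with hH
  -- cosets
  have hcov : ∀ g, ∃ x : hcfin.toFinset, dist (U g) x.1 < ε / (2 * C) := by
    intro g
    have := hccov (show U g ∈ Metric.closedBall 0 C by
      rw [mem_closedBall_zero_iff]; exact hUn g)
    obtain ⟨x, hx, hd⟩ := Set.mem_iUnion₂.1 this
    exact ⟨⟨x, hcfin.mem_toFinset.2 hx⟩, Metric.mem_ball.1 hd⟩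
  choose cl hcl using hcov
  have hinj : Function.Injective fun u : G ⧸ H => cl u.out := by
    intro u v h
    have h1 : ‖U v.out - U u.out‖ < ε / C := by
      rw [← dist_eq_norm]
      calc dist (U v.out) (U u.out) ≤ dist (U v.out) (cl v.out).1 + dist (U u.out) (cl v.out).1 :=
            dist_triangle_right _ _ _
        _ < ε / (2 * C) + ε / (2 * C) := add_lt_add (hcl _) (by
            have := hcl u.out
            rwa [show cl u.out = cl v.out from h] at this)
        _ = ε / C := by ring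
    have h2 : ∀ a b : G, ‖U b - U a‖ < ε / C → ‖U (a⁻¹ * b) - 1‖ < ε := by
      intro a b hab
      have : U (a⁻¹ * b) - 1 = U a⁻¹ * (U b - U a) := by
        rw [mul_sub, ← map_mul, ← map_mul, inv_mul_cancel, map_one]
      rw [this]
      calc ‖U a⁻¹ * (U b - U a)‖ ≤ ‖U a⁻¹‖ * ‖U b - U a‖ := norm_mul_le _ _
        _ ≤ C * ‖U b - U a‖ := mul_le_mul_of_nonneg_right (hUn _) (norm_nonneg _)
        _ < C * (ε / C) := mul_lt_mul_of_pos_left hab (by positivity)
        _ = ε := by field_simp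
    rw [← QuotientGroup.out_eq' u, ← QuotientGroup.out_eq' v]
    refine QuotientGroup.eq.2 (Subgroup.subset_closure ⟨h2 _ _ h1, ?_⟩)
    rw [_root_.mul_inv_rev, inv_inv]
    exact h2 _ _ (by rwa [norm_sub_rev])
  have hfinq : Finite (G ⧸ H) := Finite.of_injective _ hinj
  refine ⟨H, ?_, ?_, ?_⟩
  · exact (Nat.card_pos (α := G ⧸ H)).ne'
  · exact (Nat.card_le_card_of_injective _ hinj).trans_eq
      (by rw [Nat.card_eq_fintype_card, Fintype.card_coe])
  -- commutators
  have key : ∀ a b : G, ‖U ⁅a, b⁆ - 1‖ ≤ 2 * C * ‖U a - 1‖ * ‖U b - 1‖ := by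
    intro a b
    have h1 : U ⁅a, b⁆ - 1 =
        ((U a - 1) * (U b - 1) - (U b - 1) * (U a - 1)) * U (a⁻¹ * b⁻¹) := by
      rw [show (U a - 1) * (U b - 1) - (U b - 1) * (U a - 1) = U a * U b - U b * U a by
          noncomm_ring, sub_mul, ← map_mul, ← map_mul, ← map_mul, ← map_mul,
        show a * b * (a⁻¹ * b⁻¹) = ⁅a, b⁆ by rw [commutatorElement_def]; group,
        show b * a * (a⁻¹ * b⁻¹) = 1 by group, map_one]
    rw [h1]
    calc ‖((U a - 1) * (U b - 1) - (U b - 1) * (U a - 1)) * U (a⁻¹ * b⁻¹)‖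
        ≤ ‖(U a - 1) * (U b - 1) - (U b - 1) * (U a - 1)‖ * ‖U (a⁻¹ * b⁻¹)‖ := norm_mul_le _ _
      _ ≤ (2 * (‖U a - 1‖ * ‖U b - 1‖)) * C := by
          refine mul_le_mul ?_ (hUn _) (norm_nonneg _) (by positivity)
          refine (norm_sub_le _ _).trans ((add_le_add (norm_mul_le _ _)
            (norm_mul_le _ _)).trans_eq ?_)
          rw [mul_comm ‖U b - 1‖, two_mul]
      _ = 2 * C * ‖U a - 1‖ * ‖U b - 1‖ := by ring
  -- the filtration
  set t : ℕ → ℝ := fun k => ε / 2 ^ k with ht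
  have hts : ∀ k, t (k + 1) = t k / 2 := fun k => by simp only [t, pow_succ]; ring
  have htpos : ∀ k, 0 < t k := fun k => by positivity
  have htle : ∀ k, t k ≤ ε := fun k => div_le_self hε.le (one_le_pow₀ one_le_two)
  have hmon : ∀ k, nearSub U (t (k + 1)) ≤ nearSub U (t k) := fun k => by
    have h : t (k + 1) ≤ t k := by rw [hts]; linarith [htpos k]
    exact Subgroup.closure_mono fun g hg =>
      ⟨lt_of_lt_of_le hg.1 h, lt_of_lt_of_le hg.2 h⟩
  have hsmall : ∀ k a b, ‖U a - 1‖ < ε → ‖U b - 1‖ < t k →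
      ⁅a, b⁆ ∈ nearSub U (t (k + 1)) := by
    intro k a b ha hb
    have h2 : 2 * C * ‖U a - 1‖ * ‖U b - 1‖ < t (k + 1) :=
      calc 2 * C * ‖U a - 1‖ * ‖U b - 1‖ ≤ 2 * C * ε * ‖U b - 1‖ := by gcongr
        _ < 2 * C * ε * t k := mul_lt_mul_of_pos_left hb (by positivity)
        _ = t (k + 1) := by rw [hts, hεdef]; field_simp; ring
    refine Subgroup.subset_closure ⟨lt_of_le_of_lt (key a b) h2, ?_⟩
    rw [commutatorElement_inv]
    exact lt_of_le_of_lt ((key b a).trans_eq (by ring)) h2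
  have hnorm : ∀ k, ∀ s ∈ H, ∀ x ∈ nearSub U (t k), s * x * s⁻¹ ∈ nearSub U (t k) := by
    intro k
    have hgen : ∀ s x : G, ‖U s - 1‖ < ε → x ∈ nearSub U (t k) →
        s * x * s⁻¹ ∈ nearSub U (t k) := by
      intro s x hs hx
      induction hx using Subgroup.closure_induction with
      | mem x hx =>
        rw [show s * x * s⁻¹ = ⁅s, x⁆ * x by rw [commutatorElement_def]; group]
        exact Subgroup.mul_mem _ (hmon k (hsmall k s x hs hx.1)) (Subgroup.subset_closure hx)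
      | one => simp
      | mul x y _ _ hx hy =>
        rw [show s * (x * y) * s⁻¹ = s * x * s⁻¹ * (s * y * s⁻¹) by group]
        exact Subgroup.mul_mem _ hx hy
      | inv x _ hx =>
        rw [show s * x⁻¹ * s⁻¹ = (s * x * s⁻¹)⁻¹ by group]
        exact Subgroup.inv_mem _ hx
    intro s hs
    induction hs using Subgroup.closure_induction'' with
    | mem s hs => exact fun x hx => hgen s x hs.1 hx
    | inv_mem s hs => exact fun x hx => hgen s⁻¹ x hs.2 hx
    | one => simp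
    | mul a b _ _ ha hb =>
      intro x hx
      rw [show a * b * x * (a * b)⁻¹ = a * (b * x * b⁻¹) * a⁻¹ by group]
      exact ha _ (hb x hx)
  have hle : ∀ k, nearSub U (t k) ≤ H := fun k => Subgroup.closure_mono fun g hg =>
    ⟨lt_of_lt_of_le hg.1 (htle k), lt_of_lt_of_le hg.2 (htle k)⟩
  have hseries : ∀ k, series H k ≤ nearSub U (t k) := by
    intro k
    induction k with
    | zero => simp [series, t, H]
    | succ k ih =>
      refine (Subgroup.commutator_mono ih ih).trans (Subgroup.commutator_le.2 ?_)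
      have hN : ∀ s ∈ nearSub U (t k), ∀ x ∈ nearSub U (t (k + 1)),
          s * x * s⁻¹ ∈ nearSub U (t (k + 1)) := fun s hs => hnorm (k + 1) s (hle k hs)
      have hone : ∀ a, ‖U a - 1‖ < t k → ∀ b ∈ nearSub U (t k),
          ⁅a, b⁆ ∈ nearSub U (t (k + 1)) := by
        intro a ha b hb
        induction hb using Subgroup.closure_induction with
        | mem b hb => exact hsmall k a b (lt_of_lt_of_le ha (htle k)) hb.1
        | one => simp
        | mul b c hb _ h1 h2 =>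
          rw [show ⁅a, b * c⁆ = ⁅a, b⁆ * (b * ⁅a, c⁆ * b⁻¹) by
            simp only [commutatorElement_def]; group]
          exact Subgroup.mul_mem _ h1 (hN b hb _ h2)
        | inv b hb h1 =>
          rw [show ⁅a, b⁻¹⁆ = b⁻¹ * ⁅a, b⁆⁻¹ * b⁻¹⁻¹ by simp only [commutatorElement_def]; group]
          exact hN _ (Subgroup.inv_mem _ hb) _ (Subgroup.inv_mem _ h1)
      intro a ha b hb
      induction ha using Subgroup.closure_induction with
      | mem a ha => exact hone a ha.1 b hb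
      | one => simp
      | mul a c ha _ h1 h2 =>
        rw [show ⁅a * c, b⁆ = a * ⁅c, b⁆ * a⁻¹ * ⁅a, b⁆ by
          simp only [commutatorElement_def]; group]
        exact Subgroup.mul_mem _ (hN a ha _ h2) h1
      | inv a ha h1 =>
        rw [show ⁅a⁻¹, b⁆ = a⁻¹ * ⁅a, b⁆⁻¹ * a⁻¹⁻¹ by simp only [commutatorElement_def]; group]
        exact hN _ (Subgroup.inv_mem _ ha) _ (Subgroup.inv_mem _ h1)
  obtain ⟨δ, hδ, hδle⟩ : ∃ δ > 0, ∀ g, ‖U g - 1‖ < δ → U g = 1 := by
    set T := hUfin.toFinset.filter fun A => A ≠ 1 with hT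
    rcases T.eq_empty_or_nonempty with h0 | hne
    · refine ⟨1, one_pos, fun g _ => ?_⟩
      by_contra hg
      have : U g ∈ T := mem_filter.2 ⟨hUfin.mem_toFinset.2 ⟨g, rfl⟩, hg⟩
      simp [h0] at this
    · obtain ⟨A, hA, hmin⟩ := T.exists_min_image (fun A => ‖A - 1‖) hne
      refine ⟨‖A - 1‖, norm_pos_iff.2 (sub_ne_zero.2 (mem_filter.1 hA).2), fun g hg => ?_⟩
      by_contra hgne
      exact not_lt.2 (hmin _ (mem_filter.2 ⟨hUfin.mem_toFinset.2 ⟨g, rfl⟩, hgne⟩)) hg
  obtain ⟨k, hk⟩ := exists_pow_lt_of_lt_one (div_pos hδ hε) (show (1 : ℝ) / 2 < 1 by norm_num)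
  have htk : t k < δ := by
    have := (lt_div_iff₀ hε).1 hk
    calc t k = (1 / 2) ^ k * ε := by simp only [t, div_pow, one_pow]; ring
      _ < δ := this
  refine ⟨k, fun x hx => hUker x ?_⟩
  have hx' := hseries k hx
  clear hx
  induction hx' using Subgroup.closure_induction with
  | mem x hx => exact hδle x (hx.1.trans htk)
  | one => exact map_one U
  | mul x y _ _ hx hy => rw [map_mul, hx, hy, mul_one]
  | inv x _ hx =>
    calc U x⁻¹ = U x⁻¹ * U x := by rw [hx, mul_one]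
      _ = 1 := by rw [← map_mul, inv_mul_cancel, map_one]

end Vale.Agent.P002
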