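import Mathlib

/-!
P002: integral points are dense on torsion translates of subtori of a torus.
-/

open Finset

namespace Vale.Agent.P002

variable {I : Type} [Fintype I]

/-- The monomial with exponent `v`. -/
def mono (x : I → ℂˣ) (v : I → ℤ) : ℂˣ := ∏ p, x p ^ v p

lemma mono_zero (x : I → ℂˣ) : mono x 0 = 1 := by simp [mono]

lemma mono_add (x : I → ℂˣ) (v w : I → ℤ) : mono x (v + w) = mono x v * mono x w := by
  simp [mono, zpow_add, prod_mul_distrib]

lemma mono_zsmul (x : I → ℂˣ) (a : ℤ) (v : I → ℤ) : mono x (a • v) = mono x v ^ a := by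
  rw [mono, mono, ← prod_zpow]
  exact prod_congr rfl fun p _ => by simp [← zpow_mul, mul_comm]

lemma mono_sum {κ : Type} (x : I → ℂˣ) (s : Finset κ) (c : κ → ℤ) (v : κ → I → ℤ) :
    mono x (∑ k ∈ s, c k • v k) = ∏ k ∈ s, mono x (v k) ^ c k := by
  classical
  induction s using Finset.induction_on with
  | empty => simp [mono_zero]
  | insert a s ha ih => rw [sum_insert ha, prod_insert ha, mono_add, mono_zsmul, ih]

lemma mono_update [DecidableEq I] (t : I → ℂˣ) (q : I) (c : ℂˣ) (w : I → ℤ) :
    mono (Function.update t q c) w = mono (Function.update t q 1) w * c ^ w q := by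
  rw [mono, mono, ← mul_prod_erase univ _ (mem_univ q), ← mul_prod_erase univ (fun p =>
    Function.update t q 1 p ^ w p) (mem_univ q), Function.update_self, Function.update_self,
    one_zpow, one_mul, mul_comm]
  congr 1
  exact prod_congr rfl fun p hp => by
    rw [Function.update_of_ne (ne_of_mem_erase hp), Function.update_of_ne (ne_of_mem_erase hp)]

/-- A polynomial in monomials of one variable that vanishes on an infinite cyclic group
vanishes everywhere. -/
lemma one_var (P : MvPolynomial I ℂ) (k : I → ℂ) (e : I → ℤ) (u : ℂˣ)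
    (hu : ∀ a b : ℕ, u ^ a = u ^ b → a = b)
    (h : ∀ a : ℕ, MvPolynomial.eval (fun p => k p * ((u ^ a) ^ e p : ℂˣ)) P = 0) (c : ℂˣ) :
    MvPolynomial.eval (fun p => k p * (c ^ e p : ℂˣ)) P = 0 := by
  set Q : LaurentPolynomial ℂ :=
    MvPolynomial.aeval (fun p => LaurentPolynomial.C (k p) * LaurentPolynomial.T (e p)) P with hQ
  have hev0 : ∀ (c : ℂˣ) (R : MvPolynomial I ℂ), LaurentPolynomial.eval₂ (RingHom.id ℂ) c
      (MvPolynomial.aeval (fun p => LaurentPolynomial.C (k p) * LaurentPolynomial.T (e p)) R) =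
      MvPolynomial.eval (fun p => k p * (c ^ e p : ℂˣ)) R := by
    intro c R
    induction R using MvPolynomial.induction_on with
    | C a => simp
    | add p q hp hq => rw [map_add, map_add, map_add, hp, hq]
    | mul_X p i hp => simp [hp]
  have hev : ∀ c : ℂˣ, LaurentPolynomial.eval₂ (RingHom.id ℂ) c Q =
      MvPolynomial.eval (fun p => k p * (c ^ e p : ℂˣ)) P := fun c => hev0 c P
  obtain ⟨d, q, hq⟩ := LaurentPolynomial.exists_T_pow Q
  have he : ∀ c : ℂˣ, q.eval (c : ℂ) =
      LaurentPolynomial.eval₂ (RingHom.id ℂ) c Q * ((c ^ (d : ℤ) : ℂˣ) : ℂ) := by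
    intro c
    have := congrArg (LaurentPolynomial.eval₂ (RingHom.id ℂ) c) hq
    rw [map_mul, LaurentPolynomial.eval₂_toLaurent, LaurentPolynomial.eval₂_T,
      Polynomial.eval₂_id] at this
    exact this
  have hq0 : q = 0 := by
    refine Polynomial.eq_zero_of_infinite_isRoot q (Set.infinite_of_injective_forall_mem
      (f := fun a : ℕ => ((u ^ a : ℂˣ) : ℂ)) (fun a b hab => hu a b (Units.ext hab)) fun a => ?_)
    rw [Set.mem_ofPred_eq, Polynomial.IsRoot, he, hev, h a, zero_mul]
  have := he c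
  rw [hq0, Polynomial.eval_zero, hev] at this
  exact (mul_eq_zero.1 this.symm).resolve_right (Units.ne_zero _)

variable [DecidableEq I]

/-- Integral points on a torsion translate of a subtorus are dense. -/
theorem torus_dense (H : Submodule ℤ (I → ℤ)) (N : ℕ) (hN : 0 < N) :
    ∃ M : ℕ, 0 < M ∧ ∀ (S : Subring ℂ) (u : ℂˣ), (∀ ζ : ℂ, ζ ^ M = 1 → ζ ∈ S) →
      (u : ℂ) ∈ S → (↑u⁻¹ : ℂ) ∈ S → (∀ a b : ℕ, u ^ a = u ^ b → a = b) →
      ∀ (P : MvPolynomial I ℂ) (x : I → ℂˣ), (∀ v ∈ H, mono x v ^ N = 1) →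
        (∀ y : I → ℂˣ, (∀ v ∈ H, mono y v = mono x v) → (∀ p, (y p : ℂ) ∈ S) →
          MvPolynomial.eval (fun p => (y p : ℂ)) P = 0) →
        MvPolynomial.eval (fun p => (x p : ℂ)) P = 0 := by
  obtain ⟨m, snf⟩ := Submodule.smithNormalForm (Pi.basisFun ℤ I) H
  have ha : ∀ j, snf.a j ≠ 0 := by
    intro j h0
    apply snf.bN.ne_zero j
    ext1
    rw [snf.snf j, h0, zero_smul]
    rfl
  set M := N * ∏ j, (snf.a j).natAbs with hM
  refine ⟨M, Nat.mul_pos hN (prod_pos fun j _ => Int.natAbs_pos.2 (ha j)), ?_⟩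
  intro S u hζ hu hu' hinj P x hx hP
  set bM := snf.bM
  set R := Set.range snf.f
  set s : I → ℂˣ := fun q => mono x (bM q) with hs
  set ev : (I → ℂˣ) → I → ℂˣ := fun t p => mono t (bM.repr (Pi.single p 1)) with hev
  have hmono : ∀ (t : I → ℂˣ) (v : I → ℤ), mono (ev t) v = mono t (bM.repr v) := by
    intro t v
    have e : (⇑(bM.repr v) : I → ℤ) = ∑ p, v p • ⇑(bM.repr (Pi.single p 1)) := by
      conv_lhs => rw [pi_eq_sum_univ' v]
      simp only [map_sum, map_smul, Finsupp.coe_finsetSum, Finsupp.coe_smul]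
    rw [e, mono_sum]
    rfl
  have hsx : ev s = x := by
    funext p
    have : mono s (bM.repr (Pi.single p 1)) = mono x (∑ q, bM.repr (Pi.single p 1) q • bM q) :=
      (mono_sum x univ _ fun q => bM q).symm
    rw [bM.sum_repr] at this
    show mono s (bM.repr (Pi.single p 1)) = x p
    rw [this, mono, prod_eq_single p (fun q _ hq => by simp [Pi.single_eq_of_ne hq])
      (fun h => absurd (mem_univ p) h)]
    simp
  have hroot : ∀ q ∈ R, s q ^ M = 1 := by
    rintro q ⟨j, rfl⟩
    have h1 := hx _ (snf.bN j).2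
    rw [snf.snf j, mono_zsmul] at h1
    have h3 : s (snf.f j) ^ (snf.a j * N) = 1 := by
      rw [zpow_mul, zpow_natCast]; exact h1
    have hd : (snf.a j * (N : ℤ)) ∣ (M : ℤ) := by
      rw [hM, mul_comm, Nat.cast_mul]
      refine mul_dvd_mul_left _ (((Int.dvd_natAbs).2 dvd_rfl).trans
        (Int.natCast_dvd_natCast.2 (Finset.dvd_prod_of_mem _ (mem_univ j))))
    obtain ⟨c, hc⟩ := hd
    have := congrArg (· ^ c) h3
    simp only [← zpow_mul, ← hc, one_zpow, zpow_natCast] at this
    exact this
  set K : Set ℂˣ := {z | (z : ℂ) ∈ S ∧ (↑z⁻¹ : ℂ) ∈ S}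
  have key : ∀ T : Finset I, (∀ q ∈ T, q ∉ R) → ∀ t : I → ℂˣ, (∀ q ∈ R, t q = s q) →
      (∀ q, q ∉ T → t q ∈ K) → MvPolynomial.eval (fun p => (ev t p : ℂ)) P = 0 := by
    intro T
    induction T using Finset.induction_on with
    | empty =>
      intro _ t ht hK
      refine hP (ev t) (fun v hv => ?_) (fun p => ?_)
      · rw [hmono, ← hsx, hmono]
        refine prod_congr rfl fun q _ => ?_
        by_cases hq : q ∈ R
        · rw [ht q hq]
        · rw [snf.repr_eq_zero_of_notMem_range ⟨v, hv⟩ hq, zpow_zero, zpow_zero]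
      · simp only [hev, mono, Units.coe_prod]
        refine prod_mem fun q _ => ?_
        obtain ⟨h1, h2⟩ := hK q (notMem_empty q)
        obtain ⟨a, ha | ha⟩ := Int.eq_nat_or_neg (bM.repr (Pi.single p 1) q)
        · rw [ha, zpow_natCast, Units.val_pow_eq_pow_val]; exact pow_mem h1 a
        · rw [ha, zpow_neg, zpow_natCast, ← inv_pow, Units.val_pow_eq_pow_val]; exact pow_mem h2 a
    | insert q T hqT ih =>
      intro hR t ht hK
      have hqR : q ∉ R := hR q (mem_insert_self q T)
      set k : I → ℂ := fun p => (mono (Function.update t q 1) (bM.repr (Pi.single p 1)) : ℂ)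
      set e : I → ℤ := fun p => bM.repr (Pi.single p 1) q
      have hform : ∀ c : ℂˣ, (fun p => (ev (Function.update t q c) p : ℂ)) =
          fun p => k p * (c ^ e p : ℂˣ) := fun c => funext fun p => by
        simp only [hev, k, e, mono_update t q c, Units.val_mul]
      have hz := one_var P k e u hinj (fun a => ?_) (t q)
      · rwa [← hform, Function.update_eq_self] at hz
      · rw [← hform]
        refine ih (fun p hp => hR p (mem_insert_of_mem hp)) _ (fun p hp => ?_) (fun p hp => ?_)
        · rw [Function.update_of_ne (show p ≠ q from fun e' => hqR (e' ▸ hp)), ht p hp]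
        · by_cases hpq : p = q
          · subst hpq
            rw [Function.update_self]
            refine ⟨?_, ?_⟩
            · rw [Units.val_pow_eq_pow_val]; exact pow_mem hu a
            · rw [← inv_pow, Units.val_pow_eq_pow_val]; exact pow_mem hu' a
          · rw [Function.update_of_ne hpq]
            exact hK p (by simp [hpq, hp])
  classical
  have := key (univ.filter fun q => q ∉ R) (fun q hq => (mem_filter.1 hq).2) s (fun q _ => rfl)
    (fun q hq => ?_)
  · rwa [hsx] at this
  · have hqR : q ∈ R := by simpa using hq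
    have h := hroot q hqR
    refine ⟨hζ _ (by rw [← Units.val_pow_eq_pow_val, h, Units.val_one]),
      hζ _ (by rw [← Units.val_pow_eq_pow_val, inv_pow, h, inv_one, Units.val_one])⟩

end Vale.Agent.P002
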