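import Vale.Agent.P002.Defs
import Vale.Agent.P002.Diag
import Vale.Agent.P002.Torus

/-!
P002: integral points are dense among the points of `Y` with commutative image.
-/

open Matrix Finset

namespace Vale.Agent.P002

variable {G : Type} [Group G] {n r s : ℕ}

/-- The exponent sums of a word. -/
def expo (n : ℕ) : FreeGroup (Fin n) →* Multiplicative (Fin n → ℤ) :=
  FreeGroup.lift fun k => Multiplicative.ofAdd (Pi.single k 1)

/-- An exponent vector placed in row `i`. -/
def rowVec (i : Fin r) (v : Fin n → ℤ) : Fin r × Fin n → ℤ :=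
  fun p => if p.1 = i then v p.2 else 0

lemma rowVec_mono (x : Fin r × Fin n → ℂˣ) (i : Fin r) (w : FreeGroup (Fin n)) :
    mono x (rowVec i (Multiplicative.toAdd (expo n w))) = FreeGroup.lift (fun k => x (i, k)) w := by
  have h0 : rowVec i (0 : Fin n → ℤ) = 0 := by funext p; simp [rowVec]
  have hadd : ∀ a b : Fin n → ℤ, rowVec i (a + b) = rowVec i a + rowVec i b := by
    intro a b; funext p; by_cases hp : p.1 = i <;> simp [rowVec, hp]
  let φ : FreeGroup (Fin n) →* ℂˣ :=
    { toFun := fun w => mono x (rowVec i (Multiplicative.toAdd (expo n w)))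
      map_one' := by simp [h0, mono_zero]
      map_mul' := fun a b => by simp only [map_mul, toAdd_mul, hadd, mono_add] }
  refine congrFun (congrArg DFunLike.coe (FreeGroup.ext_hom φ _ fun k => ?_)) w
  show mono x (rowVec i (Multiplicative.toAdd (expo n (FreeGroup.of k)))) = _
  rw [expo, FreeGroup.lift_apply_of, FreeGroup.lift_apply_of, toAdd_ofAdd]
  have : rowVec i (Pi.single k (1 : ℤ)) = Pi.single (i, k) 1 := by
    funext ⟨a, b⟩
    by_cases ha : a = i <;> by_cases hb : b = k <;> simp [rowVec, ha, hb]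
  rw [this, mono, prod_eq_single (i, k) (fun q _ hq => by simp [Pi.single_eq_of_ne hq])
    (fun h => absurd (mem_univ _) h)]
  simp

/-- The coordinates of a diagonal representation. -/
def diagCoord (x : Fin r × Fin n → ℂ) : Coord n r → ℂ :=
  fun p => if p.2.1 = p.2.2 then x (p.2.1, p.1) else 0

lemma eval_diag (F : MvPolynomial (Coord n r) ℂ) :
    ∃ F' : MvPolynomial (Fin r × Fin n) ℂ, ∀ x, MvPolynomial.eval x F' =
      MvPolynomial.eval (diagCoord x) F := by
  refine ⟨MvPolynomial.aeval (fun p : Coord n r =>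
    if p.2.1 = p.2.2 then MvPolynomial.X (p.2.1, p.1) else 0) F, fun x => ?_⟩
  induction F using MvPolynomial.induction_on with
  | C a => simp
  | add p q hp hq => rw [map_add, map_add, map_add, hp, hq]
  | mul_X p i hp =>
    rw [map_mul, map_mul, map_mul, hp, MvPolynomial.aeval_X, MvPolynomial.eval_X]
    by_cases hi : i.2.1 = i.2.2 <;> simp [diagCoord, hi]

lemma quasi_order (C : Fin s → Matrix.SpecialLinearGroup (Fin r) ℂ)
    (hC : ∀ j, QuasiUnipotent (C j)) :
    ∃ N : ℕ, 0 < N ∧ ∀ j μ, (C j).1.charpoly.IsRoot μ → μ ^ N = 1 := by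
  classical
  set T : Finset ℂ := univ.biUnion fun j => (C j).1.charpoly.roots.toFinset with hT
  have hmem : ∀ j μ, (C j).1.charpoly.IsRoot μ → μ ∈ T := fun j μ h =>
    mem_biUnion.2 ⟨j, mem_univ _, Multiset.mem_toFinset.2
      (Polynomial.mem_roots'.2 ⟨(Matrix.charpoly_monic _).ne_zero, h⟩)⟩
  have hall : ∀ μ ∈ T, ∃ N : ℕ, 0 < N ∧ μ ^ N = 1 := fun μ h => by
    obtain ⟨j, _, hj⟩ := mem_biUnion.1 h
    exact hC j μ (Polynomial.mem_roots'.1 (Multiset.mem_toFinset.1 hj)).2
  choose! N hN using hall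
  refine ⟨∏ μ ∈ T, N μ, prod_pos fun μ h => (hN μ h).1, fun j μ h => ?_⟩
  obtain ⟨c, hc⟩ := dvd_prod_of_mem N (hmem j μ h)
  rw [hc, pow_mul, (hN μ (hmem j μ h)).2, one_pow]

lemma exists_field (M : ℕ) (hM : 0 < M) :
    ∃ L : IntermediateField ℚ ℂ, FiniteDimensional ℚ L ∧ ∃ (S : Subring ℂ) (u : ℂˣ),
      (∀ x ∈ S, IsInt L x) ∧ (∀ ζ : ℂ, ζ ^ M = 1 → ζ ∈ S) ∧ (u : ℂ) ∈ S ∧
      (↑u⁻¹ : ℂ) ∈ S ∧ ∀ a b : ℕ, u ^ a = u ^ b → a = b := by
  set t : ℂ := ((Real.sqrt 2 : ℝ) : ℂ) with ht
  have ht2 : t ^ 2 = 2 := by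
    rw [ht, ← Complex.ofReal_pow, Real.sq_sqrt (by norm_num)]; norm_num
  have hti : IsIntegral ℤ t := IsIntegral.of_pow two_pos (ht2 ▸ isIntegral_algebraMap (x := (2 : ℤ)))
  set A : Set ℂ := insert t {ζ : ℂ | ζ ^ M = 1}
  have hfin : A.Finite := by
    refine Set.Finite.insert _ ((Polynomial.nthRoots M (1 : ℂ)).toFinset.finite_toSet.subset ?_)
    intro ζ hζ
    simp only [mem_coe, Multiset.mem_toFinset, Polynomial.mem_nthRoots hM]
    exact hζ
  have hint : ∀ x ∈ A, IsIntegral ℤ x := by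
    rintro x (rfl | hx)
    · exact hti
    · exact IsIntegral.of_pow hM (hx ▸ isIntegral_one)
  have : Finite A := hfin
  set L := IntermediateField.adjoin ℚ A
  refine ⟨L, IntermediateField.finiteDimensional_adjoin fun x hx => (hint x hx).tower_top,
    L.toSubalgebra.toSubring ⊓ (integralClosure ℤ ℂ).toSubring,
    ⟨t + 1, t - 1, by linear_combination ht2, by linear_combination ht2⟩,
    fun x hx => ⟨hx.1, hx.2⟩, fun ζ hζ => ?_, ?_, ?_, ?_⟩
  · exact ⟨IntermediateField.subset_adjoin ℚ A (Or.inr hζ), hint ζ (Or.inr hζ)⟩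
  · exact ⟨add_mem (IntermediateField.subset_adjoin ℚ A (Or.inl rfl)) (one_mem _),
      hti.add isIntegral_one⟩
  · exact ⟨sub_mem (IntermediateField.subset_adjoin ℚ A (Or.inl rfl)) (one_mem _),
      hti.sub isIntegral_one⟩
  · intro a b hab
    have h1 := congrArg Units.val hab
    simp only [Units.val_pow_eq_pow_val, ht] at h1
    have h2 : (Real.sqrt 2 + 1) ^ a = (Real.sqrt 2 + 1) ^ b := by exact_mod_cast h1
    have h3 : 1 < Real.sqrt 2 + 1 := by
      have : 0 < Real.sqrt 2 := by positivity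
      linarith
    exact pow_right_injective₀ (by positivity) h3.ne' h2

theorem abelian_image_dense (gens : Fin n → G) (hgens : Subgroup.closure (Set.range gens) = ⊤)
    (γ : Fin s → G) (C : Fin s → Matrix.SpecialLinearGroup (Fin r) ℂ)
    (hC : ∀ j, QuasiUnipotent (C j)) :
    ∃ L : IntermediateField ℚ ℂ, FiniteDimensional ℚ L ∧
      ∀ F : MvPolynomial (Coord n r) ℂ, Invariant gens F →
        (∀ ρ : Rep G r, InY γ C ρ → IntegralRep gens L ρ →
          MvPolynomial.eval (coords gens ρ) F = 0) →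
        ∀ ρ : Rep G r, InY γ C ρ → AbelianImage ρ →
          MvPolynomial.eval (coords gens ρ) F = 0 := by
  classical
  set ψ : FreeGroup (Fin n) →* G := FreeGroup.lift gens with hψ
  have hsurj : Function.Surjective ψ :=
    MonoidHom.range_eq_top.1 (by rw [hψ, FreeGroup.range_lift_eq_closure, hgens])
  obtain ⟨N, hN, hNr⟩ := quasi_order C hC
  set gen : Set (Fin r × Fin n → ℤ) :=
    {v | ∃ i w, (ψ w = 1 ∨ ∃ j, ψ w = γ j) ∧ v = rowVec i (Multiplicative.toAdd (expo n w))} ∪
      Set.range fun k (p : Fin r × Fin n) => if p.2 = k then (1 : ℤ) else 0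
  set H := Submodule.span ℤ gen with hH
  obtain ⟨M, hM, hdense⟩ := torus_dense H N hN
  obtain ⟨L, hL, S, u, hSint, hζ, hu, hu', hinj⟩ := exists_field M hM
  refine ⟨L, hL, fun F hF hvan ρ hρ hab => ?_⟩
  obtain ⟨P, χ, hχ⟩ := exists_diag ρ hρ.1 hab
  set ρd := conjRep P⁻¹ ρ with hρd
  have hd : ∀ g, (ρd g).1 = Matrix.diagonal (χ g) := fun g => by
    show (P⁻¹ * ρ g * P⁻¹⁻¹).1 = _
    rw [inv_inv, hχ]
  rw [← hF ρ P⁻¹]
  show MvPolynomial.eval (coords gens ρd) F = 0
  have hχ1 : ∀ i, χ 1 i = 1 := fun i => by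
    have := congrFun (congrFun (hd 1) i) i
    simpa using this.symm
  have hχm : ∀ g h i, χ (g * h) i = χ g i * χ h i := fun g h i => by
    have h1 : (ρd (g * h)).1 = (ρd g).1 * (ρd h).1 := congrArg Subtype.val (map_mul ρd g h)
    rw [hd, hd, hd, Matrix.diagonal_mul_diagonal] at h1
    simpa using congrFun (congrFun h1 i) i
  let χu : Fin r → G →* ℂˣ := fun i => MonoidHom.toHomUnits
    { toFun := fun g => χ g i, map_one' := hχ1 i, map_mul' := fun g h => hχm g h i }
  have hχu : ∀ i g, (χu i g : ℂ) = χ g i := fun _ _ => rfl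
  set x : Fin r × Fin n → ℂˣ := fun p => χu p.1 (gens p.2) with hx
  have hxw : ∀ i w, mono x (rowVec i (Multiplicative.toAdd (expo n w))) = χu i (ψ w) := by
    intro i w
    rw [rowVec_mono]
    exact congrFun (congrArg DFunLike.coe (FreeGroup.ext_hom _ ((χu i).comp ψ)
      fun k => by simp [hx, hψ])) w
  have hcol : ∀ (y : Fin r × Fin n → ℂˣ) k,
      mono y (fun p => if p.2 = k then (1 : ℤ) else 0) = ∏ i, y (i, k) := by
    intro y k
    simp [mono, Fintype.prod_prod_type, apply_ite, prod_ite_eq']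
  have hdet : ∀ g, ∏ i, χu i g = 1 := fun g => Units.ext <| by
    have h1 := (ρd g).2
    rw [hd, det_diagonal] at h1
    simp [Units.coe_prod, hχu, h1]
  have hcoord : ∀ (τ : Rep G r) (z : Fin r → G → ℂˣ),
      (∀ g, (τ g).1 = Matrix.diagonal fun i => (z i g : ℂ)) →
      coords gens τ = diagCoord fun p => (z p.1 (gens p.2) : ℂ) := by
    intro τ z hz
    funext ⟨k, a, b⟩
    simp only [coords, diagCoord, hz, Matrix.diagonal_apply]
  obtain ⟨F', hF'⟩ := eval_diag F
  rw [hcoord ρd (fun i g => χu i g) fun g => hd g, ← hF']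
  have hxN : ∀ v ∈ H, mono x v ^ N = 1 := by
    intro v hv
    induction hv using Submodule.span_induction with
    | mem v hv =>
      rcases hv with ⟨i, w, hw, rfl⟩ | ⟨k, rfl⟩
      · rw [hxw]
        rcases hw with hw | ⟨j, hw⟩
        · rw [hw, map_one, one_pow]
        · rw [hw]
          refine Units.ext ?_
          rw [Units.val_pow_eq_pow_val, hχu, Units.val_one]
          refine hNr j _ ?_
          obtain ⟨Q, hQ⟩ := hρ.2 j
          have hQ' : ρd (γ j) = (P⁻¹ * Q) * C j * (P⁻¹ * Q)⁻¹ := by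
            show P⁻¹ * ρ (γ j) * P⁻¹⁻¹ = _
            rw [hQ]; group
          set R := P⁻¹ * Q with hR
          have hR' : (R⁻¹).1 * R.1 = 1 := congrArg Subtype.val (inv_mul_cancel R)
          have h1 : (Matrix.diagonal (χ (γ j))).charpoly = (C j).1.charpoly := by
            rw [← hd, hQ']
            show (R.1 * (C j).1 * (R⁻¹).1).charpoly = _
            rw [Matrix.charpoly_mul_comm, ← Matrix.mul_assoc, hR', Matrix.one_mul]
          rw [Matrix.charpoly_diagonal] at h1
          rw [← h1, Polynomial.IsRoot, Polynomial.eval_prod]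
          exact prod_eq_zero (mem_univ i) (by simp)
      · rw [hcol]
        simp [hx, hdet]
    | zero => rw [mono_zero, one_pow]
    | add a b _ _ ha hb => rw [mono_add, mul_pow, ha, hb, one_mul]
    | smul c a _ ha => rw [mono_zsmul, ← zpow_natCast, zpow_comm, zpow_natCast, ha, _root_.one_zpow]
  refine hdense S u hζ hu hu' hinj F' x hxN fun y hy hyS => ?_
  have hyw : ∀ i w, (ψ w = 1 ∨ ∃ j, ψ w = γ j) →
      FreeGroup.lift (fun k => y (i, k)) w = χu i (ψ w) := fun i w hw => by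
    rw [← rowVec_mono, hy _ (Submodule.subset_span (Or.inl ⟨i, w, hw, rfl⟩)), hxw]
  have hker : ∀ i, ψ.ker ≤ (FreeGroup.lift fun k => y (i, k)).ker := fun i w hw => by
    rw [MonoidHom.mem_ker] at hw ⊢
    rw [hyw i w (Or.inl hw), hw, map_one]
  let η : Fin r → G →* ℂˣ := fun i => ψ.liftOfSurjective hsurj ⟨_, hker i⟩
  have hη : ∀ i w, η i (ψ w) = FreeGroup.lift (fun k => y (i, k)) w := fun i w =>
    MonoidHom.liftOfRightInverse_comp_apply _ _ _ _ w
  have hηg : ∀ i k, η i (gens k) = y (i, k) := fun i k => by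
    have := hη i (FreeGroup.of k)
    simpa [hψ] using this
  have hηdet : ∀ g, ∏ i, η i g = 1 := fun g => by
    have : (∏ i, η i) = 1 := MonoidHom.eq_of_eqOn_dense hgens (by
      rintro _ ⟨k, rfl⟩
      have h2 := hy _ (Submodule.subset_span (Or.inr ⟨k, rfl⟩))
      rw [hcol, hcol] at h2
      simp [hηg, h2, hx, hdet])
    simpa using congrFun (congrArg DFunLike.coe this) g
  let τ : Rep G r :=
    { toFun := fun g => ⟨Matrix.diagonal fun i => (η i g : ℂ), by
        rw [det_diagonal, ← Units.coe_prod, hηdet, Units.val_one]⟩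
      map_one' := Subtype.ext (by simp)
      map_mul' := fun g h => Subtype.ext (by
        show Matrix.diagonal _ = Matrix.diagonal _ * Matrix.diagonal _
        simp [Matrix.diagonal_mul_diagonal]) }
  have hτ : ∀ g, (τ g).1 = Matrix.diagonal fun i => (η i g : ℂ) := fun _ => rfl
  have hcy : coords gens τ = diagCoord fun p => (y p : ℂ) := by
    rw [hcoord τ (fun i g => η i g) hτ]
    simp [hηg]
  rw [hF', ← hcy]
  refine hvan τ ⟨diag_semisimple τ _ hτ, fun j => ?_⟩ fun p => ?_
  · obtain ⟨Q, hQ⟩ := hρ.2 j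
    obtain ⟨w, hw⟩ := hsurj (γ j)
    refine ⟨P⁻¹ * Q, ?_⟩
    have : τ (γ j) = ρd (γ j) := Subtype.ext (by
      rw [hτ, hd]
      congr 1
      funext i
      rw [← hw, hη, hyw i w (Or.inr ⟨j, hw⟩), hχu])
    rw [this]
    show P⁻¹ * ρ (γ j) * P⁻¹⁻¹ = _
    rw [hQ]; group
  · rw [hcy, diagCoord]
    split_ifs
    · exact hSint _ (hyS _)
    · exact hSint _ (zero_mem S)

end Vale.Agent.P002
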