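import Vale.Agent.P002.Defs
import Vale.Agent.P002.Diag

/-!
P002: monomial matrices as a semidirect product, and semisimplicity of monomial representations.
-/

open Matrix Finset

namespace Vale.Agent.P002

/-- Signed permutations with coefficients in `A`. -/
abbrev MonGrp (A : Type) [CommGroup A] (r : ℕ) : Type :=
  (Fin r → A) ⋊[(mulAutArrow : Equiv.Perm (Fin r) →* MulAut (Fin r → A))] Equiv.Perm (Fin r)

variable {r : ℕ}

lemma arrow_apply {A : Type} [CommGroup A] (σ : Equiv.Perm (Fin r)) (f : Fin r → A) (i : Fin r) :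
    (mulAutArrow : Equiv.Perm (Fin r) →* MulAut (Fin r → A)) σ f i = f (σ⁻¹ i) := rfl

/-- Functoriality in the coefficients. -/
def mapMon {A B : Type} [CommGroup A] [CommGroup B] (f : A →* B) : MonGrp A r →* MonGrp B r :=
  SemidirectProduct.map (f.compLeft (Fin r)) (MonoidHom.id _) fun g => by
    ext v i
    rfl

lemma mapMon_left {A B : Type} [CommGroup A] [CommGroup B] (f : A →* B) (a : MonGrp A r)
    (i : Fin r) : (mapMon f a).left i = f (a.left i) := rfl

lemma mapMon_right {A B : Type} [CommGroup A] [CommGroup B] (f : A →* B) (a : MonGrp A r) :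
    (mapMon f a).right = a.right := rfl

/-- The matrix of an element. -/
noncomputable def monMat : MonGrp ℂˣ r →* Matrix (Fin r) (Fin r) ℂ where
  toFun a := Matrix.of fun i j => if a.right j = i then (a.left i : ℂ) else 0
  map_one' := by
    ext i j
    simp [Matrix.one_apply, eq_comm]
  map_mul' a b := by
    ext i j
    rw [mul_apply, sum_eq_single (b.right j)]
    · show (if a.right (b.right j) = i then ((a.left i * b.left (a.right⁻¹ i) : ℂˣ) : ℂ) else 0) =
        (if a.right (b.right j) = i then (a.left i : ℂ) else 0) *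
          (if b.right j = b.right j then (b.left (b.right j) : ℂ) else 0)
      by_cases h : a.right (b.right j) = i
      · rw [if_pos h, if_pos h, if_pos rfl, ← h]
        simp
      · rw [if_neg h, if_neg h, zero_mul]
    · intro k _ hk
      simp [Ne.symm hk]
    · exact fun h => absurd (mem_univ _) h

lemma monMat_apply (a : MonGrp ℂˣ r) (i j : Fin r) :
    monMat a i j = if a.right j = i then (a.left i : ℂ) else 0 := rfl

lemma monMat_injective : Function.Injective (monMat (r := r)) := by
  intro a b h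
  have hr : a.right = b.right := by
    refine Equiv.ext fun j => ?_
    by_contra hne
    have := congrFun (congrFun h (a.right j)) j
    rw [monMat_apply, monMat_apply, if_pos rfl, if_neg (Ne.symm hne)] at this
    exact Units.ne_zero _ this
  refine SemidirectProduct.ext (funext fun i => Units.ext ?_) hr
  have := congrFun (congrFun h i) (a.right⁻¹ i)
  rw [monMat_apply, monMat_apply, ← hr, if_pos (by simp), if_pos (by simp)] at this
  exact this

lemma monMat_inl (t : Fin r → ℂˣ) :
    monMat (SemidirectProduct.inl t) = Matrix.diagonal fun i => (t i : ℂ) := by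
  ext i j
  simp [monMat_apply, Matrix.diagonal_apply, eq_comm]

lemma monMat_of_right_one (a : MonGrp ℂˣ r) (h : a.right = 1) :
    monMat a = Matrix.diagonal fun i => (a.left i : ℂ) := by
  ext i j
  simp [monMat_apply, h, Matrix.diagonal_apply, eq_comm]

lemma det_monMat (a : MonGrp ℂˣ r) :
    (monMat a).det = (∏ i, (a.left i : ℂ)) * (monMat (SemidirectProduct.inr a.right)).det := by
  conv_lhs => rw [← SemidirectProduct.inl_left_mul_inr_right a, map_mul, det_mul, monMat_inl,
    det_diagonal]

lemma det_monMat_inr_pow (σ : Equiv.Perm (Fin r)) :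
    (monMat (SemidirectProduct.inr σ : MonGrp ℂˣ r)).det ^
      Fintype.card (Equiv.Perm (Fin r)) = 1 := by
  rw [← det_pow, ← map_pow, ← map_pow, pow_card_eq_one, map_one, map_one, det_one]

/-- Entries of monomial matrices with prescribed permutation, equal along cycles, give conjugate
elements. -/
lemma exists_conj (a b : MonGrp ℂˣ r) (hr : a.right = b.right)
    (h : ∀ i p, (a.right ^ p) i = i → (a ^ p).left i = (b ^ p).left i) :
    ∃ t : Fin r → ℂˣ, SemidirectProduct.inl t * a = b * SemidirectProduct.inl t := by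
  classical
  set σ := a.right with hσ
  have hpr : ∀ c : MonGrp ℂˣ r, ∀ k : ℕ, (c ^ k).right = c.right ^ k := fun c k =>
    map_pow SemidirectProduct.rightHom c k
  have hadd : ∀ c : MonGrp ℂˣ r, c.right = σ → ∀ k p q, (σ ^ p) q = q →
      (c ^ (k + p)).left ((σ ^ k) q) = (c ^ k).left ((σ ^ k) q) * (c ^ p).left q := by
    intro c hc k p q _
    rw [pow_add, SemidirectProduct.mul_left, Pi.mul_apply, arrow_apply, hpr, hc,
      Equiv.Perm.inv_def, Equiv.symm_apply_apply]
  have hwd : ∀ q k k', k ≤ k' → (σ ^ k) q = (σ ^ k') q →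
      (b ^ k).left ((σ ^ k) q) / (a ^ k).left ((σ ^ k) q) =
        (b ^ k').left ((σ ^ k') q) / (a ^ k').left ((σ ^ k') q) := by
    intro q k k' hle heq
    obtain ⟨p, rfl⟩ := Nat.exists_eq_add_of_le hle
    have hp : (σ ^ p) q = q := by
      rw [pow_add, Equiv.Perm.mul_apply] at heq
      exact ((σ ^ k).injective heq).symm
    rw [← heq, hadd b hr.symm k p q hp, hadd a rfl k p q hp, h q p hp, mul_div_mul_right_eq_div]
  have hrep : ∀ i, ∃ k : ℕ, (σ ^ k) (Quotient.out (Quotient.mk (Equiv.Perm.SameCycle.setoid σ) i))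
      = i := by
    intro i
    obtain ⟨k, _, hk⟩ := Equiv.Perm.SameCycle.exists_pow_eq'
      (show σ.SameCycle _ i from Quotient.mk_out (s := Equiv.Perm.SameCycle.setoid σ) i)
    exact ⟨k, hk⟩
  choose k hk using hrep
  set t : Fin r → ℂˣ := fun i => (b ^ k i).left i / (a ^ k i).left i with ht
  refine ⟨t, SemidirectProduct.ext (funext fun i => ?_) (by simp [← hσ, ← hr])⟩
  simp only [SemidirectProduct.mul_left, SemidirectProduct.left_inl, SemidirectProduct.right_inl,
    map_one, MulAut.one_apply, Pi.mul_apply, arrow_apply, ← hr]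
  set j := σ⁻¹ i with hj
  have hji : σ j = i := by simp [hj]
  have hq : Quotient.mk (Equiv.Perm.SameCycle.setoid σ) i =
      Quotient.mk (Equiv.Perm.SameCycle.setoid σ) j := by
    refine Quotient.sound (show σ.SameCycle i j from ?_)
    rw [← hji]
    exact Equiv.Perm.sameCycle_apply_left.2 (Equiv.Perm.SameCycle.refl σ j)
  set q := Quotient.out (Quotient.mk (Equiv.Perm.SameCycle.setoid σ) i) with hqd
  have h1 : (σ ^ k i) q = i := hk i
  have h2 : (σ ^ (k j + 1)) q = i := by
    have := hk j
    rw [← hq] at this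
    rw [pow_succ', Equiv.Perm.mul_apply, this, hji]
  have key : t i = (b ^ (k j + 1)).left i / (a ^ (k j + 1)).left i := by
    rcases le_total (k i) (k j + 1) with hle | hle
    · have := hwd q _ _ hle (h1.trans h2.symm)
      rw [h1, h2] at this; exact this
    · have := hwd q _ _ hle (h2.trans h1.symm)
      rw [h1, h2] at this; exact this.symm
  rw [key, pow_succ', pow_succ', SemidirectProduct.mul_left, SemidirectProduct.mul_left,
    Pi.mul_apply, Pi.mul_apply, arrow_apply, arrow_apply, ← hr, ← hσ, ← hj, ht]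
  simp only [div_eq_mul_inv, _root_.mul_inv_rev]
  rw [mul_assoc _ (_ * (a.left i)⁻¹), inv_mul_cancel_right, mul_assoc]

/-- Scale a conjugating matrix into `SL_r`. -/
lemma exists_SL_conj (A B : Matrix.SpecialLinearGroup (Fin r) ℂ) (P : Matrix (Fin r) (Fin r) ℂ)
    (hP : P.det ≠ 0) (h : P * A.1 = B.1 * P) :
    ∃ Q : Matrix.SpecialLinearGroup (Fin r) ℂ, B = Q * A * Q⁻¹ := by
  obtain ⟨z, hz⟩ : ∃ z : ℂ, z ^ r * P.det = 1 := by
    rcases Nat.eq_zero_or_pos r with rfl | hr
    · exact ⟨1, by simp⟩
    · obtain ⟨z, hz⟩ := IsAlgClosed.exists_pow_nat_eq P.det⁻¹ hr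
      exact ⟨z, by rw [hz, inv_mul_cancel₀ hP]⟩
  obtain ⟨Q, hQ⟩ : ∃ Q : Matrix.SpecialLinearGroup (Fin r) ℂ, Q.1 = z • P :=
    ⟨⟨z • P, by rw [det_smul, Fintype.card_fin, hz]⟩, rfl⟩
  have h1 : Q * A = B * Q := Subtype.ext (by
    show Q.1 * A.1 = B.1 * Q.1
    rw [hQ, Matrix.smul_mul, h, Matrix.mul_smul])
  exact ⟨Q, by rw [h1, mul_inv_cancel_right]⟩

variable {G : Type} [Group G]

lemma mon_semisimple (ρ : Rep G r) (θ : G →* MonGrp ℂˣ r)
    (h : ∀ g, (ρ g).1 = monMat (θ g)) : Semisimple ρ := by
  classical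
  intro W hW
  set K : Subgroup G := (SemidirectProduct.rightHom.comp θ).ker
  have hK : Finite (G ⧸ K) := Finite.of_equiv _ (QuotientGroup.quotientKerEquivRange
    (SemidirectProduct.rightHom.comp θ)).symm.toEquiv
  let _ : Fintype (G ⧸ K) := Fintype.ofFinite _
  set R : G →* Module.End ℂ (Fin r → ℂ) :=
    { toFun := fun g => (ρ g).1.mulVecLin
      map_one' := by simp [Module.End.one_eq_id]
      map_mul' := fun a b => by simp [Module.End.mul_eq_comp] }
  obtain ⟨W', hW', hc⟩ := diag_semisimple (ρ.comp K.subtype)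
    (fun g i => ((θ g).left i : ℂ))
    (fun g => (h g).trans (monMat_of_right_one _ g.2)) W (fun g => hW g)
  set p : Module.End ℂ (Fin r → ℂ) := W.projection W' hc
  have hRW : ∀ g, ∀ v ∈ W, R g v ∈ W := fun g v hv => hW g v hv
  have hpK : ∀ g ∈ K, R g * p = p * R g := by
    intro g hg
    refine LinearMap.ext fun v => ?_
    obtain ⟨w, hw, w', hw', rfl⟩ := Submodule.mem_sup.1
      (hc.sup_eq_top.symm ▸ Submodule.mem_top : v ∈ W ⊔ W')
    simp only [Module.End.mul_apply, map_add, p, Submodule.projection_apply_left hc ⟨w, hw⟩,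
      Submodule.projection_apply_left hc ⟨_, hRW g w hw⟩]
    have h1 : W.projection W' hc w' = 0 := (Submodule.projection_apply_eq_zero_iff hc).2 hw'
    have h2 : W.projection W' hc (R g w') = 0 :=
      (Submodule.projection_apply_eq_zero_iff hc).2 (hW' ⟨g, hg⟩ w' hw')
    simp only [h1, h2, map_zero]
  set φ : G ⧸ K → Module.End ℂ (Fin r → ℂ) := fun c => R c.out * p * R c.out⁻¹
  have hφ : ∀ g : G, φ g = R g * p * R g⁻¹ := by
    intro g
    obtain ⟨k, hk⟩ := QuotientGroup.mk_out_eq_mul K g
    simp only [φ, hk, map_mul, _root_.mul_inv_rev]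
    rw [mul_assoc (R g) _ p, hpK _ k.2, ← mul_assoc, ← mul_assoc, mul_assoc _ (R _) (R (k : G)⁻¹),
      ← map_mul, mul_inv_cancel, map_one, mul_one]
  set m : ℕ := Fintype.card (G ⧸ K) with hm
  set π : Module.End ℂ (Fin r → ℂ) := (m : ℂ)⁻¹ • ∑ c, φ c with hπ
  have hinv : ∀ g, R g * π = π * R g := by
    intro g
    have : R g * ∑ c, φ c = (∑ c, φ c) * R g := by
      rw [mul_sum, sum_mul]
      refine (Equiv.sum_comp (MulAction.toPerm g : Equiv.Perm (G ⧸ K)) fun c => φ c * R g).symm.trans
        ?_ |>.symm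
      refine sum_congr rfl fun c _ => ?_
      induction c using QuotientGroup.induction_on with
      | _ a =>
        show φ ((g * a : G) : G ⧸ K) * R g = R g * φ a
        rw [hφ, hφ, _root_.mul_inv_rev, mul_assoc, ← map_mul, inv_mul_cancel_right, map_mul]
        simp only [mul_assoc]
    rw [hπ, mul_smul_comm, smul_mul_assoc, this]
  have hmem : ∀ v, π v ∈ W := fun v => by
    rw [hπ, LinearMap.smul_apply, LinearMap.sum_apply]
    exact W.smul_mem _ (W.sum_mem fun c _ => hRW _ _ (Submodule.projection_apply_mem hc _))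
  have hfix : ∀ v ∈ W, π v = v := by
    intro v hv
    have : ∀ c, φ c v = v := fun c => by
      simp only [φ, Module.End.mul_apply, p,
        Submodule.projection_apply_left hc ⟨_, hRW c.out⁻¹ v hv⟩]
      rw [← Module.End.mul_apply, ← map_mul, mul_inv_cancel, map_one, Module.End.one_apply]
    rw [hπ, LinearMap.smul_apply, LinearMap.sum_apply, sum_congr rfl fun c _ => this c, sum_const,
      card_univ, ← Nat.cast_smul_eq_nsmul ℂ, smul_smul, ← hm, inv_mul_cancel₀ (Nat.cast_ne_zero.2 (hm ▸ Fintype.card_ne_zero)), one_smul]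
  refine ⟨LinearMap.ker π, fun g v hv => ?_, ?_⟩
  · rw [LinearMap.mem_ker] at hv ⊢
    have := LinearMap.congr_fun (hinv g) v
    simp only [Module.End.mul_apply, hv, map_zero] at this
    exact this.symm
  · refine ⟨Submodule.disjoint_def.2 fun v hv hk => ?_, codisjoint_iff.2 (eq_top_iff.2 fun v _ => ?_)⟩
    · rw [← hfix v hv, LinearMap.mem_ker.1 hk]
    · rw [← add_sub_cancel (π v) v]
      refine Submodule.add_mem_sup (hmem v) ?_
      rw [LinearMap.mem_ker, map_sub, hfix _ (hmem v), sub_self]

end Vale.Agent.P002
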