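import Vale.Agent.P002.Mono
import Vale.Agent.P002.Main

/-!
P002: integral points are dense among the monomial points of `Y`.
-/

open Matrix Finset

namespace Vale.Agent.P002

variable {G : Type} [Group G] {n r s : ℕ}

/-- The monomial with variable exponent, as a homomorphism. -/
def monoHom {I : Type} [Fintype I] (y : I → ℂˣ) : Multiplicative (I → ℤ) →* ℂˣ where
  toFun v := mono y (Multiplicative.toAdd v)
  map_one' := mono_zero y
  map_mul' _ _ := mono_add y _ _

/-- The universal monomial lift of a word with permutations `π` at the generators. -/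
def univLift (π : Fin n → Equiv.Perm (Fin r)) :
    FreeGroup (Fin n) →* MonGrp (Multiplicative (Fin r × Fin n → ℤ)) r :=
  FreeGroup.lift fun k => ⟨fun i => Multiplicative.ofAdd (Pi.single (i, k) 1), π k⟩

/-- The monomial lift of a word with given entries at the generators. -/
def entryLift (π : Fin n → Equiv.Perm (Fin r)) (y : Fin r × Fin n → ℂˣ) :
    FreeGroup (Fin n) →* MonGrp ℂˣ r :=
  FreeGroup.lift fun k => ⟨fun i => y (i, k), π k⟩

lemma entryLift_eq (π : Fin n → Equiv.Perm (Fin r)) (y : Fin r × Fin n → ℂˣ)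
    (w : FreeGroup (Fin n)) : entryLift π y w = mapMon (monoHom y) (univLift π w) := by
  refine congrFun (congrArg DFunLike.coe (FreeGroup.ext_hom (entryLift π y)
    ((mapMon (monoHom y)).comp (univLift π)) fun k => ?_)) w
  rw [entryLift, MonoidHom.comp_apply, univLift, FreeGroup.lift_apply_of, FreeGroup.lift_apply_of]
  refine SemidirectProduct.ext (funext fun i => ?_) rfl
  show y (i, k) = mono y (Pi.single (i, k) 1)
  rw [mono, prod_eq_single (i, k) (fun q _ hq => by simp [Pi.single_eq_of_ne hq])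
    (fun h => absurd (mem_univ _) h)]
  simp

lemma monomial_lift (ρ : Rep G r) (hρ : Monomial ρ) :
    ∃ P : Matrix.SpecialLinearGroup (Fin r) ℂ, ∃ θ : G →* MonGrp ℂˣ r,
      ∀ g, (P⁻¹ * ρ g * P).1 = monMat (θ g) := by
  classical
  obtain ⟨P, hP⟩ := hρ
  choose σ hσ using hP
  have hunit : ∀ g, IsUnit (P⁻¹ * ρ g * P).1 := fun g =>
    (Matrix.isUnit_iff_isUnit_det _).2 (by rw [(P⁻¹ * ρ g * P).2]; exact isUnit_one)
  have hne : ∀ g j, (P⁻¹ * ρ g * P).1 (σ g j) j ≠ 0 := by
    intro g j h0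
    have h1 : (P⁻¹ * ρ g * P).1.det = 0 := det_eq_zero_of_column_eq_zero j fun k => by
      by_cases hk : k = σ g j
      · rw [hk, h0]
      · exact hσ g j k hk
    rw [(P⁻¹ * ρ g * P).2] at h1
    exact one_ne_zero h1
  have hinj : ∀ g, Function.Injective (σ g) := by
    intro g a b hab
    set A := (P⁻¹ * ρ g * P).1 with hA
    have h1 : A *ᵥ (Pi.single a (A (σ g a) b) - Pi.single b (A (σ g a) a)) = 0 := by
      funext k
      simp only [mulVec_sub, mulVec_single, Pi.sub_apply, Pi.smul_apply, Matrix.col_apply,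
        Pi.zero_apply, MulOpposite.smul_eq_mul_unop]
      by_cases hk : k = σ g a
      · subst hk; simp [mul_comm]
      · simp only [hA, hσ g a k hk, hσ g b k (hab ▸ hk)]
        ring
    rw [← mulVec_zero A] at h1
    have h2 := congrFun ((Matrix.mulVec_injective_iff_isUnit.2 (hunit g)) h1) b
    by_contra hne'
    simp [Ne.symm hne'] at h2
    exact hne g a h2
  let π : G → Equiv.Perm (Fin r) := fun g =>
    Equiv.ofBijective (σ g) (Finite.injective_iff_bijective.1 (hinj g))
  let T : G → MonGrp ℂˣ r := fun g =>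
    ⟨fun i => Units.mk0 ((P⁻¹ * ρ g * P).1 i ((π g).symm i)) (by
      have := hne g ((π g).symm i)
      rwa [show σ g ((π g).symm i) = i from (π g).apply_symm_apply i] at this), π g⟩
  have hT : ∀ g, (P⁻¹ * ρ g * P).1 = monMat (T g) := by
    intro g
    ext i j
    rw [monMat_apply]
    show _ = if σ g j = i then (P⁻¹ * ρ g * P).1 i ((π g).symm i) else 0
    split_ifs with h
    · rw [show (π g).symm i = j from (π g).symm_apply_eq.2 h.symm]
    · exact hσ g j i (Ne.symm h)
  refine ⟨P, { toFun := T, map_one' := monMat_injective ?_, map_mul' := fun g h =>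
    monMat_injective ?_ }, hT⟩
  · rw [← hT, map_one monMat, map_one ρ]
    exact congrArg Subtype.val (show P⁻¹ * 1 * P = 1 by group)
  · rw [map_mul monMat, ← hT, ← hT, ← hT, map_mul ρ]
    exact congrArg Subtype.val
      (show P⁻¹ * (ρ g * ρ h) * P = (P⁻¹ * ρ g * P) * (P⁻¹ * ρ h * P) by group)

lemma eval_mon (π : Fin n → Equiv.Perm (Fin r)) (F : MvPolynomial (Coord n r) ℂ) :
    ∃ F' : MvPolynomial (Fin r × Fin n) ℂ, ∀ x, MvPolynomial.eval x F' =
      MvPolynomial.eval (fun p => if π p.1 p.2.2 = p.2.1 then x (p.2.1, p.1) else 0) F := by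
  refine ⟨MvPolynomial.aeval (fun p : Coord n r =>
    if π p.1 p.2.2 = p.2.1 then MvPolynomial.X (p.2.1, p.1) else 0) F, fun x => ?_⟩
  induction F using MvPolynomial.induction_on with
  | C a => simp
  | add p q hp hq => rw [map_add, map_add, map_add, hp, hq]
  | mul_X p i hp =>
    rw [map_mul, map_mul, map_mul, hp, MvPolynomial.aeval_X, MvPolynomial.eval_X]
    by_cases hi : π i.1 i.2.2 = i.2.1 <;> simp [hi]

theorem monomial_dense (gens : Fin n → G) (hgens : Subgroup.closure (Set.range gens) = ⊤)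
    (γ : Fin s → G) (C : Fin s → Matrix.SpecialLinearGroup (Fin r) ℂ)
    (hC : ∀ j, QuasiUnipotent (C j)) :
    ∃ L : IntermediateField ℚ ℂ, FiniteDimensional ℚ L ∧
      ∀ F : MvPolynomial (Coord n r) ℂ, Invariant gens F →
        (∀ ρ : Rep G r, InY γ C ρ → IntegralRep gens L ρ →
          MvPolynomial.eval (coords gens ρ) F = 0) →
        ∀ ρ : Rep G r, InY γ C ρ → Monomial ρ →
          MvPolynomial.eval (coords gens ρ) F = 0 := by
  classical
  set ψ : FreeGroup (Fin n) →* G := FreeGroup.lift gens with hψ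
  have hsurj : Function.Surjective ψ :=
    MonoidHom.range_eq_top.1 (by rw [hψ, FreeGroup.range_lift_eq_closure, hgens])
  obtain ⟨N0, hN0, hNr⟩ := quasi_order C hC
  set c : ℕ := Fintype.card (Equiv.Perm (Fin r)) with hcdef
  have hc : 0 < c := Fintype.card_pos
  set H : (Fin n → Equiv.Perm (Fin r)) → Submodule ℤ (Fin r × Fin n → ℤ) := fun π =>
    Submodule.span ℤ
      ({v | ∃ i w, (ψ w = 1 ∨ ∃ j p, ψ w = γ j ^ p ∧ (univLift π w).right i = i) ∧
          v = Multiplicative.toAdd ((univLift π w).left i)} ∪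
        Set.range fun k (p : Fin r × Fin n) => if p.2 = k then (1 : ℤ) else 0) with hH
  choose M hM hdense using fun π => torus_dense (H π) (N0 * c) (Nat.mul_pos hN0 hc)
  obtain ⟨L, hL, S, u, hSint, hζ, hu, hu', hinj⟩ :=
    exists_field (∏ π, M π) (prod_pos fun π _ => hM π)
  refine ⟨L, hL, fun F hF hvan ρ hρ hmon => ?_⟩
  obtain ⟨P, θ, hθ⟩ := monomial_lift ρ hmon
  set ρd := conjRep P⁻¹ ρ with hρd
  have hd : ∀ g, (ρd g).1 = monMat (θ g) := fun g => by
    show (P⁻¹ * ρ g * P⁻¹⁻¹).1 = _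
    rw [inv_inv, hθ]
  rw [← hF ρ P⁻¹]
  show MvPolynomial.eval (coords gens ρd) F = 0
  set π : Fin n → Equiv.Perm (Fin r) := fun k => (θ (gens k)).right with hπ
  set x : Fin r × Fin n → ℂˣ := fun p => (θ (gens p.2)).left p.1 with hx
  have hxw : ∀ w, θ (ψ w) = mapMon (monoHom x) (univLift π w) := fun w => by
    rw [← entryLift_eq]
    exact congrFun (congrArg DFunLike.coe (FreeGroup.ext_hom (θ.comp ψ) (entryLift π x)
      fun k => by
        rw [MonoidHom.comp_apply, hψ, entryLift, FreeGroup.lift_apply_of, FreeGroup.lift_apply_of])) w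
  have hcol : ∀ (y : Fin r × Fin n → ℂˣ) k,
      mono y (fun p => if p.2 = k then (1 : ℤ) else 0) = ∏ i, y (i, k) := by
    intro y k
    simp [mono, Fintype.prod_prod_type, apply_ite, prod_ite_eq']
  have hdet : ∀ g, (∏ i, ((θ g).left i : ℂ)) *
      (monMat (SemidirectProduct.inr (θ g).right : MonGrp ℂˣ r)).det = 1 := fun g => by
    rw [← det_monMat, ← hd]
    exact (ρd g).2
  have hcprod : ∀ g, (∏ i, (θ g).left i) ^ c = 1 := fun g => Units.ext (by
    have h1 := congrArg (· ^ c) (hdet g)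
    simp only [mul_pow, one_pow] at h1
    rw [det_monMat_inr_pow, mul_one] at h1
    rw [Units.val_pow_eq_pow_val, Units.coe_prod, Units.val_one, h1])
  have hcyc : ∀ j p i, (θ (γ j ^ p)).right i = i →
      ((θ (γ j ^ p)).left i : ℂ) ^ N0 = 1 := by
    intro j p i hi
    rcases Nat.eq_zero_or_pos p with rfl | hp
    · rw [pow_zero, map_one θ]; simp
    set l : ℂ := ((θ (γ j ^ p)).left i : ℂ) with hl
    have hspec : l ∈ spectrum ℂ (ρd (γ j ^ p)).1 := by
      rw [mem_spectrum_iff_isRoot_charpoly, Polynomial.IsRoot, eval_charpoly]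
      refine det_eq_zero_of_column_eq_zero i fun k => ?_
      rw [Matrix.sub_apply, scalar_apply, hd, monMat_apply, hi, diagonal_apply, hl]
      rcases eq_or_ne k i with rfl | hk <;> simp [*, Ne.symm]
    obtain ⟨Q, hQ⟩ := hρ.2 j
    have hQ' : ρd (γ j) = (P⁻¹ * Q) * C j * (P⁻¹ * Q)⁻¹ := by
      show P⁻¹ * ρ (γ j) * P⁻¹⁻¹ = _
      rw [hQ]; group
    have h1 : (ρd (γ j ^ p)).1 = (ρd (γ j)).1 ^ p :=
      (congrArg Subtype.val (map_pow ρd (γ j) p)).trans (Matrix.SpecialLinearGroup.coe_pow _ _)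
    rw [h1, spectrum.map_pow_of_pos _ hp] at hspec
    obtain ⟨μ, hμ, hμl⟩ := hspec
    rw [mem_spectrum_iff_isRoot_charpoly] at hμ
    have h2 : (ρd (γ j)).1.charpoly = (C j).1.charpoly := by
      set R := P⁻¹ * Q with hR
      have hR' : (R⁻¹).1 * R.1 = 1 := congrArg Subtype.val (inv_mul_cancel R)
      rw [hQ']
      show (R.1 * (C j).1 * (R⁻¹).1).charpoly = _
      rw [Matrix.charpoly_mul_comm, ← Matrix.mul_assoc, hR', Matrix.one_mul]
    rw [← hμl, ← pow_mul, mul_comm, pow_mul, hNr j μ (h2 ▸ hμ), one_pow]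
  have hxN : ∀ v ∈ H π, mono x v ^ (N0 * c) = 1 := by
    intro v hv
    induction hv using Submodule.span_induction with
    | mem v hv =>
      rcases hv with ⟨i, w, hw, rfl⟩ | ⟨k, rfl⟩
      · have h0 : mono x (Multiplicative.toAdd ((univLift π w).left i)) = (θ (ψ w)).left i := by
          rw [hxw]; rfl
        rw [h0]
        rcases hw with hw | ⟨j, p, hw, hi⟩
        · rw [hw, map_one θ, SemidirectProduct.one_left, Pi.one_apply, one_pow]
        · have h1 : (θ (ψ w)).right i = i := by rw [hxw, mapMon_right, hi]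
          rw [hw] at h1
          refine Units.ext ?_
          rw [hw, Units.val_pow_eq_pow_val, pow_mul, hcyc j p i h1, one_pow, Units.val_one]
      · rw [hcol, mul_comm, pow_mul, hcprod (gens k), one_pow]
    | zero => rw [mono_zero, one_pow]
    | add a b _ _ ha hb => rw [mono_add, mul_pow, ha, hb, one_mul]
    | smul e a _ ha => rw [mono_zsmul, ← zpow_natCast, zpow_comm, zpow_natCast, ha, _root_.one_zpow]
  have hcoord : ∀ (τ : Rep G r) (y : Fin r × Fin n → ℂˣ),
      (∀ k, (τ (gens k)).1 = monMat ⟨fun i => y (i, k), π k⟩) →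
      coords gens τ = fun p => if π p.1 p.2.2 = p.2.1 then (y (p.2.1, p.1) : ℂ) else 0 := by
    intro τ y hτ
    funext ⟨k, a, b⟩
    simp only [coords, hτ]
    rfl
  obtain ⟨F', hF'⟩ := eval_mon π F
  rw [hcoord ρd x fun k => (hd _).trans (congrArg monMat (SemidirectProduct.ext rfl rfl)),
    ← hF' (fun p => (x p : ℂ))]
  refine hdense π S u (fun ζ h => hζ ζ ?_) hu hu' hinj F' x hxN fun y hy hyS => ?_
  · obtain ⟨e, he⟩ := dvd_prod_of_mem M (mem_univ π)
    rw [he, pow_mul, h, one_pow]
  set E := entryLift π y with hE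
  have hEr : ∀ w, (E w).right = (θ (ψ w)).right := fun w => by
    rw [hxw, hE, entryLift_eq, mapMon_right, mapMon_right]
  have hyw : ∀ i w, (ψ w = 1 ∨ ∃ j p, ψ w = γ j ^ p ∧ (univLift π w).right i = i) →
      (E w).left i = (θ (ψ w)).left i := fun i w hw => by
    rw [hxw, hE, entryLift_eq, mapMon_left, mapMon_left]
    exact hy _ (Submodule.subset_span (Or.inl ⟨i, w, hw, rfl⟩))
  have hker : ψ.ker ≤ E.ker := fun w hw => by
    rw [MonoidHom.mem_ker] at hw ⊢
    refine SemidirectProduct.ext (funext fun i => ?_) ?_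
    · rw [hyw i w (Or.inl hw), hw, map_one θ]
    · rw [hEr, hw, map_one θ]
  let η : G →* MonGrp ℂˣ r := ψ.liftOfSurjective hsurj ⟨E, hker⟩
  have hη : ∀ w, η (ψ w) = E w := fun w => MonoidHom.liftOfRightInverse_comp_apply _ _ _ _ w
  have hηg : ∀ k, η (gens k) = ⟨fun i => y (i, k), π k⟩ := fun k => by
    have := hη (FreeGroup.of k)
    rwa [hψ, FreeGroup.lift_apply_of, hE, entryLift, FreeGroup.lift_apply_of] at this
  have hηdet : ∀ g, (monMat (η g)).det = 1 := by
    have : (Matrix.detMonoidHom.comp (monMat.comp η) : G →* ℂ) = 1 :=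
      MonoidHom.eq_of_eqOn_dense hgens (by
        rintro _ ⟨k, rfl⟩
        show (monMat (η (gens k))).det = 1
        have h2 := hy _ (Submodule.subset_span (Or.inr ⟨k, rfl⟩))
        rw [hcol, hcol] at h2
        have h3 : (∏ i, (y (i, k) : ℂ)) = ∏ i, ((θ (gens k)).left i : ℂ) := by
          simpa [← Units.coe_prod] using congrArg Units.val h2
        rw [hηg, det_monMat]
        exact (congrArg (· * _) h3).trans (hdet (gens k)))
    exact fun g => congrFun (congrArg DFunLike.coe this) g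
  let τ : Rep G r :=
    { toFun := fun g => ⟨monMat (η g), hηdet g⟩
      map_one' := Subtype.ext (show monMat (η 1) = 1 by rw [map_one η, map_one monMat])
      map_mul' := fun g h => Subtype.ext
        (show monMat (η (g * h)) = monMat (η g) * monMat (η h) by rw [map_mul η, map_mul monMat]) }
  have hτ : ∀ g, (τ g).1 = monMat (η g) := fun _ => rfl
  have hcy : coords gens τ = fun p => if π p.1 p.2.2 = p.2.1 then (y (p.2.1, p.1) : ℂ) else 0 :=
    hcoord τ y fun k => by rw [hτ, hηg]
  rw [hF', ← hcy]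
  refine hvan τ ⟨mon_semisimple τ η hτ, fun j => ?_⟩ fun p => ?_
  · obtain ⟨w, hw⟩ := hsurj (γ j)
    have hr : (θ (γ j)).right = (η (γ j)).right := by rw [← hw, hη, hEr]
    obtain ⟨t, ht⟩ := exists_conj (θ (γ j)) (η (γ j)) hr fun i p hp => by
      rw [← map_pow, ← map_pow, ← hw, ← map_pow, hη]
      have h1 : (univLift π (w ^ p)).right i = i := by
        have h2 : (θ (ψ (w ^ p))).right = (θ (γ j)).right ^ p := by
          rw [map_pow, map_pow, hw]
          exact map_pow SemidirectProduct.rightHom _ p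
        rw [← mapMon_right (monoHom x), ← hxw, h2, hp]
      exact (hyw i (w ^ p) (Or.inr ⟨j, p, by rw [map_pow, hw], h1⟩)).symm
    obtain ⟨Q, hQ⟩ := exists_SL_conj (ρd (γ j)) (τ (γ j)) (monMat (SemidirectProduct.inl t))
      (by rw [monMat_inl, det_diagonal]; exact prod_ne_zero_iff.2 fun i _ => Units.ne_zero _)
      (by rw [hd, hτ, ← map_mul, ← map_mul, ht])
    obtain ⟨Q', hQ'⟩ := hρ.2 j
    refine ⟨Q * P⁻¹ * Q', ?_⟩
    rw [hQ]
    show Q * (P⁻¹ * ρ (γ j) * P⁻¹⁻¹) * Q⁻¹ = _
    rw [hQ']; group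
  · rw [hcy]
    dsimp only
    split_ifs
    · exact hSint _ (hyS _)
    · exact hSint _ (zero_mem S)

end Vale.Agent.P002
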