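import Vale.Agent.P002.Defs

/-!
P002: semisimple representations of nilpotent groups are monomial.
-/

open Matrix Module
open scoped commutatorElement

namespace Vale.Agent.P002

variable {G : Type} [Group G] {r : ℕ}

/-- The linear maps of a representation. -/
noncomputable def linRep (ρ : Rep G r) : G →* Module.End ℂ (Fin r → ℂ) where
  toFun g := (ρ g).1.mulVecLin
  map_one' := by simp [Module.End.one_eq_id]
  map_mul' a b := by simp [Module.End.mul_eq_comp]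

/-- Invariance under a subgroup. -/
def StableOn (R : G →* Module.End ℂ (Fin r → ℂ)) (H : Subgroup G)
    (W : Submodule ℂ (Fin r → ℂ)) : Prop :=
  ∀ h ∈ H, ∀ v ∈ W, R h v ∈ W

/-- No invariant subspaces except the trivial ones. -/
def IrredOn (R : G →* Module.End ℂ (Fin r → ℂ)) (H : Subgroup G)
    (W : Submodule ℂ (Fin r → ℂ)) : Prop :=
  ∀ U ≤ W, StableOn R H U → U = ⊥ ∨ U = W

/-- A basis permuted up to scalars. -/
def MonoOn (R : G →* Module.End ℂ (Fin r → ℂ)) (H : Subgroup G)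
    (W : Submodule ℂ (Fin r → ℂ)) : Prop :=
  ∃ b : Set (Fin r → ℂ), LinearIndepOn ℂ id b ∧ Submodule.span ℂ b = W ∧
    ∀ h ∈ H, ∀ v ∈ b, ∃ u ∈ b, ∃ a : ℂ, R h v = a • u

/-- Acts by a scalar on `W`. -/
def ScalarOn (R : G →* Module.End ℂ (Fin r → ℂ)) (W : Submodule ℂ (Fin r → ℂ)) (g : G) : Prop :=
  ∃ c : ℂ, ∀ v ∈ W, R g v = c • v

lemma inv_apply (R : G →* Module.End ℂ (Fin r → ℂ)) (g : G) (v : Fin r → ℂ) :
    R g⁻¹ (R g v) = v := by
  rw [← Module.End.mul_apply, ← map_mul, inv_mul_cancel, map_one, Module.End.one_apply]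

/-- An element which is not scalar and commutes up to scalars with the whole group. -/
lemma exists_twist [Group.IsNilpotent G] (R : G →* Module.End ℂ (Fin r → ℂ)) (H : Subgroup G)
    (W : Submodule ℂ (Fin r → ℂ)) (hW : StableOn R H W) (hns : ∃ h ∈ H, ¬ ScalarOn R W h) :
    ∃ z ∈ H, ¬ ScalarOn R W z ∧
      ∀ h ∈ H, ∃ c : ℂ, ∀ v ∈ W, R z (R h v) = c • R h (R z v) := by
  classical
  obtain ⟨m, hm⟩ := Group.IsNilpotent.nilpotent (G := H)
  have hex : ∃ k, ∃ z : H, z ∈ Subgroup.upperCentralSeries H k ∧ ¬ ScalarOn R W (z : G) := by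
    obtain ⟨h, hh, hs⟩ := hns
    exact ⟨m, ⟨h, hh⟩, hm ▸ Subgroup.mem_top _, hs⟩
  obtain ⟨z, hz, hzs⟩ := Nat.find_spec hex
  rcases hk : Nat.find hex with _ | k
  · rw [hk, Subgroup.upperCentralSeries_zero, Subgroup.mem_bot] at hz
    exact absurd ⟨1, fun v _ => by simp [hz]⟩ hzs
  rw [hk, Subgroup.mem_upperCentralSeries_succ_iff] at hz
  refine ⟨z, z.2, hzs, fun h hh => ?_⟩
  have hsc : ScalarOn R W ((⁅z, (⟨h, hh⟩ : H)⁆ : H) : G) := by
    by_contra hcon
    exact Nat.find_min hex (m := k) (by omega) ⟨_, hz ⟨h, hh⟩, hcon⟩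
  obtain ⟨c, hc⟩ := hsc
  refine ⟨c, fun v hv => ?_⟩
  have e : (z : G) * h = ((⁅z, (⟨h, hh⟩ : H)⁆ : H) : G) * (h * z) := by
    simp only [commutatorElement_def, Subgroup.coe_mul, Subgroup.coe_inv]
    group
  rw [← Module.End.mul_apply, ← map_mul, e, map_mul, Module.End.mul_apply]
  rw [hc _ (by rw [map_mul, Module.End.mul_apply]; exact hW h hh _ (hW z z.2 v hv)), map_mul,
    Module.End.mul_apply]

/-- The part of `W` in an eigenspace. -/
def eigPart (f : Module.End ℂ (Fin r → ℂ)) (W : Submodule ℂ (Fin r → ℂ)) (a : ℂ) :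
    Submodule ℂ (Fin r → ℂ) :=
  W ⊓ Module.End.eigenspace f a

lemma mem_eigPart {f : Module.End ℂ (Fin r → ℂ)} {W : Submodule ℂ (Fin r → ℂ)} {a : ℂ}
    {v : Fin r → ℂ} : v ∈ eigPart f W a ↔ v ∈ W ∧ f v = a • v := by
  rw [eigPart, Submodule.mem_inf, Module.End.mem_eigenspace_iff]

lemma eigPart_disjoint (f : Module.End ℂ (Fin r → ℂ)) (W : Submodule ℂ (Fin r → ℂ)) (a : ℂ) :
    Disjoint (eigPart f W a) (⨆ (b) (_ : b ≠ a), eigPart f W b) :=
  ((Module.End.eigenspaces_iSupIndep f).mono fun _ => inf_le_right) a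

lemma eigPart_map (R : G →* Module.End ℂ (Fin r → ℂ)) (H : Subgroup G)
    (W : Submodule ℂ (Fin r → ℂ)) (hW : StableOn R H W) (z : G) (c : G → ℂ)
    (hc : ∀ h ∈ H, ∀ v ∈ W, R z (R h v) = c h • R h (R z v)) (μ : ℂ) (w : Fin r → ℂ)
    (hw : w ∈ eigPart (R z) W μ) (hw0 : w ≠ 0) :
    ∀ h ∈ H, Submodule.map (R h) (eigPart (R z) W μ) = eigPart (R z) W (c h * μ) := by
  have hshift : ∀ h ∈ H, ∀ a v, v ∈ eigPart (R z) W a → R h v ∈ eigPart (R z) W (c h * a) := by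
    intro h hh a v hv
    rw [mem_eigPart] at hv ⊢
    refine ⟨hW h hh v hv.1, ?_⟩
    rw [hc h hh v hv.1, hv.2, map_smul, smul_smul]
  intro h hh
  refine le_antisymm (Submodule.map_le_iff_le_comap.2 fun v hv => hshift h hh μ v hv)
    fun v hv => ⟨R h⁻¹ v, ?_, by simpa using inv_apply R h⁻¹ v⟩
  have h1 := hshift h⁻¹ (H.inv_mem hh) _ _ (hshift h hh μ w hw)
  rw [inv_apply, mem_eigPart, (mem_eigPart.1 hw).2] at h1
  have hback : μ = c h⁻¹ * (c h * μ) := smul_left_injective ℂ hw0 h1.2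
  have h2 := hshift h⁻¹ (H.inv_mem hh) _ v hv
  rw [← hback] at h2
  exact h2

/-- The elements of `H` fixing a subspace. -/
def stabSub (R : G →* Module.End ℂ (Fin r → ℂ)) (H : Subgroup G)
    (E : Submodule ℂ (Fin r → ℂ)) : Subgroup G where
  carrier := {h | h ∈ H ∧ Submodule.map (R h) E = E}
  one_mem' := ⟨H.one_mem, by rw [map_one]; exact Submodule.map_id _⟩
  mul_mem' := fun {a b} ha hb => ⟨H.mul_mem ha.1 hb.1, by
    rw [map_mul, Module.End.mul_eq_comp, Submodule.map_comp, hb.2, ha.2]⟩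
  inv_mem' := fun {a} ha => ⟨H.inv_mem ha.1, by
    conv_lhs => rw [← ha.2, ← Submodule.map_comp, ← Module.End.mul_eq_comp, ← map_mul,
      inv_mul_cancel, map_one]
    exact Submodule.map_id _⟩

lemma irred_generate (R : G →* Module.End ℂ (Fin r → ℂ)) (H : Subgroup G)
    (W : Submodule ℂ (Fin r → ℂ)) (hW : StableOn R H W) (hirr : IrredOn R H W)
    (X : Submodule ℂ (Fin r → ℂ)) (hX : X ≤ W) (v : Fin r → ℂ) (hv : v ∈ X) (hv0 : v ≠ 0) :
    W ≤ ⨆ (h) (_ : h ∈ H), Submodule.map (R h) X := by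
  set Y := ⨆ (h) (_ : h ∈ H), Submodule.map (R h) X
  have hle : Y ≤ W := iSup₂_le fun h hh => Submodule.map_le_iff_le_comap.2 fun u hu =>
    hW h hh u (hX hu)
  have hst : StableOn R H Y := by
    intro g hg u hu
    have : Submodule.map (R g) Y ≤ Y := by
      simp only [Y, Submodule.map_iSup]
      refine iSup₂_le fun h hh => ?_
      rw [← Submodule.map_comp, ← Module.End.mul_eq_comp, ← map_mul]
      exact le_iSup₂ (f := fun h (_ : h ∈ H) => Submodule.map (R h) X) (g * h) (H.mul_mem hg hh)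
    exact this ⟨u, hu, rfl⟩
  rcases hirr Y hle hst with h | h
  · refine absurd ((Submodule.mem_bot ℂ).1 (h ▸ ?_)) hv0
    exact Submodule.mem_iSup_of_mem 1 (Submodule.mem_iSup_of_mem H.one_mem ⟨v, hv, by simp⟩)
  · exact h.symm.le

section Blocks

variable (R : G →* Module.End ℂ (Fin r → ℂ)) (H : Subgroup G) (W : Submodule ℂ (Fin r → ℂ))
  (Ev : ℂ → Submodule ℂ (Fin r → ℂ)) (c : G → ℂ) (μ : ℂ)

lemma block_irred (hW : StableOn R H W) (hirr : IrredOn R H W) (hEW : Ev μ ≤ W)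
    (hd : Disjoint (Ev μ) (⨆ (b) (_ : b ≠ μ), Ev b))
    (himg : ∀ h ∈ H, Submodule.map (R h) (Ev μ) = Ev (c h * μ)) :
    IrredOn R (stabSub R H (Ev μ)) (Ev μ) := by
  intro U hU hUst
  by_cases hU0 : U = ⊥
  · exact Or.inl hU0
  refine Or.inr (le_antisymm hU ?_)
  obtain ⟨v, hv, hv0⟩ := Submodule.exists_mem_ne_zero_of_ne_bot hU0
  have h1 := irred_generate R H W hW hirr U (hU.trans hEW) v hv hv0
  have h2 : W ≤ U ⊔ ⨆ (b) (_ : b ≠ μ), Ev b := h1.trans (iSup₂_le fun h hh => by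
    by_cases he : c h * μ = μ
    · refine le_sup_of_le_left (Submodule.map_le_iff_le_comap.2 fun u hu => ?_)
      exact hUst h ⟨hh, by rw [himg h hh, he]⟩ u hu
    · refine le_sup_of_le_right ((Submodule.map_mono hU).trans ?_)
      rw [himg h hh]
      exact le_iSup₂ (f := fun b (_ : b ≠ μ) => Ev b) (c h * μ) he)
  intro e he
  obtain ⟨u, hu, s, hs, rfl⟩ := Submodule.mem_sup.1 (h2 (hEW he))
  have hsE : s ∈ Ev μ := by
    have := Submodule.sub_mem _ he (hU hu)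
    rwa [add_sub_cancel_left] at this
  rw [Submodule.disjoint_def.1 hd s hsE hs, add_zero]
  exact hu

lemma block_basis (hW : StableOn R H W) (hirr : IrredOn R H W) (hEW : ∀ a, Ev a ≤ W)
    (hd : ∀ a, Disjoint (Ev a) (⨆ (b) (_ : b ≠ a), Ev b))
    (himg : ∀ h ∈ H, Submodule.map (R h) (Ev μ) = Ev (c h * μ))
    (w : Fin r → ℂ) (hw : w ∈ Ev μ) (hw0 : w ≠ 0)
    (hb : MonoOn R (stabSub R H (Ev μ)) (Ev μ)) : MonoOn R H W := by
  classical
  obtain ⟨b, hb, hbs, hbp⟩ := hb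
  set Ω : Set ℂ := {a | ∃ h ∈ H, c h * μ = a}
  choose g hgH hg using fun a : Ω => a.2
  set f : Ω → Set (Fin r → ℂ) := fun a => R (g a) '' b
  have hspan : ∀ a : Ω, Submodule.span ℂ (f a) = Ev a := fun a => by
    rw [Submodule.span_image, hbs, himg _ (hgH a), hg a]
  refine ⟨⋃ a, f a, linearIndepOn_id_iUnion_finite (fun a => ?_) (fun a t _ hat => ?_), ?_, ?_⟩
  · have hinj : Function.Injective (R (g a)) := Function.LeftInverse.injective (inv_apply R (g a))
    exact LinearIndepOn.id_image (hb.map_injOn (R (g a)) hinj.injOn)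
  · rw [hspan]
    refine (hd a).mono_right (iSup₂_le fun b' hb' => ?_)
    rw [hspan]
    exact le_iSup₂ (f := fun b (_ : b ≠ (a : ℂ)) => Ev b) (b' : ℂ)
      fun e => hat (Subtype.ext e ▸ hb')
  · rw [Submodule.span_iUnion]
    refine le_antisymm (iSup_le fun a => (hspan a).le.trans (hEW _)) ?_
    refine (irred_generate R H W hW hirr (Ev μ) (hEW μ) w hw hw0).trans (iSup₂_le fun h hh => ?_)
    rw [himg h hh]
    exact le_iSup_of_le (⟨c h * μ, h, hh, rfl⟩ : Ω) (hspan (⟨c h * μ, h, hh, rfl⟩ : Ω)).ge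
  · intro h hh v hv
    obtain ⟨a, u, hu, rfl⟩ := Set.mem_iUnion.1 hv
    have hha : h * g a ∈ H := H.mul_mem hh (hgH a)
    obtain ⟨a', ha'⟩ : ∃ a' : Ω, (a' : ℂ) = c (h * g a) * μ := ⟨⟨_, _, hha, rfl⟩, rfl⟩
    have hk : (g a')⁻¹ * (h * g a) ∈ stabSub R H (Ev μ) := by
      refine ⟨H.mul_mem (H.inv_mem (hgH a')) hha, ?_⟩
      rw [map_mul, Module.End.mul_eq_comp, Submodule.map_comp, himg _ hha, ← ha', ← hg a',
        ← himg _ (hgH a'), ← Submodule.map_comp, ← Module.End.mul_eq_comp, ← map_mul,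
        inv_mul_cancel, map_one]
      exact Submodule.map_id _
    obtain ⟨u', hu', e, he⟩ := hbp _ hk u hu
    refine ⟨R (g a') u', Set.mem_iUnion.2 ⟨a', u', hu', rfl⟩, e, ?_⟩
    rw [← map_smul, ← he, ← Module.End.mul_apply, ← map_mul, ← Module.End.mul_apply, ← map_mul,
      mul_inv_cancel_left]

end Blocks

lemma mono_irred [Group.IsNilpotent G] (R : G →* Module.End ℂ (Fin r → ℂ)) :
    ∀ (d : ℕ) (H : Subgroup G) (W : Submodule ℂ (Fin r → ℂ)), finrank ℂ W = d →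
      StableOn R H W → W ≠ ⊥ → IrredOn R H W → MonoOn R H W := by
  classical
  intro d
  induction d using Nat.strong_induction_on with
  | _ d ih =>
  intro H W hd hW hne hirr
  by_cases hns : ∃ h ∈ H, ¬ ScalarOn R W h
  swap
  · push Not at hns
    obtain ⟨v, hv, hv0⟩ := Submodule.exists_mem_ne_zero_of_ne_bot hne
    have hst : StableOn R H (ℂ ∙ v) := by
      intro h hh x hx
      obtain ⟨a, rfl⟩ := Submodule.mem_span_singleton.1 hx
      obtain ⟨c, hc⟩ := hns h hh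
      rw [map_smul, hc v hv]
      exact Submodule.smul_mem _ _ (Submodule.smul_mem _ _ (Submodule.mem_span_singleton_self v))
    rcases hirr _ ((Submodule.span_singleton_le_iff_mem _ _).2 hv) hst with h | h
    · exact absurd (Submodule.span_singleton_eq_bot.1 h) hv0
    refine ⟨{v}, ?_, h, fun g hg u hu => ?_⟩
    · exact LinearIndepOn.singleton (by simpa using hv0)
    · obtain ⟨c, hc⟩ := hns g hg
      rw [Set.mem_singleton_iff] at hu
      exact ⟨v, rfl, c, by rw [hu, hc v hv]⟩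
  obtain ⟨z, hzH, hzs, hz⟩ := exists_twist R H W hW hns
  choose! c hc using hz
  have : Nontrivial W := Submodule.nontrivial_iff_ne_bot.2 hne
  obtain ⟨μ, hμ⟩ := Module.End.exists_eigenvalue ((R z).restrict (hW z hzH))
  obtain ⟨w, hw, hw0⟩ := hμ.exists_hasEigenvector
  have hwE : (w : Fin r → ℂ) ∈ eigPart (R z) W μ := mem_eigPart.2
    ⟨w.2, congrArg Subtype.val (Module.End.mem_eigenspace_iff.1 hw)⟩
  have hw0' : (w : Fin r → ℂ) ≠ 0 := fun h => hw0 (Subtype.ext h)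
  have himg := eigPart_map R H W hW z c hc μ w hwE hw0'
  have hlt : finrank ℂ (eigPart (R z) W μ) < d := by
    refine hd ▸ Submodule.finrank_lt_finrank_of_lt
      (lt_of_le_of_ne inf_le_left fun h => hzs ⟨μ, fun v hv => ?_⟩)
    rw [← h] at hv
    exact (mem_eigPart.1 hv).2
  refine block_basis R H W (eigPart (R z) W) c μ hW hirr (fun a => inf_le_left)
    (eigPart_disjoint (R z) W) himg w hwE hw0' ?_
  exact ih _ hlt _ _ rfl (fun h hh v hv => hh.2.le ⟨v, hv, rfl⟩)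
    (fun h => hw0' ((Submodule.mem_bot ℂ).1 (h ▸ hwE)))
    (block_irred R H W (eigPart (R z) W) c μ hW hirr inf_le_left
      (eigPart_disjoint (R z) W μ) himg)

lemma mono_semisimple [Group.IsNilpotent G] (ρ : Rep G r) (hs : Semisimple ρ) :
    ∀ (d : ℕ) (W : Submodule ℂ (Fin r → ℂ)), finrank ℂ W = d → Stable ρ W →
      MonoOn (linRep ρ) ⊤ W := by
  classical
  intro d
  induction d using Nat.strong_induction_on with
  | _ d ih =>
  intro W hd hW
  by_cases h0 : W = ⊥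
  · exact ⟨∅, linearIndepOn_empty ℂ id, by simp [h0], fun h _ v hv => hv.elim⟩
  by_cases hirr : IrredOn (linRep ρ) ⊤ W
  · exact mono_irred (linRep ρ) _ ⊤ W rfl (fun h _ => hW h) h0 hirr
  simp only [IrredOn, not_forall, not_or, exists_prop] at hirr
  obtain ⟨U, hUW, hUst, hU0, hUne⟩ := hirr
  have hUst' : Stable ρ U := fun g => hUst g (Subgroup.mem_top g)
  obtain ⟨U', hU', hc⟩ := hs U hUst'
  have hV : Stable ρ (W ⊓ U') := fun g v hv => ⟨hW g v hv.1, hU' g v hv.2⟩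
  have hsup : U ⊔ W ⊓ U' = W := by
    rw [inf_comm, ← sup_inf_assoc_of_le U' hUW, hc.sup_eq_top, top_inf_eq]
  have hVlt : W ⊓ U' < W := lt_of_le_of_ne inf_le_left fun h =>
    hU0 (le_bot_iff.1 (hc.inf_eq_bot ▸ le_inf le_rfl (hUW.trans (inf_eq_left.1 h))))
  obtain ⟨b1, hb1, hs1, hp1⟩ := ih _ (hd ▸ Submodule.finrank_lt_finrank_of_lt
    (lt_of_le_of_ne hUW hUne)) U rfl hUst'
  obtain ⟨b2, hb2, hs2, hp2⟩ := ih _ (hd ▸ Submodule.finrank_lt_finrank_of_lt hVlt) (W ⊓ U') rfl hV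
  refine ⟨b1 ∪ b2, hb1.id_union hb2 ?_, ?_, fun h hh v hv => ?_⟩
  · rw [hs1, hs2]
    exact hc.disjoint.mono_right inf_le_right
  · rw [Submodule.span_union, hs1, hs2, hsup]
  · rcases hv with hv | hv
    · obtain ⟨u, hu, a, ha⟩ := hp1 h hh v hv
      exact ⟨u, Or.inl hu, a, ha⟩
    · obtain ⟨u, hu, a, ha⟩ := hp2 h hh v hv
      exact ⟨u, Or.inr hu, a, ha⟩

/-- Semisimple representations of nilpotent groups are monomial. -/
theorem nilpotent_monomial [Group.IsNilpotent G] (ρ : Rep G r) (hs : Semisimple ρ) :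
    Monomial ρ := by
  classical
  obtain ⟨b, hb, hbs, hbp⟩ := mono_semisimple ρ hs _ ⊤ rfl fun _ _ _ => Submodule.mem_top
  let B0 : Basis b ℂ (Fin r → ℂ) := Basis.mk hb (by simp [hbs])
  let e := B0.indexEquiv (Pi.basisFun ℂ (Fin r))
  let B := B0.reindex e
  have hB : ∀ i, B i = (e.symm i : Fin r → ℂ) := fun i => by
    simp [B, B0, Basis.reindex_apply, Basis.mk_apply]
  set P0 : Matrix (Fin r) (Fin r) ℂ := Matrix.of fun a i => B i a with hP0
  have hdet : P0.det ≠ 0 := by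
    have : IsUnit P0 := linearIndependent_cols_iff_isUnit.1 B.linearIndependent
    exact ((P0.isUnit_iff_isUnit_det).1 this).ne_zero
  obtain ⟨z, hz⟩ : ∃ z : ℂ, z ^ r * P0.det = 1 := by
    rcases Nat.eq_zero_or_pos r with rfl | hr
    · exact ⟨1, by simp [Matrix.det_fin_zero]⟩
    · obtain ⟨z, hz⟩ := IsAlgClosed.exists_pow_nat_eq P0.det⁻¹ hr
      exact ⟨z, by rw [hz, inv_mul_cancel₀ hdet]⟩
  let P : Matrix.SpecialLinearGroup (Fin r) ℂ := ⟨z • P0, by rw [det_smul, Fintype.card_fin, hz]⟩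
  refine ⟨P, fun g j => ?_⟩
  obtain ⟨u, hu, a, ha⟩ := hbp g (Subgroup.mem_top g) _ (e.symm j).2
  refine ⟨e ⟨u, hu⟩, fun k hk => ?_⟩
  have hcol : ∀ i, P.1 *ᵥ Pi.single i 1 = z • B i := fun i => by
    funext t
    simp [P, hP0, mulVec_single]
  have h1 : (ρ g).1 *ᵥ (P.1 *ᵥ Pi.single j 1) = a • (P.1 *ᵥ Pi.single (e ⟨u, hu⟩) 1) := by
    rw [hcol, hcol, mulVec_smul, hB, hB, Equiv.symm_apply_apply,
      show (ρ g).1 *ᵥ (e.symm j : Fin r → ℂ) = a • u from ha, smul_comm]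
  have h2 : (P⁻¹).1 * P.1 = 1 := congrArg Subtype.val (inv_mul_cancel P)
  have h3 : (P⁻¹ * ρ g * P).1 *ᵥ Pi.single j 1 = a • Pi.single (e ⟨u, hu⟩) 1 := by
    show ((P⁻¹).1 * (ρ g).1 * P.1) *ᵥ _ = _
    rw [← mulVec_mulVec, ← mulVec_mulVec, h1, mulVec_smul, mulVec_mulVec, h2, one_mulVec]
  have := congrFun h3 k
  rw [mulVec_single, Pi.smul_apply] at this
  simpa [hk] using this

end Vale.Agent.P002
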