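import Vale.Agent.P002.Defs

/-!
P002: finitely many algebraic forms for the representations of a finite group with a given
block pattern.
-/

open Matrix Finset MvPolynomial

namespace Vale.Agent.P002

variable {Q : Type} [Group Q] [Fintype Q] {r : ℕ} {T : Type}

/-- The matrices respect the block pattern. -/
def Patterned (b : Fin r → T) (σ : Q → T → T) {R : Type} [CommRing R]
    (A : Q → Matrix (Fin r) (Fin r) R) : Prop :=
  ∀ q i j, b i ≠ σ q (b j) → A q i j = 0

/-- A patterned representation. -/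
def PatRep (b : Fin r → T) (σ : Q → T → T) {R : Type} [CommRing R]
    (A : Q → Matrix (Fin r) (Fin r) R) : Prop :=
  A 1 = 1 ∧ (∀ p q, A (p * q) = A p * A q) ∧ Patterned b σ A

/-- The averaged intertwiner. -/
def avgInt {R : Type} [CommRing R] (A B : Q → Matrix (Fin r) (Fin r) R) :
    Matrix (Fin r) (Fin r) R :=
  ∑ q, A q * B q⁻¹

lemma avgInt_mul {R : Type} [CommRing R] (A B : Q → Matrix (Fin r) (Fin r) R)
    (hA : ∀ p q, A (p * q) = A p * A q) (hB : ∀ p q, B (p * q) = B p * B q) (p : Q) :
    A p * avgInt A B = avgInt A B * B p := by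
  unfold avgInt
  rw [mul_sum, sum_mul]
  refine Fintype.sum_equiv (Equiv.mulLeft p) _ _ fun q => ?_
  simp only [Equiv.coe_mulLeft, hA, mul_assoc, ← hB]
  simp [_root_.mul_inv_rev]

lemma avgInt_self {R : Type} [CommRing R] (A : Q → Matrix (Fin r) (Fin r) R) (h1 : A 1 = 1)
    (hA : ∀ p q, A (p * q) = A p * A q) :
    avgInt A A = (Fintype.card Q : R) • (1 : Matrix (Fin r) (Fin r) R) := by
  unfold avgInt
  simp [← hA, h1, Nat.cast_smul_eq_nsmul]

lemma avgInt_pattern {R : Type} [CommRing R] (b : Fin r → T) (σ : Q → T → T)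
    (hσ : ∀ q t, σ q (σ q⁻¹ t) = t) (A B : Q → Matrix (Fin r) (Fin r) R)
    (hA : Patterned b σ A) (hB : Patterned b σ B) (i j : Fin r) (hij : b i ≠ b j) :
    avgInt A B i j = 0 := by
  unfold avgInt
  rw [Matrix.sum_apply]
  refine sum_eq_zero fun q _ => ?_
  rw [Matrix.mul_apply]
  refine sum_eq_zero fun k _ => ?_
  by_cases h : b i = σ q (b k)
  · rw [hB q⁻¹ k j fun h' => hij (by rw [h, h', hσ]), mul_zero]
  · rw [hA q i k h, zero_mul]

lemma map_avgInt {R S : Type} [CommRing R] [CommRing S] (f : R →+* S)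
    (A B : Q → Matrix (Fin r) (Fin r) R) :
    (avgInt A B).map f = avgInt (fun q => (A q).map f) fun q => (B q).map f := by
  ext i j
  simp [avgInt, Matrix.sum_apply, Matrix.mul_apply]

variable (k : Type) [Field k] [IsAlgClosed k] [Algebra k ℂ]

/-- Finitely many algebraic representations meet every patterned class. -/
theorem exists_algebraic_forms (b : Fin r → T) (σ : Q → T → T)
    (hσ : ∀ q t, σ q (σ q⁻¹ t) = t) :
    ∃ E : Finset (Q → Matrix (Fin r) (Fin r) k),
      ∀ A : Q → Matrix (Fin r) (Fin r) ℂ, PatRep b σ A →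
        ∃ B ∈ E, PatRep b σ B ∧ ∃ P : Matrix (Fin r) (Fin r) ℂ, P.det ≠ 0 ∧
          (∀ i j, b i ≠ b j → P i j = 0) ∧ ∀ q, A q * P = P * (B q).map (algebraMap k ℂ) := by
  classical
  let ev : (Q → Matrix (Fin r) (Fin r) ℂ) → Q × Fin r × Fin r → ℂ :=
    fun A p => A p.1 p.2.1 p.2.2
  let V : Set (Q × Fin r × Fin r → ℂ) := ev '' {A | PatRep b σ A}
  let X : Q → Matrix (Fin r) (Fin r) (MvPolynomial (Q × Fin r × Fin r) k) :=
    fun q => Matrix.of fun i j => MvPolynomial.X (q, i, j)
  let D : (Q → Matrix (Fin r) (Fin r) k) → MvPolynomial (Q × Fin r × Fin r) k :=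
    fun B => (avgInt X fun q => (B q).map MvPolynomial.C).det
  have hD : ∀ {K : Type} [CommRing K] [Algebra k K] (A : Q → Matrix (Fin r) (Fin r) K) B,
      aeval (fun p => A p.1 p.2.1 p.2.2) (D B) =
        (avgInt A fun q => (B q).map (algebraMap k K)).det := by
    intro K _ _ A B
    simp only [D]
    rw [AlgHom.map_det, AlgHom.mapMatrix_apply]
    congr 1
    rw [show ∀ M : Matrix (Fin r) (Fin r) (MvPolynomial (Q × Fin r × Fin r) k),
      M.map (aeval fun p : Q × Fin r × Fin r => A p.1 p.2.1 p.2.2) =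
      M.map ((aeval fun p : Q × Fin r × Fin r => A p.1 p.2.1 p.2.2).toRingHom) from fun _ => rfl,
      map_avgInt]
    congr 1 <;> funext q <;> ext i j <;> simp [X]
  set J : Ideal (MvPolynomial (Q × Fin r × Fin r) k) :=
    vanishingIdeal k V ⊔ Ideal.span (D '' {B | PatRep b σ B}) with hJ
  have htop : J = ⊤ := by
    by_contra hne
    obtain ⟨M, hM, hJM⟩ := Ideal.exists_le_maximal J hne
    obtain ⟨a, rfl⟩ := eq_vanishingIdeal_singleton_of_isMaximal (k := k) k hM
    set B : Q → Matrix (Fin r) (Fin r) k := fun q => Matrix.of fun i j => a (q, i, j) with hB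
    have hmem : ∀ p : MvPolynomial (Q × Fin r × Fin r) k, (∀ A : Q → Matrix (Fin r) (Fin r) ℂ, PatRep b σ A → aeval (ev A) p = 0) →
        aeval a p = 0 := by
      intro p hp
      refine hJM (Ideal.mem_sup_left ?_) a rfl
      rintro _ ⟨A, hA, rfl⟩
      exact hp A hA
    have hBrep : PatRep b σ B := by
      refine ⟨?_, fun p q => ?_, fun q i j h => ?_⟩
      · ext i j
        have := hmem (MvPolynomial.X (1, i, j) -
          MvPolynomial.C ((1 : Matrix (Fin r) (Fin r) k) i j)) fun A hA => by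
            simp only [map_sub, aeval_X, aeval_C, ev, hA.1]
            rcases eq_or_ne i j with rfl | hij
            · simp
            · simp [Matrix.one_apply_ne hij]
        simpa [hB, sub_eq_zero] using this
      · ext i j
        have := hmem (MvPolynomial.X (p * q, i, j) -
          ∑ l, MvPolynomial.X (p, i, l) * MvPolynomial.X (q, l, j)) fun A hA => by
            simp [ev, hA.2.1, Matrix.mul_apply]
        simpa [hB, sub_eq_zero, Matrix.mul_apply] using this
      · have := hmem (MvPolynomial.X (q, i, j)) fun A hA => by simp [ev, hA.2.2 q i j h]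
        simpa [hB] using this
    have h0 : aeval a (D B) = 0 :=
      hJM (Ideal.mem_sup_right (Ideal.subset_span ⟨B, hBrep, rfl⟩)) a rfl
    rw [show a = fun p => B p.1 p.2.1 p.2.2 from rfl, hD] at h0
    rw [show (fun q => (B q).map (algebraMap k k)) = B from funext fun q => by ext i j; simp] at h0
    rw [avgInt_self B hBrep.1 hBrep.2.1, det_smul, det_one, mul_one] at h0
    have hcz : CharZero k := RingHom.charZero (algebraMap k ℂ)
    exact pow_ne_zero _ (Nat.cast_ne_zero.2 Fintype.card_ne_zero) h0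
  have h1 : (1 : MvPolynomial (Q × Fin r × Fin r) k) ∈ J := htop ▸ Submodule.mem_top
  obtain ⟨u, hu, v, hv, huv⟩ := Submodule.mem_sup.1 h1
  obtain ⟨T0, hT0, hvT⟩ := Submodule.mem_span_finite_of_mem_span hv
  choose g hgS hg using fun p : T0 => hT0 p.2
  refine ⟨univ.image g, fun A hA => ?_⟩
  obtain ⟨p, hp⟩ : ∃ p : T0, aeval (ev A) (D (g p)) ≠ 0 := by
    by_contra hcon
    push Not at hcon
    have hv0 : aeval (ev A) v = 0 := by
      refine Submodule.span_induction (p := fun x _ => aeval (ev A) x = 0) (fun x hx => ?_)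
        (map_zero _) (fun x y _ _ hx hy => by rw [map_add, hx, hy, add_zero])
        (fun c x _ hx => by rw [smul_eq_mul, map_mul, hx, mul_zero]) hvT
      have := hcon ⟨x, hx⟩
      rwa [hg] at this
    have h2 := congrArg (aeval (ev A)) huv
    rw [map_add, hu (ev A) ⟨A, hA, rfl⟩, hv0, add_zero, map_one] at h2
    exact zero_ne_one h2
  refine ⟨g p, mem_image_of_mem g (mem_univ p), hgS p,
    avgInt A (fun q => (g p q).map (algebraMap k ℂ)), by rwa [← hD], ?_, ?_⟩
  · refine avgInt_pattern b σ hσ A _ hA.2.2 fun q i j h => ?_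
    rw [Matrix.map_apply, (hgS p).2.2 q i j h, map_zero]
  · exact avgInt_mul A _ hA.2.1 fun p' q' => by rw [(hgS p).2.1, Matrix.map_mul]

end Vale.Agent.P002
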