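import Vale.Agent.P002.SolvBase

/-!
P002: semisimple representations with solvable image are commutative on a subgroup of bounded
index.
-/

open Module
open scoped commutatorElement

namespace Vale.Agent.P002

variable {G : Type} [Group G] {r : ℕ}

/-- Commutes with a normal subgroup `A` on `W`. -/
def CentralOn (R : G →* Module.End ℂ (Fin r → ℂ)) (A : Subgroup G)
    (W : Submodule ℂ (Fin r → ℂ)) (z : G) : Prop :=
  z ∈ A ∧ ∀ x ∈ A, ∀ v ∈ W, R z (R x v) = R x (R z v)

lemma apply_mul (R : G →* Module.End ℂ (Fin r → ℂ)) (a b : G) (v : Fin r → ℂ) :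
    R (a * b) v = R a (R b v) := by rw [map_mul, Module.End.mul_apply]

lemma apply_cancel (R : G →* Module.End ℂ (Fin r → ℂ)) (g : G) (v : Fin r → ℂ) :
    R g (R g⁻¹ v) = v := by
  rw [← apply_mul, mul_inv_cancel, map_one, Module.End.one_apply]

lemma scalar_unique (R : G →* Module.End ℂ (Fin r → ℂ)) (g : G) {W : Submodule ℂ (Fin r → ℂ)}
    (hne : W ≠ ⊥) {a b : ℂ} (h : ∀ v ∈ W, a • R g v = b • R g v) : a = b := by
  obtain ⟨v, hv, hv0⟩ := Submodule.exists_mem_ne_zero_of_ne_bot hne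
  exact smul_left_injective ℂ (fun h0 => hv0 (by rw [← inv_apply R g v, h0, map_zero])) (h v hv)

/-- The action of `H` on functions on a normalised set, restricted to a finite invariant set. -/
lemma exists_action {κ : Type} (H : Subgroup G) (conj : H → κ → κ)
    (hone : ∀ z, conj 1 z = z) (hmul : ∀ g h z, conj (g * h) z = conj h (conj g z))
    (X : Set (κ → ℂ)) (hX : ∀ h, ∀ x ∈ X, (fun z => x (conj h z)) ∈ X) :
    ∃ φ : H →* Equiv.Perm X, ∀ h (x : X) z, (φ h x : κ → ℂ) z = (x : κ → ℂ) (conj h z) := by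
  let act : H → X → X := fun h x => ⟨_, hX h x x.2⟩
  have h1 : ∀ x, act 1 x = x := fun x => Subtype.ext (funext fun z => by
    show (x : κ → ℂ) (conj 1 z) = _
    rw [hone])
  have h2 : ∀ g h x, act (g * h) x = act g (act h x) := fun g h x =>
    Subtype.ext (funext fun z => by
      show (x : κ → ℂ) (conj (g * h) z) = (x : κ → ℂ) (conj h (conj g z))
      rw [hmul])
  refine ⟨{ toFun := fun h => ⟨act h, act h⁻¹, fun x => by rw [← h2, inv_mul_cancel, h1],
              fun x => by rw [← h2, mul_inv_cancel, h1]⟩,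
            map_one' := Equiv.ext h1, map_mul' := fun g h => Equiv.ext (h2 g h) },
    fun h x z => rfl⟩

lemma conj_apply (R : G →* Module.End ℂ (Fin r → ℂ)) (h x : G) (v : Fin r → ℂ) :
    R h (R x v) = R (h * x * h⁻¹) (R h v) := by
  rw [← apply_mul, ← apply_mul, inv_mul_cancel_right]

section Step

variable (R : G →* Module.End ℂ (Fin r → ℂ)) (H : Subgroup G) (W : Submodule ℂ (Fin r → ℂ))
  (hW : StableOn R H W) (hne : W ≠ ⊥) (A : Subgroup G) (hAH : A ≤ H)
  (hAn : ∀ h ∈ H, ∀ a ∈ A, h * a * h⁻¹ ∈ A)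
include hW hne hAH hAn

lemma central_conj {h z : G} (hh : h ∈ H) (hz : CentralOn R A W z) :
    CentralOn R A W (h * z * h⁻¹) := by
  refine ⟨hAn h hh z hz.1, fun x hx v hv => ?_⟩
  have hx' : h⁻¹ * x * h ∈ A := by simpa using hAn h⁻¹ (H.inv_mem hh) x hx
  have h1 := congrArg (R h) (hz.2 _ hx' (R h⁻¹ v) (hW _ (H.inv_mem hh) v hv))
  simp only [← apply_mul, ← mul_assoc] at h1
  simp only [← apply_mul]
  rw [show h * z * h⁻¹ * x = h * z * h⁻¹ * x * h * h⁻¹ by group,
    show x * (h * z * h⁻¹) = h * h⁻¹ * x * h * z * h⁻¹ by group]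
  exact h1

lemma step_central (hirr : IrredOn R H W) (hsemi : SemiOn R H W) (a0 : G)
    (ha0 : CentralOn R A W a0) :
    ∃ H' ≤ H, H'.relIndex H ≠ 0 ∧ H'.relIndex H ≤ Nat.factorial r ∧ SemiOn R H' W ∧
      ∀ h ∈ H', ∀ v ∈ W, R h (R a0 v) = R a0 (R h v) := by
  classical
  set Z := {z : G // CentralOn R A W z}
  obtain ⟨U, ⟨hUW, hUst, hU0⟩, hmin⟩ := WellFounded.has_min
    (IsWellFounded.wf (r := ((· < ·) : Submodule ℂ (Fin r → ℂ) → _ → Prop)))
    {X | X ≤ W ∧ (∀ z : Z, ∀ v ∈ X, R z.1 v ∈ X) ∧ X ≠ ⊥}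
    ⟨W, le_rfl, fun z => hW z.1 (hAH z.2.1), hne⟩
  have hscal : ∀ z : Z, ∃ c : ℂ, ∀ v ∈ U, R z.1 v = c • v := by
    intro z
    have : Nontrivial U := Submodule.nontrivial_iff_ne_bot.2 hU0
    obtain ⟨μ, hμ⟩ := Module.End.exists_eigenvalue ((R z.1).restrict (hUst z))
    obtain ⟨w, hw, hw0⟩ := hμ.exists_hasEigenvector
    refine ⟨μ, fun v hv => ?_⟩
    by_contra hvv
    refine hmin (U ⊓ Module.End.eigenspace (R z.1) μ) ⟨inf_le_left.trans hUW, ?_, ?_⟩
      (lt_of_le_of_ne inf_le_left fun h => hvv (Module.End.mem_eigenspace_iff.1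
        (inf_eq_left.1 h hv)))
    · intro z' v hv
      refine ⟨hUst z' v hv.1, ?_⟩
      rw [SetLike.mem_coe, Module.End.mem_eigenspace_iff, z.2.2 z'.1 z'.2.1 v (hUW hv.1),
        Module.End.mem_eigenspace_iff.1 hv.2, map_smul]
    · intro h0
      have h1 : (w : Fin r → ℂ) ∈ U ⊓ Module.End.eigenspace (R z.1) μ := ⟨w.2, by
        rw [SetLike.mem_coe, Module.End.mem_eigenspace_iff]
        exact congrArg Subtype.val (Module.End.mem_eigenspace_iff.1 hw)⟩
      rw [h0, Submodule.mem_bot] at h1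
      exact hw0 (Subtype.ext h1)
  choose c0 hc0 using hscal
  obtain ⟨w, hwU, hw0⟩ := Submodule.exists_mem_ne_zero_of_ne_bot hU0
  let conj : H → Z → Z := fun h z =>
    ⟨(h : G)⁻¹ * z.1 * h, by simpa using central_conj R H W hW hne A hAH hAn (H.inv_mem h.2) z.2⟩
  have hcm : ∀ g h z, conj (g * h) z = conj h (conj g z) := fun g h z =>
    Subtype.ext (by
      show ((g * h : H) : G)⁻¹ * z.1 * (g * h : H) = (h : G)⁻¹ * ((g : G)⁻¹ * z.1 * g) * h
      rw [Subgroup.coe_mul]; group)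
  set c : H → Z → ℂ := fun h z => c0 (conj h z) with hc
  have heig : ∀ (h : H) (z : Z), R z.1 (R (h : G) w) = c h z • R (h : G) w := by
    intro h z
    have h1 := congrArg (R (h : G)) (hc0 (conj h z) w hwU)
    rw [map_smul, conj_apply] at h1
    convert h1 using 3
    show z.1 = (h : G) * ((h : G)⁻¹ * z.1 * h) * (h : G)⁻¹
    group
  obtain ⟨hfin, hcard⟩ := finite_systems (fun z : Z => R z.1) (fun h : H => R (h : G) w)
    (fun h h0 => hw0 (by rw [← inv_apply R (h : G) w, h0, map_zero])) c heig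
  obtain ⟨φ, hφ⟩ := exists_action H conj (fun z => Subtype.ext (by simp [conj])) hcm (Set.range c)
    (by
      rintro h _ ⟨h', rfl⟩
      exact ⟨h * h', funext fun z => by simp only [hc, hcm]⟩)
  have : Finite (Set.range c) := hfin
  obtain ⟨hk0, hkle, hksub, hkn⟩ := kernel_index H φ
  refine ⟨_, hksub, hk0, hkle.trans ?_, semiOn_restrict R H _ hksub hkn W hW hsemi, ?_⟩
  · rw [Nat.card_perm, Nat.card_coe_set_eq]
    exact Nat.factorial_le (hcard.trans (by simp))
  rintro _ ⟨h, hh, rfl⟩ v hv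
  have hgen := irred_generate R H W hW hirr (ℂ ∙ w)
    ((Submodule.span_singleton_le_iff_mem _ _).2 (hUW hwU)) w (Submodule.mem_span_singleton_self w)
    hw0
  have hle : W ≤ LinearMap.ker (R (h : G) * R a0 - R a0 * R (h : G)) := by
    refine hgen.trans (iSup₂_le fun g hg => ?_)
    rw [Submodule.map_span, Set.image_singleton, Submodule.span_singleton_le_iff_mem,
      LinearMap.mem_ker, LinearMap.sub_apply, sub_eq_zero, Module.End.mul_apply,
      Module.End.mul_apply]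
    have h1 := heig ⟨g, hg⟩ ⟨a0, ha0⟩
    have h2 := heig (h * ⟨g, hg⟩) ⟨a0, ha0⟩
    have h3 : c (h * ⟨g, hg⟩) ⟨a0, ha0⟩ = c ⟨g, hg⟩ ⟨a0, ha0⟩ := by
      have h4 := hφ h ⟨c ⟨g, hg⟩, _, rfl⟩ ⟨a0, ha0⟩
      rw [MonoidHom.mem_ker.1 hh] at h4
      simp only [Equiv.Perm.coe_one, id_eq] at h4
      simp only [hc] at h4 ⊢
      rw [hcm]
      exact h4.symm
    rw [Subgroup.coe_mul, apply_mul, h3] at h2
    rw [h1, h2, map_smul]
  have := hle hv
  rwa [LinearMap.mem_ker, LinearMap.sub_apply, sub_eq_zero, Module.End.mul_apply,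
    Module.End.mul_apply] at this

/-- The bound of the twisted case. -/
def twistBound (r : ℕ) : ℕ := Nat.factorial (r * r) * Nat.factorial (r * r) ^ (r * r)

lemma step_twisted (hsemi : SemiOn R H W) (hcomm : ∀ a ∈ A, ∀ x ∈ A, ScalarOn R W ⁅x, a⁆)
    (hnc : ∀ a, CentralOn R A W a → ScalarOn R W a) (a0 : G) (ha0 : a0 ∈ A)
    (ha0s : ¬ ScalarOn R W a0) :
    ∃ H' ≤ H, H'.relIndex H ≠ 0 ∧ H'.relIndex H ≤ twistBound r ∧ SemiOn R H' W ∧
      ∃ a ∈ H, ¬ ScalarOn R W a ∧ ∀ h ∈ H', ∀ v ∈ W, R h (R a v) = R a (R h v) := by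
  classical
  have hst : ∀ a ∈ A, ∀ v ∈ W, R a v ∈ W := fun a ha => hW a (hAH ha)
  have htw : ∀ a x : A, ∃ c : ℂ, ∀ v ∈ W, R (x : G) (R (a : G) v) = c • R (a : G) (R (x : G) v) := by
    intro a x
    obtain ⟨c, hc⟩ := hcomm a a.2 x x.2
    refine ⟨c, fun v hv => ?_⟩
    rw [← apply_mul R (x : G), show (x : G) * a = ⁅(x : G), (a : G)⁆ * (a * x) by
      rw [commutatorElement_def]; group, apply_mul, hc _ (hW _ (hAH (A.mul_mem a.2 x.2)) v hv),
      apply_mul]
  choose ω hω using htw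
  have huniq : ∀ (a x : A) (c : ℂ),
      (∀ v ∈ W, R (x : G) (R (a : G) v) = c • R (a : G) (R (x : G) v)) → c = ω a x := by
    intro a x c h
    refine scalar_unique R ((a : G) * x) hne fun v hv => ?_
    rw [apply_mul, ← h v hv, hω a x v hv]
  have hωne : ∀ a x, ω a x ≠ 0 := by
    intro a x h0
    obtain ⟨v, hv, hv0⟩ := Submodule.exists_mem_ne_zero_of_ne_bot hne
    have h1 := hω a x v hv
    rw [h0, zero_smul] at h1
    exact hv0 (by rw [← inv_apply R (a : G) v, ← inv_apply R (x : G) (R (a : G) v), h1, map_zero,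
      map_zero])
  have hmulω : ∀ a b x, ω (a * b) x = ω a x * ω b x := by
    intro a b x
    refine (huniq _ _ _ fun v hv => ?_).symm
    rw [Subgroup.coe_mul, apply_mul, hω a x _ (hst b b.2 v hv), hω b x v hv, map_smul,
      apply_mul, smul_smul]
  have hone : ∀ x, ω 1 x = 1 := fun x => (huniq 1 x 1 fun v hv => by simp).symm
  let conj : H → A → A := fun h x =>
    ⟨(h : G)⁻¹ * x * h, by simpa using hAn (h : G)⁻¹ (H.inv_mem h.2) x x.2⟩
  have hcm : ∀ g h z, conj (g * h) z = conj h (conj g z) := fun g h z =>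
    Subtype.ext (by
      show ((g * h : H) : G)⁻¹ * (z : G) * (g * h : H) = (h : G)⁻¹ * ((g : G)⁻¹ * z * g) * h
      rw [Subgroup.coe_mul]; group)
  let cj : H → A → A := fun h a => ⟨(h : G) * a * (h : G)⁻¹, hAn h h.2 a a.2⟩
  have hconjω : ∀ (h : H) a x, ω (cj h a) x = ω a (conj h x) := by
    intro h a x
    refine (huniq _ _ _ fun v hv => ?_).symm
    have h1 := congrArg (R (h : G)) (hω a (conj h x) _ (hW _ (H.inv_mem h.2) v hv))
    rw [map_smul] at h1
    simp only [← apply_mul, conj] at h1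
    simp only [← apply_mul, cj]
    convert h1 using 3 <;> group
  obtain ⟨hfin, hcard⟩ := finite_systems
    (V := W →ₗ[ℂ] (Fin r → ℂ))
    (fun x : A => (LinearMap.lcomp ℂ (Fin r → ℂ)
      ((R (x : G)⁻¹).restrict (hst _ (A.inv_mem x.2)))).comp
        (LinearMap.llcomp ℂ W (Fin r → ℂ) (Fin r → ℂ) (R (x : G))))
    (fun a : A => (R (a : G)).comp W.subtype) (fun a h0 => by
      obtain ⟨v, hv, hv0⟩ := Submodule.exists_mem_ne_zero_of_ne_bot hne
      have := LinearMap.congr_fun h0 ⟨v, hv⟩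
      exact hv0 (by rw [← inv_apply R (a : G) v, show R (a : G) v = 0 from this, map_zero]))
    ω (fun a x => LinearMap.ext fun u => by
      show R (x : G) (R (a : G) (R (x : G)⁻¹ u)) = ω a x • R (a : G) u
      rw [hω a x _ (hst _ (A.inv_mem x.2) u u.2), apply_cancel])
  have hcard' : (Set.range ω).ncard ≤ r * r := hcard.trans (by
    rw [Module.finrank_linearMap, Module.finrank_fin_fun]
    exact Nat.mul_le_mul_right r ((Submodule.finrank_le W).trans (by simp)))
  set N := Nat.factorial (r * r) with hN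
  have hpowω : ∀ (a : A) (i : ℕ) x, ω (a ^ i) x = ω a x ^ i := fun a i x => by
    induction i with
    | zero => simp [hone]
    | succ i ih => rw [pow_succ, hmulω, ih, pow_succ]
  have hωN : ∀ a x, ω a x ^ N = 1 := by
    intro a x
    have : Finite (Set.range ω) := hfin
    obtain ⟨i, j, hij, he⟩ : ∃ i j : Fin (r * r + 1), i < j ∧ ω (a ^ (i : ℕ)) = ω (a ^ (j : ℕ)) := by
      obtain ⟨i, j, hne', he⟩ := Fintype.exists_ne_map_eq_of_card_lt
        (fun i : Fin (r * r + 1) =>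
          (⟨ω (a ^ (i : ℕ)), hfin.mem_toFinset.2 ⟨_, rfl⟩⟩ : hfin.toFinset)) (by
            rw [Fintype.card_coe, ← Set.ncard_eq_toFinset_card _ hfin, Fintype.card_fin]
            omega)
      have he' := congrArg Subtype.val he
      rcases lt_or_gt_of_ne hne' with h | h
      exacts [⟨i, j, h, he'⟩, ⟨j, i, h, he'.symm⟩]
    have h1 := congrFun he x
    rw [hpowω, hpowω, show (j : ℕ) = i + (j - i) by omega, pow_add] at h1
    have h2 : ω a x ^ ((j : ℕ) - i) = 1 :=
      mul_left_cancel₀ (pow_ne_zero i (hωne a x)) (by rw [← h1, mul_one])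
    obtain ⟨e, he⟩ := Nat.dvd_factorial (show 0 < (j : ℕ) - i by omega)
      (show (j : ℕ) - i ≤ r * r by omega)
    rw [hN, he, pow_mul, h2, one_pow]
  obtain ⟨φ, hφ⟩ := exists_action H conj (fun z => Subtype.ext (by simp [conj])) hcm (Set.range ω)
    (by
      rintro h _ ⟨a, rfl⟩
      exact ⟨cj h a, funext fun x => hconjω h a x⟩)
  have : Finite (Set.range ω) := hfin
  obtain ⟨hk0, hkle, hksub, hkn⟩ := kernel_index H φ
  set K1 := φ.ker.map H.subtype with hK1
  have hsc : ∀ a : A, (∀ x, ω a x = 1) → ScalarOn R W (a : G) := fun a h =>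
    hnc a ⟨a.2, fun x hx v hv => by
      have := hω a ⟨x, hx⟩ v hv
      rw [h, one_smul] at this
      exact this.symm⟩
  choose rep hrep using fun p : Set.range ω => p.2
  have hlam : ∀ (h : K1) (p : Set.range ω), ∃ t : ℂ, t ^ N = 1 ∧
      ∀ v ∈ W, R ((h : G) * rep p * (h : G)⁻¹) v = t • R (rep p : G) v := by
    rintro ⟨_, h, hh, rfl⟩ p
    set a := rep p
    have hfix : ω (cj h a) = ω a := funext fun x => by
      have h4 := hφ h ⟨ω a, _, rfl⟩ x
      rw [MonoidHom.mem_ker.1 hh] at h4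
      simp only [Equiv.Perm.coe_one, id_eq] at h4
      rw [hconjω]
      exact h4.symm
    obtain ⟨t, ht⟩ := hsc (a⁻¹ * cj h a) fun x => by
      rw [hmulω, hfix, ← hmulω, inv_mul_cancel, hone]
    have hrel : ∀ v ∈ W, R (cj h a : G) v = t • R (a : G) v := fun v hv => by
      have := congrArg (R (a : G)) (ht v hv)
      rwa [map_smul, ← apply_mul, Subgroup.coe_mul, Subgroup.coe_inv, mul_inv_cancel_left] at this
    have hpow : ∀ i : ℕ, ∀ v ∈ W, R ((cj h a : G) ^ i) v = t ^ i • R ((a : G) ^ i) v := by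
      intro i
      induction i with
      | zero => intro v _; simp
      | succ i ih =>
        intro v hv
        rw [pow_succ, apply_mul, hrel v hv, map_smul, ih _ (hst a a.2 v hv), smul_smul,
          pow_succ (a : G), apply_mul, ← pow_succ']
    obtain ⟨s, hs⟩ := hsc (a ^ N) fun x => by rw [hpowω, hωN]
    rw [Subgroup.coe_pow] at hs
    refine ⟨t, (scalar_unique R ((a : G) ^ N) hne fun v hv => ?_), hrel⟩
    rw [one_smul, ← hpow N v hv,
      show (cj h a : G) ^ N = (h : G) * (a : G) ^ N * (h : G)⁻¹ from conj_pow, apply_mul,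
      apply_mul, hs _ (hW _ (H.inv_mem h.2) v hv), map_smul, apply_cancel, hs v hv]
  choose lam hlamN hlamv using hlam
  have : NeZero N := ⟨Nat.factorial_ne_zero _⟩
  have hst1 : ∀ h : K1, (h : G) ∈ H := fun h => hksub h.2
  have hmullam : ∀ g h p, lam (g * h) p = lam g p * lam h p := by
    intro g h p
    refine scalar_unique R (rep p : G) hne fun v hv => ?_
    rw [← hlamv (g * h) p v hv, mul_comm (lam g p), ← smul_smul, ← hlamv g p v hv,
      show ((g * h : K1) : G) * rep p * ((g * h : K1) : G)⁻¹ =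
        (g : G) * ((h : G) * rep p * (h : G)⁻¹) * (g : G)⁻¹ by rw [Subgroup.coe_mul]; group,
      apply_mul, apply_mul, hlamv h p _ (hW _ (H.inv_mem (hst1 g)) v hv), map_smul, ← apply_mul,
      ← apply_mul, mul_assoc]
  let Ψ : K1 →* (Set.range ω → rootsOfUnity N ℂ) :=
    { toFun := fun h p => rootsOfUnity.mkOfPowEq (lam h p) (hlamN h p)
      map_one' := funext fun p => Subtype.ext (Units.ext (by
        refine scalar_unique R (rep p : G) hne fun v hv => ?_
        simp [← hlamv 1 p v hv]))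
      map_mul' := fun g h => funext fun p => Subtype.ext (Units.ext (hmullam g h p)) }
  obtain ⟨hl0, hlle, hlsub, hln⟩ := kernel_index K1 Ψ
  refine ⟨_, hlsub.trans hksub, ?_, ?_,
    semiOn_restrict R K1 _ hlsub hln W (fun x hx => hW x (hksub hx))
      (semiOn_restrict R H K1 hksub hkn W hW hsemi),
    rep ⟨ω ⟨a0, ha0⟩, _, rfl⟩, hAH (Subtype.coe_prop _), fun hs => ?_, ?_⟩
  · rw [← Subgroup.relIndex_mul_relIndex _ _ _ hlsub hksub]
    exact Nat.mul_ne_zero hl0 hk0
  · rw [← Subgroup.relIndex_mul_relIndex _ _ _ hlsub hksub, mul_comm, twistBound]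
    refine Nat.mul_le_mul (hkle.trans ?_) (hlle.trans ?_)
    · rw [Nat.card_perm, Nat.card_coe_set_eq]
      exact Nat.factorial_le hcard'
    · rw [Nat.card_fun, Nat.card_coe_set_eq, Complex.card_rootsOfUnity]
      exact Nat.pow_le_pow_right (Nat.factorial_pos _) hcard'
  · set a := rep ⟨ω ⟨a0, ha0⟩, _, rfl⟩ with ha
    obtain ⟨s, hs⟩ := hs
    have h1 : ∀ x, ω a x = 1 := fun x => by
      refine (huniq a x 1 fun v hv => ?_).symm
      rw [hs _ (hst x x.2 v hv), hs v hv, map_smul, one_smul]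
    exact ha0s (hsc ⟨a0, ha0⟩ fun x => by
      exact (congrFun (hrep ⟨ω ⟨a0, ha0⟩, _, rfl⟩) x).symm.trans (h1 x))
  rintro _ ⟨h, hh, rfl⟩ v hv
  set p : Set.range ω := ⟨ω ⟨a0, ha0⟩, _, rfl⟩
  have h1 : lam h p = 1 :=
    congrArg Units.val (congrArg Subtype.val (congrFun (MonoidHom.mem_ker.1 hh) p))
  show R (h : G) (R (rep p : G) v) = R (rep p : G) (R (h : G) v)
  rw [conj_apply, hlamv h p _ (hW _ (hst1 h) v hv), h1, one_smul]

end Step

lemma semiOn_sub (R : G →* Module.End ℂ (Fin r → ℂ)) (H : Subgroup G)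
    {W E : Submodule ℂ (Fin r → ℂ)} (hE : E ≤ W) (hEst : StableOn R H E) (hs : SemiOn R H W) :
    SemiOn R H E := by
  intro U hU hUst
  obtain ⟨U', hU'W, hU'st, hd, hsup⟩ := hs U (hU.trans hE) hUst
  refine ⟨E ⊓ U', inf_le_left, fun h hh v hv => ⟨hEst h hh v hv.1, hU'st h hh v hv.2⟩,
    hd.mono_right inf_le_right, ?_⟩
  rw [inf_comm, ← sup_inf_assoc_of_le U' hU, hsup, inf_eq_right.2 hE]

lemma solvOn_mono (R : G →* Module.End ℂ (Fin r → ℂ)) {H H' : Subgroup G}
    {W E : Submodule ℂ (Fin r → ℂ)} (hH : H' ≤ H) (hE : E ≤ W) (h : SolvOn R H W) :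
    SolvOn R H' E := by
  obtain ⟨n, hn⟩ := h
  exact ⟨n, fun x hx v hv => hn x (series_mono hH n hx) v (hE hv)⟩

lemma exists_step (R : G →* Module.End ℂ (Fin r → ℂ)) (H : Subgroup G)
    (W : Submodule ℂ (Fin r → ℂ)) (hW : StableOn R H W) (hne : W ≠ ⊥) (hirr : IrredOn R H W)
    (hsemi : SemiOn R H W) (hsolv : SolvOn R H W) (hns : ∃ h ∈ H, ¬ ScalarOn R W h) :
    ∃ H' ≤ H, H'.relIndex H ≠ 0 ∧ H'.relIndex H ≤ Nat.factorial r + twistBound r ∧ SemiOn R H' W ∧
      ∃ a ∈ H, ¬ ScalarOn R W a ∧ ∀ h ∈ H', ∀ v ∈ W, R h (R a v) = R a (R h v) := by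
  classical
  have hex : ∃ j, ∀ x ∈ series H j, ScalarOn R W x := by
    obtain ⟨n, hn⟩ := hsolv
    exact ⟨n, fun x hx => ⟨1, fun v hv => by rw [hn x hx v hv, one_smul]⟩⟩
  rcases hj : Nat.find hex with _ | j
  · obtain ⟨h, hh, hs⟩ := hns
    exact absurd (Nat.find_spec hex h (by rw [hj]; exact hh)) hs
  set A := series H j with hA
  have hcomm : ∀ a ∈ A, ∀ x ∈ A, ScalarOn R W ⁅x, a⁆ := fun a ha x hx =>
    Nat.find_spec hex _ (by rw [hj]; exact Subgroup.commutator_mem_commutator hx ha)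
  obtain ⟨a0, ha0, ha0s⟩ : ∃ a ∈ A, ¬ ScalarOn R W a := by
    by_contra hcon
    push Not at hcon
    exact Nat.find_min hex (m := j) (by omega) hcon
  have hAn : ∀ h ∈ H, ∀ a ∈ A, h * a * h⁻¹ ∈ A := fun h hh a ha => series_conj H j hh ha
  by_cases hc : ∃ z, CentralOn R A W z ∧ ¬ ScalarOn R W z
  · obtain ⟨z, hz, hzs⟩ := hc
    obtain ⟨H', hle, h0, hb, hs', hcm⟩ :=
      step_central R H W hW hne A (series_le H j) hAn hirr hsemi z hz
    exact ⟨H', hle, h0, hb.trans (Nat.le_add_right _ _), hs', z, series_le H j hz.1, hzs, hcm⟩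
  · push Not at hc
    obtain ⟨H', hle, h0, hb, hs', hex'⟩ :=
      step_twisted R H W hW hne A (series_le H j) hAn hsemi hcomm hc a0 ha0 ha0s
    exact ⟨H', hle, h0, hb.trans (Nat.le_add_left _ _), hs', hex'⟩

/-- Commutative on a subgroup of bounded index. -/
theorem exists_comm_subgroup (r : ℕ) : ∀ d : ℕ, ∃ N, ∀ {G : Type} [Group G]
    (R : G →* Module.End ℂ (Fin r → ℂ)) (H : Subgroup G) (W : Submodule ℂ (Fin r → ℂ)),
    finrank ℂ W ≤ d → StableOn R H W → SemiOn R H W → SolvOn R H W →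
      ∃ H' ≤ H, H'.relIndex H ≠ 0 ∧ H'.relIndex H ≤ N ∧ CommOn R H' W := by
  intro d
  induction d with
  | zero =>
    refine ⟨1, fun R H W hd _ _ _ => ⟨H, le_rfl, by simp, by simp, fun h _ h' _ v hv => ?_⟩⟩
    have : W = ⊥ := Submodule.finrank_eq_zero.1 (Nat.le_zero.1 hd)
    rw [this, Submodule.mem_bot] at hv
    simp [hv]
  | succ d ih =>
    obtain ⟨N, hN⟩ := ih
    refine ⟨(Nat.factorial r + twistBound r + 1) * (N * N + 1), fun {G} _ R H W hd hW hsemi hsolv => ?_⟩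
    classical
    have split : ∀ (H1 : Subgroup G) (E : Submodule ℂ (Fin r → ℂ)), H1 ≤ H → SemiOn R H1 W →
        E ≤ W → StableOn R H1 E → E ≠ ⊥ → E ≠ W →
        ∃ H' ≤ H1, H'.relIndex H1 ≠ 0 ∧ H'.relIndex H1 ≤ N * N ∧ CommOn R H' W := by
      intro H1 E hH1 hs1 hEW hEst hE0 hEne
      obtain ⟨E', hE'W, hE'st, hd', hsup⟩ := hs1 E hEW hEst
      have hE'ne : E' ≠ W := fun h => hE0 (by
        rw [h] at hd'
        exact le_bot_iff.1 (hd' le_rfl hEW))
      have hd1 := Submodule.finrank_lt_finrank_of_lt (lt_of_le_of_ne hEW hEne)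
      have hd2 := Submodule.finrank_lt_finrank_of_lt (lt_of_le_of_ne hE'W hE'ne)
      obtain ⟨K1, hK1, hK10, hK1b, hc1⟩ := hN R H1 E (by omega) hEst
        (semiOn_sub R H1 hEW hEst hs1) (solvOn_mono R hH1 hEW hsolv)
      obtain ⟨K2, hK2, hK20, hK2b, hc2⟩ := hN R H1 E' (by omega) hE'st
        (semiOn_sub R H1 hE'W hE'st hs1) (solvOn_mono R hH1 hE'W hsolv)
      refine ⟨K1 ⊓ K2, inf_le_left.trans hK1, Subgroup.relIndex_inf_ne_zero hK10 hK20,
        Subgroup.relIndex_inf_le.trans (Nat.mul_le_mul hK1b hK2b), fun h hh h' hh' v hv => ?_⟩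
      rw [← hsup] at hv
      obtain ⟨e, he, e', he', rfl⟩ := Submodule.mem_sup.1 hv
      simp only [map_add, hc1 h hh.1 h' hh'.1 e he, hc2 h hh.2 h' hh'.2 e' he']
    by_cases hirr : IrredOn R H W
    · by_cases hns : ∃ h ∈ H, ¬ ScalarOn R W h
      · by_cases hW0 : W = ⊥
        · obtain ⟨h, _, hs⟩ := hns
          exact absurd ⟨1, fun v hv => by simp [(Submodule.mem_bot ℂ).1 (hW0 ▸ hv)]⟩ hs
        obtain ⟨H1, hH1, h10, h1b, hs1, a, haH, has, hac⟩ :=
          exists_step R H W hW hW0 hirr hsemi hsolv hns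
        have : Nontrivial W := Submodule.nontrivial_iff_ne_bot.2 hW0
        obtain ⟨μ, hμ⟩ := Module.End.exists_eigenvalue ((R a).restrict (hW a haH))
        obtain ⟨w, hw, hw0⟩ := hμ.exists_hasEigenvector
        obtain ⟨H', hH', h'0, h'b, hcomm⟩ := split H1 (W ⊓ Module.End.eigenspace (R a) μ) hH1 hs1
          inf_le_left (fun h hh v hv => ⟨hW h (hH1 hh) v hv.1, by
            rw [SetLike.mem_coe, Module.End.mem_eigenspace_iff, ← hac h hh v hv.1,
              Module.End.mem_eigenspace_iff.1 hv.2, map_smul]⟩)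
          (fun h0 => hw0 (Subtype.ext ((Submodule.mem_bot ℂ).1 (h0 ▸ (⟨w.2, by
            rw [SetLike.mem_coe, Module.End.mem_eigenspace_iff]
            exact congrArg Subtype.val (Module.End.mem_eigenspace_iff.1 hw)⟩ :
              (w : Fin r → ℂ) ∈ W ⊓ Module.End.eigenspace (R a) μ)))))
          (fun h => has ⟨μ, fun v hv => Module.End.mem_eigenspace_iff.1 (inf_eq_left.1 h hv)⟩)
        refine ⟨H', hH'.trans hH1, ?_, ?_, hcomm⟩
        · rw [← Subgroup.relIndex_mul_relIndex _ _ _ hH' hH1]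
          exact Nat.mul_ne_zero h'0 h10
        · rw [← Subgroup.relIndex_mul_relIndex _ _ _ hH' hH1, mul_comm]
          exact Nat.mul_le_mul (by omega) (by omega)
      · push Not at hns
        refine ⟨H, le_rfl, by simp, by simpa using Nat.one_le_iff_ne_zero.2 (by simp),
          fun h hh h' hh' v hv => ?_⟩
        obtain ⟨c, hc⟩ := hns h hh
        obtain ⟨c', hc'⟩ := hns h' hh'
        rw [hc _ (hW h' hh' v hv), hc' v hv, hc v hv, map_smul, hc' v hv, smul_comm]
    · simp only [IrredOn, not_forall, not_or, exists_prop] at hirr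
      obtain ⟨U, hUW, hUst, hU0, hUne⟩ := hirr
      obtain ⟨H', hH', h'0, h'b, hcomm⟩ := split H U le_rfl hsemi hUW hUst hU0 hUne
      refine ⟨H', hH', h'0, h'b.trans ?_, hcomm⟩
      calc N * N ≤ 1 * (N * N + 1) := by omega
        _ ≤ _ := Nat.mul_le_mul_right _ (by omega)

end Vale.Agent.P002
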