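import Vale.Agent.P002.Torus

/-!
P002: correcting a point of a torus into a subtorus by torsion.
-/

open Finset

namespace Vale.Agent.P002

variable {I : Type} [Fintype I] [DecidableEq I]

/-- A point with torsion values on `H` is, up to bounded torsion, a point killing `H`. -/
theorem base_point (H : Submodule ℤ (I → ℤ)) (N : ℕ) (hN : 0 < N) :
    ∃ M : ℕ, 0 < M ∧ ∀ z : I → ℂˣ, (∀ v ∈ H, mono z v ^ N = 1) →
      ∃ x : I → ℂˣ, (∀ v ∈ H, mono x v = 1) ∧ ∀ v, mono x v ^ M = mono z v ^ M := by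
  classical
  obtain ⟨m, snf⟩ := Submodule.smithNormalForm (Pi.basisFun ℤ I) H
  have ha : ∀ j, snf.a j ≠ 0 := by
    intro j h0
    apply snf.bN.ne_zero j
    ext1
    rw [snf.snf j, h0, zero_smul]
    rfl
  set M := N * ∏ j, (snf.a j).natAbs with hM
  refine ⟨M, Nat.mul_pos hN (prod_pos fun j _ => Int.natAbs_pos.2 (ha j)), fun z hz => ?_⟩
  set bM := snf.bM
  set R := Set.range snf.f
  set s : I → ℂˣ := fun q => if q ∈ R then 1 else mono z (bM q) with hs
  set x : I → ℂˣ := fun p => mono s (bM.repr (Pi.single p 1)) with hx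
  have hmono : ∀ v : I → ℤ, mono x v = mono s (bM.repr v) := by
    intro v
    have e : (⇑(bM.repr v) : I → ℤ) = ∑ p, v p • ⇑(bM.repr (Pi.single p 1)) := by
      conv_lhs => rw [pi_eq_sum_univ' v]
      simp only [map_sum, map_smul, Finsupp.coe_finsetSum, Finsupp.coe_smul]
    rw [e, mono_sum]
    rfl
  refine ⟨x, fun v hv => ?_, fun v => ?_⟩
  · rw [hmono, mono]
    refine prod_eq_one fun q _ => ?_
    by_cases hq : q ∈ R
    · simp [hs, hq]
    · rw [snf.repr_eq_zero_of_notMem_range ⟨v, hv⟩ hq, zpow_zero]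
  · have hz' : mono z v = ∏ q, mono z (bM q) ^ bM.repr v q := by
      conv_lhs => rw [← bM.sum_repr v]
      exact mono_sum z univ _ _
    rw [hmono, hz', mono, ← prod_pow, ← prod_pow]
    refine prod_congr rfl fun q _ => ?_
    rw [← zpow_natCast, ← zpow_natCast, zpow_comm, zpow_comm (mono z (bM q))]
    congr 1
    rw [zpow_natCast, zpow_natCast]
    by_cases hq : q ∈ R
    · obtain ⟨j, rfl⟩ := hq
      have h1 := hz _ (snf.bN j).2
      rw [snf.snf j, mono_zsmul] at h1
      have h3 : mono z (bM (snf.f j)) ^ (snf.a j * N) = 1 := by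
        rw [zpow_mul, zpow_natCast]; exact h1
      have hd : (snf.a j * (N : ℤ)) ∣ (M : ℤ) := by
        rw [hM, mul_comm, Nat.cast_mul]
        refine mul_dvd_mul_left _ (((Int.dvd_natAbs).2 dvd_rfl).trans
          (Int.natCast_dvd_natCast.2 (Finset.dvd_prod_of_mem _ (mem_univ j))))
      obtain ⟨c, hc⟩ := hd
      have h4 := congrArg (· ^ c) h3
      simp only [← zpow_mul, ← hc, one_zpow, zpow_natCast] at h4
      simp [hs, R, h4]
    · simp [hs, hq]

end Vale.Agent.P002
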