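import Vale.Agent.P002.Defs

/-!
P002: stable lattices over valuation rings, and integrality of invariant values.
-/

open Matrix Module

namespace Vale.Agent.P002

variable {r : ℕ}

/-- Matrices preserving a finitely generated spanning lattice have a common valuation integral
form. -/
lemma exists_lattice_basis {ι : Type} [Finite ι] (V : ValuationSubring ℂ)
    (v : ι → (Fin r → ℂ)) (hv : Submodule.span ℂ (Set.range v) = ⊤) :
    ∃ P : Matrix (Fin r) (Fin r) ℂ, P.det ≠ 0 ∧
      ∀ M : Matrix (Fin r) (Fin r) ℂ, (∀ i, M *ᵥ v i ∈ Submodule.span V (Set.range v)) →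
        ∀ a b, (P⁻¹ * M * P) a b ∈ V := by
  classical
  set Λ := Submodule.span V (Set.range v) with hΛ
  have hfin : Module.Finite V Λ := Module.Finite.span_of_finite V (Set.finite_range v)
  have hflat : Module.Flat V Λ := by
    rw [Module.Flat.flat_iff_torsion_eq_bot_of_isBezout, eq_bot_iff]
    rintro x ⟨⟨a, ha⟩, hax⟩
    rw [Submodule.mem_bot]
    refine Subtype.ext (funext fun i => ?_)
    have h1 := congrFun (congrArg Subtype.val hax) i
    have h2 : (a : ℂ) ≠ 0 := fun h => nonZeroDivisors.ne_zero ha (Subtype.ext h)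
    simpa [Algebra.smul_def, h2, Submonoid.smul_def] using h1
  have hfree : Module.Free V Λ := Module.free_of_flat_of_isLocalRing
  let bΛ := Module.Free.chooseBasis V Λ
  set w : Module.Free.ChooseBasisIndex V Λ → (Fin r → ℂ) := fun i => (bΛ i : Fin r → ℂ) with hw
  have hliV : LinearIndependent V w := bΛ.linearIndependent.map' Λ.subtype Λ.ker_subtype
  have hli : LinearIndependent ℂ w := (LinearIndependent.iff_fractionRing V ℂ).1 hliV
  have hwspan : Submodule.span V (Set.range w) = Λ := by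
    rw [show Set.range w = Λ.subtype '' Set.range bΛ from Set.range_comp Λ.subtype bΛ,
      Submodule.span_image, bΛ.span_eq, Submodule.map_subtype_top]
  let B0 : Basis _ ℂ (Fin r → ℂ) := Basis.mk hli (by
    rw [← hv, Submodule.span_le]
    rintro _ ⟨i, rfl⟩
    have h1 : v i ∈ Submodule.span V (Set.range w) := by
      rw [hwspan]; exact Submodule.subset_span ⟨i, rfl⟩
    exact Submodule.span_le_restrictScalars V ℂ _ h1)
  let B := B0.reindex (B0.indexEquiv (Pi.basisFun ℂ (Fin r)))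
  set P : Matrix (Fin r) (Fin r) ℂ := Matrix.of fun a i => B i a with hP
  have hPu : IsUnit P := linearIndependent_cols_iff_isUnit.1 B.linearIndependent
  have hdet : P.det ≠ 0 := ((P.isUnit_iff_isUnit_det).1 hPu).ne_zero
  refine ⟨P, hdet, fun M hM a b => ?_⟩
  have hMw : ∀ x ∈ Λ, M *ᵥ x ∈ Λ := by
    intro x hx
    induction hx using Submodule.span_induction with
    | mem x hx => obtain ⟨i, rfl⟩ := hx; exact hM i
    | zero => simp
    | add x y _ _ hx hy => rw [mulVec_add]; exact Submodule.add_mem _ hx hy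
    | smul c x _ hx => rw [mulVec_smul]; exact Submodule.smul_mem _ _ hx
  have hBmem : ∀ i, B i ∈ Λ := fun i => by
    simp only [B, B0, Basis.reindex_apply, Basis.mk_apply]
    exact Subtype.coe_prop _
  have hx := hMw _ (hBmem b)
  rw [← hwspan] at hx
  have hx' : M *ᵥ B b ∈ Submodule.span V (Set.range B) := by
    convert hx using 3
    rw [show Set.range B = Set.range B0 by simp [B], Basis.coe_mk]
  obtain ⟨c, hc⟩ := (Submodule.mem_span_range_iff_exists_fun V).1 hx'
  have hcol : (M * P) = P * Matrix.of fun i j => if j = b then (c i : ℂ) else (P⁻¹ * M * P) i j := by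
    ext i j
    rcases eq_or_ne j b with rfl | hj
    · have h1 := congrFun hc i
      simp only [Finset.sum_apply, Pi.smul_apply] at h1
      simp only [Matrix.mul_apply, of_apply, if_true]
      rw [show (∑ l, M i l * P l j) = (M *ᵥ B j) i from rfl, ← h1]
      exact Finset.sum_congr rfl fun l _ => by
        rw [Algebra.smul_def, mul_comm]; rfl
    · conv_lhs => rw [← Matrix.one_mul (M * P), ← Matrix.mul_nonsing_inv P
        ((P.isUnit_iff_isUnit_det).1 hPu), Matrix.mul_assoc, ← Matrix.mul_assoc P⁻¹]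
      simp [Matrix.mul_apply, hj]
  rw [Matrix.mul_assoc, hcol, ← Matrix.mul_assoc,
    Matrix.nonsing_inv_mul P ((P.isUnit_iff_isUnit_det).1 hPu), Matrix.one_mul, of_apply,
    if_pos rfl]
  exact (c a).2

/-- Algebraic integers are exactly the elements of all valuation subrings. -/
lemma isIntegral_of_forall_valuation (x : ℂ) (h : ∀ V : ValuationSubring ℂ, x ∈ V) :
    IsIntegral ℤ x := by
  have h1 : x ∈ (⨅ V : {V : ValuationSubring ℂ // (∅ : Set ℂ) ⊆ V.toSubring}, V.1.toSubring) :=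
    Subring.mem_iInf.2 fun V => h V.1
  rw [iInf_valuationSubring_superset] at h1
  have : Algebra.IsIntegral ℤ (Subring.closure (∅ : Set ℂ)) := ⟨fun ⟨y, hy⟩ => by
    have hz : y ∈ (⊥ : Subring ℂ) := Subring.closure_empty (R := ℂ) ▸ hy
    obtain ⟨m, hm⟩ := Subring.mem_bot.1 hz
    rw [show (⟨y, hy⟩ : Subring.closure (∅ : Set ℂ)) = algebraMap ℤ _ m from
      Subtype.ext (by simp [← hm])]
    exact isIntegral_algebraMap⟩
  exact isIntegral_trans x h1

lemma eval_conj {G : Type} [Group G] {n : ℕ} (gens : Fin n → G)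
    (F : MvPolynomial (Coord n r) ℂ) (hF : Invariant gens F) (ρ : Rep G r)
    (P : Matrix (Fin r) (Fin r) ℂ) (hP : P.det ≠ 0) :
    MvPolynomial.eval (fun p : Coord n r => (P⁻¹ * (ρ (gens p.1)).1 * P) p.2.1 p.2.2) F =
      MvPolynomial.eval (coords gens ρ) F := by
  obtain ⟨z, hz⟩ : ∃ z : ℂ, z ^ r * P.det = 1 := by
    rcases Nat.eq_zero_or_pos r with rfl | hr
    · exact ⟨1, by simp⟩
    · obtain ⟨z, hz⟩ := IsAlgClosed.exists_pow_nat_eq P.det⁻¹ hr
      exact ⟨z, by rw [hz, inv_mul_cancel₀ hP]⟩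
  obtain ⟨Q, hQ⟩ : ∃ Q : Matrix.SpecialLinearGroup (Fin r) ℂ, Q.1 = z • P :=
    ⟨⟨z • P, by rw [det_smul, Fintype.card_fin, hz]⟩, rfl⟩
  rw [← hF ρ Q⁻¹]
  refine congrArg (fun f : Coord n r → ℂ => MvPolynomial.eval f F) (funext fun p => ?_)
  set A : Matrix.SpecialLinearGroup (Fin r) ℂ := ρ (gens p.1)
  have hu : IsUnit P.det := isUnit_iff_ne_zero.2 hP
  have h0 : coords gens (conjRep Q⁻¹ ρ) p = (Q⁻¹ * A * Q⁻¹⁻¹).1 p.2.1 p.2.2 := rfl
  have h1 : (Q⁻¹).1 * Q.1 = 1 := congrArg Subtype.val (inv_mul_cancel Q)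
  have h3 : Q.1 * (P⁻¹ * A.1 * P) = A.1 * Q.1 := by
    rw [hQ, Matrix.smul_mul, Matrix.mul_smul, ← Matrix.mul_assoc, ← Matrix.mul_assoc,
      Matrix.mul_nonsing_inv P hu, Matrix.one_mul]
  have h4 : (Q⁻¹ * A * Q⁻¹⁻¹).1 = P⁻¹ * A.1 * P := by
    rw [inv_inv]
    show (Q⁻¹).1 * A.1 * Q.1 = _
    rw [Matrix.mul_assoc, ← h3, ← Matrix.mul_assoc, h1, Matrix.one_mul]
  rw [h0, h4]

end Vale.Agent.P002
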