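import Vale.Agent.P002.Defs

/-!
P002: integral points of the character variety through invariant functions.
-/

namespace Vale.Agent.P002

/-- Every invariant polynomial over `ℤ` takes a value in the ring of integers of `L`. -/
def IntegralPoint {G : Type} [Group G] {n r : ℕ} (gens : Fin n → G) (L : IntermediateField ℚ ℂ)
    (ρ : Rep G r) : Prop :=
  ∀ F : MvPolynomial (Coord n r) ℤ, Invariant gens (MvPolynomial.map (Int.castRingHom ℂ) F) →
    IsInt L (MvPolynomial.eval (coords gens ρ) (MvPolynomial.map (Int.castRingHom ℂ) F))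

lemma eval_intPoly_mem {ι : Type} (S : Subring ℂ) (v : ι → ℂ) (hv : ∀ i, v i ∈ S)
    (F : MvPolynomial ι ℤ) :
    MvPolynomial.eval v (MvPolynomial.map (Int.castRingHom ℂ) F) ∈ S := by
  induction F using MvPolynomial.induction_on with
  | C a => simp [intCast_mem]
  | add p q hp hq => rw [map_add, map_add]; exact add_mem hp hq
  | mul_X p i hp =>
    rw [map_mul, map_mul, MvPolynomial.map_X, MvPolynomial.eval_X]; exact mul_mem hp (hv i)

lemma integralPoint_of_integralRep {G : Type} [Group G] {n r : ℕ} (gens : Fin n → G)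
    (L : IntermediateField ℚ ℂ) (ρ : Rep G r) (h : IntegralRep gens L ρ) :
    IntegralPoint gens L ρ := fun F _ => by
  have := eval_intPoly_mem (L.toSubalgebra.toSubring ⊓ (integralClosure ℤ ℂ).toSubring) _
    (fun p => ⟨(h p).1, (h p).2⟩) F
  exact ⟨this.1, this.2⟩

end Vale.Agent.P002
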