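import Vale.Agent.P002.VirtParts
import Vale.Agent.P002.Rigid

/-!
P002: integral points are dense among the points of `Y` with virtually solvable image.
-/

open Matrix Finset

namespace Vale.Agent.P002

variable {G : Type} [Group G] {n r s : ℕ}

lemma eval_aeval_poly {σ τ : Type} (f : σ → MvPolynomial τ ℂ) (y : τ → ℂ)
    (F : MvPolynomial σ ℂ) : MvPolynomial.eval y (MvPolynomial.aeval f F) =
      MvPolynomial.eval (fun p => MvPolynomial.eval y (f p)) F := by
  induction F using MvPolynomial.induction_on with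
  | C a => simp
  | add p q hp hq => rw [map_add, map_add, map_add, hp, hq]
  | mul_X p i hp =>
    rw [map_mul, map_mul, map_mul, hp, MvPolynomial.aeval_X, MvPolynomial.eval_X]

/-- Twists by integral scalars of representations with finite image give integral points. -/
lemma twist_integralPoint (gens : Fin n → G) (L : IntermediateField ℚ ℂ) {m : ℕ}
    {K : Subgroup G} {b : Fin r → Fin m} {σ : G →* Equiv.Perm (Fin m)} {ρB : Rep G r}
    {χ : G → Fin m → ℂ} (hB : Blocked K b σ ρB χ) (η : G →* MonGrp ℂˣ m)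
    (hη : ∀ g, (η g).right = σ g) (hdet : ∀ g, (twistMat hB η hη g).det = 1)
    {y : Fin m × Fin n → ℂˣ} (hy : ∀ k, (η (gens k)).left = fun q => y (q, k))
    (K1 : Subgroup G) [K1.Normal] [K1.FiniteIndex] (hK1 : ∀ k ∈ K1, ρB k = 1)
    (hyint : ∀ p, IsInt L (y p)) (hent : ∀ g i j, (ρB g).1 i j ∈ L) :
    IntegralPoint gens L (twist hB η hη hdet) := by
  classical
  have hentry : ∀ k i j, (twist hB η hη hdet (gens k)).1 i j =
      (y (b i, k) : ℂ) * (ρB (gens k)).1 i j := fun k i j => by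
    rw [twist_apply, tmat, diagonal_mul, hy]
  refine fun F0 hF0 => ⟨?_, ?_⟩
  · refine eval_intPoly_mem L.toSubalgebra.toSubring _ (fun p => ?_) F0
    show (twist hB η hη hdet (gens p.1)).1 p.2.1 p.2.2 ∈ L
    rw [hentry]
    exact mul_mem (hyint _).1 (hent _ _ _)
  · refine isIntegral_of_forall_valuation _ fun V => ?_
    let ρq : G ⧸ K1 →* Matrix.SpecialLinearGroup (Fin r) ℂ := QuotientGroup.lift K1 ρB hK1
    set vec : (G ⧸ K1) × Fin r → (Fin r → ℂ) := fun q a => (ρq q.1).1 a q.2 with hvec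
    have hspan : Submodule.span ℂ (Set.range vec) = ⊤ := by
      refine eq_top_iff.2 fun v _ => ?_
      rw [pi_eq_sum_univ' v]
      refine Submodule.sum_mem _ fun j _ => Submodule.smul_mem _ _ (Submodule.subset_span ?_)
      refine ⟨(1, j), funext fun a => ?_⟩
      show (ρq 1).1 a j = _
      rw [map_one ρq, Matrix.SpecialLinearGroup.coe_one, Matrix.one_apply, Pi.single_apply]
    obtain ⟨P, hP, hlat⟩ := exists_lattice_basis V vec hspan
    have hstab : ∀ k q,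
        (twist hB η hη hdet (gens k)).1 *ᵥ vec q ∈ Submodule.span V (Set.range vec) := by
      rintro k ⟨q, j⟩
      induction q using QuotientGroup.induction_on with
      | _ g =>
        have h1 : (twist hB η hη hdet (gens k)).1 *ᵥ vec ((g : G ⧸ K1), j) =
            (y (σ (gens k * g) (b j), k) : ℂ) • vec (((gens k * g : G) : G ⧸ K1), j) := by
          funext a
          show ∑ c, (twist hB η hη hdet (gens k)).1 a c * (ρB g).1 c j =
            (y (σ (gens k * g) (b j), k) : ℂ) * (ρB (gens k * g)).1 a j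
          simp only [hentry, mul_assoc, ← mul_sum]
          rw [show ∑ c, (ρB (gens k)).1 a c * (ρB g).1 c j = (ρB (gens k * g)).1 a j by
            rw [map_mul]; rfl]
          by_cases h : b a = σ (gens k * g) (b j)
          · rw [h]
          · rw [hB.supp _ a j h, mul_zero, mul_zero]
        rw [h1]
        exact Submodule.smul_mem _ (⟨_, mem_valuationSubring V (hyint _).2⟩ : V)
          (Submodule.subset_span ⟨_, rfl⟩)
    rw [← eval_conj gens _ hF0 _ P hP]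
    have hmem : ∀ p : Coord n r, (fun p : Coord n r =>
        (P⁻¹ * (twist hB η hη hdet (gens p.1)).1 * P) p.2.1 p.2.2) p ∈ V.toSubring :=
      fun p => hlat (twist hB η hη hdet (gens p.1)).1 (fun q => hstab p.1 q) p.2.1 p.2.2
    exact eval_intPoly_mem V.toSubring _ hmem F0

theorem solvable_dense (gens : Fin n → G) (hgens : Subgroup.closure (Set.range gens) = ⊤)
    (K : Subgroup G) [K.FiniteIndex] (γ : Fin s → G)
    (C : Fin s → Matrix.SpecialLinearGroup (Fin r) ℂ) (hC : ∀ j, QuasiUnipotent (C j)) :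
    ∃ L : IntermediateField ℚ ℂ, FiniteDimensional ℚ L ∧
      ∀ F : MvPolynomial (Coord n r) ℂ, Invariant gens F →
        (∀ ρ : Rep G r, InY γ C ρ → IntegralPoint gens L ρ →
          MvPolynomial.eval (coords gens ρ) F = 0) →
        ∀ ρ : Rep G r, InY γ C ρ → SolvOn (linRep ρ) K ⊤ →
          MvPolynomial.eval (coords gens ρ) F = 0 := by
  classical
  obtain ⟨Nc, hNc⟩ := exists_comm_subgroup r r
  obtain ⟨K0, hK0n, hK0f, hK0le⟩ := exists_normal_core gens hgens (Nc * K.normalCore.index)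
  obtain ⟨N0, hN0, hNr⟩ := quasi_order C hC
  set e := K0.index with he
  have hepos : 0 < e := Nat.pos_of_ne_zero Subgroup.FiniteIndex.index_ne_zero
  let I := Σ m : Fin (r + 1), (Fin r → Fin m) × (Fin n → Equiv.Perm (Fin m))
  choose Mb hMb hbase using fun p : I =>
    base_point (relSpan gens γ p.2.1 p.2.2) (e * e * N0) (by positivity)
  set M' := ∏ p : I, e * Mb p with hM'
  have hM'pos : 0 < M' := prod_pos fun p _ => Nat.mul_pos hepos (hMb p)
  obtain ⟨K1, hK1n, hK1f, hK1le, hK1⟩ := exists_small_subgroup gens hgens K0 M' hM'pos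
  have : Fintype (G ⧸ K1) := Fintype.ofFinite _
  have : IsAlgClosed (algebraicClosure ℚ ℂ) := (algebraicClosure.isAlgClosure ℚ ℂ).isAlgClosed
  let J := Σ m : Fin (r + 1), (Fin r → Fin m) × (G ⧸ K1 →* Equiv.Perm (Fin m))
  have : ∀ m : Fin (r + 1), Finite (G ⧸ K1 →* Equiv.Perm (Fin m)) := fun m =>
    Finite.of_injective _ DFunLike.coe_injective
  choose E hE using fun p : J => exists_algebraic_forms (algebraicClosure ℚ ℂ) p.2.1
    (fun q t => p.2.2 q t) (fun q t => by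
      rw [← Equiv.Perm.mul_apply, ← map_mul, mul_inv_cancel, map_one, Equiv.Perm.one_apply])
  set A : Set ℂ := Set.range fun z : (Σ p : J, ↥(E p)) × (G ⧸ K1) × Fin r × Fin r =>
    ((z.1.2.1 z.2.1 z.2.2.1 z.2.2.2 : algebraicClosure ℚ ℂ) : ℂ) with hA
  choose Mt hMt hdense using fun p : I =>
    torus_dense (relSpan gens γ p.2.1 p.2.2) 1 Nat.one_pos
  obtain ⟨L, hL, hAL, S, u, hS, hζ, hu, hu', hinj⟩ := exists_field' (∏ p, Mt p)
    (prod_pos fun p _ => hMt p) A (Set.finite_range _) (by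
      rintro _ ⟨z, rfl⟩
      exact mem_algebraicClosure_iff'.1 (SetLike.coe_mem _))
  refine ⟨L, hL, fun F hF hvan ρ hρ hsol => ?_⟩
  -- the image of `K0` is commutative
  have hcomm : CommOn (linRep ρ) K0 ⊤ := by
    have h1 : SemiOn (linRep ρ) ⊤ ⊤ := by
      intro U _ hU
      obtain ⟨U', hU', hc⟩ := hρ.1 U fun g v hv => hU g trivial v hv
      exact ⟨U', le_top, fun g _ v hv => hU' g v hv, hc.disjoint, hc.sup_eq_top⟩
    have h2 := semiOn_restrict (linRep ρ) ⊤ K.normalCore le_top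
      (fun g _ x hx => (Subgroup.normalCore_normal K).conj_mem x hx g) ⊤
      (fun _ _ _ _ => trivial) h1
    obtain ⟨H', hH'le, hH'0, hH'N, hH'c⟩ := hNc (linRep ρ) K.normalCore ⊤
      (by simp) (fun _ _ _ _ => trivial) h2
      (solvOn_mono _ K.normalCore_le le_rfl hsol)
    have hidx := Subgroup.relIndex_mul_index hH'le
    have hK0H : K0 ≤ H' := hK0le H'
      (hidx ▸ mul_ne_zero hH'0 Subgroup.FiniteIndex.index_ne_zero)
      (hidx ▸ Nat.mul_le_mul_right _ hH'N)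
    exact fun h hh h' hh' => hH'c h (hK0H hh) h' (hK0H hh')
  obtain ⟨P, m, b, σ, χ, hmr, hb, hB⟩ := exists_blocked ρ hρ.1 K0 hcomm
  set ρd := conjRep P⁻¹ ρ with hρd
  rw [← hF ρ P⁻¹]
  show MvPolynomial.eval (coords gens ρd) F = 0
  obtain ⟨θ, hθr, hθK, hθd⟩ := exists_transfer hB hb
  set π : Fin n → Equiv.Perm (Fin m) := fun k => σ (gens k) with hπ
  let p0 : I := ⟨⟨m, Nat.lt_succ_of_le hmr⟩, b, π⟩
  set x : Fin m × Fin n → ℂˣ := fun q => (θ (gens q.2)).left q.1 with hx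
  have hθg : ∀ k, θ (gens k) = ⟨fun q => x (q, k), π k⟩ := fun k =>
    SemidirectProduct.ext rfl (hθr _)
  have hxw := hom_left gens π x θ hθg
  have hxw' : ∀ w i, mono x (Multiplicative.toAdd ((univLift π w).left i)) =
      (θ (FreeGroup.lift gens w)).left i := fun w i => by rw [hxw]; rfl
  -- the characters at fixed positions of powers of the boundary elements
  have hspec : ∀ j p i, σ (γ j ^ p) i = i → (θ (γ j ^ p)).left i ^ (e * N0) = 1 := by
    intro j p i hi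
    have hge : (γ j ^ p) ^ e ∈ K0 := K0.pow_index_mem _
    have h1 : ((θ (γ j ^ p)).left i : ℂ) ^ e = χ ((γ j ^ p) ^ e) i ^ e := by
      rw [← Units.val_pow_eq_pow_val, ← left_pow_fix (θ (γ j ^ p)) i (by rw [hθr, hi]) e,
        ← map_pow θ, hθK _ hge, ← he]
    obtain ⟨i0, rfl⟩ := hb i
    set l : ℂ := χ ((γ j ^ p) ^ e) (b i0) with hl
    have hl1 : l ^ N0 = 1 := by
      rcases Nat.eq_zero_or_pos (p * e) with h0 | hpos
      · rw [hl, ← pow_mul, h0, pow_zero, hB.map_one' hb, one_pow]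
      have hspec : l ∈ spectrum ℂ (ρd ((γ j ^ p) ^ e)).1 := by
        rw [hB.diagK _ hge, spectrum_diagonal]
        exact ⟨i0, rfl⟩
      obtain ⟨Q, hQ⟩ := hρ.2 j
      have hQ' : ρd (γ j) = (P⁻¹ * Q) * C j * (P⁻¹ * Q)⁻¹ := by
        show P⁻¹ * ρ (γ j) * P⁻¹⁻¹ = _
        rw [hQ]; group
      have h2 : (ρd ((γ j ^ p) ^ e)).1 = (ρd (γ j)).1 ^ (p * e) := by
        rw [← pow_mul]
        exact (congrArg Subtype.val (map_pow ρd (γ j) (p * e))).trans
          (Matrix.SpecialLinearGroup.coe_pow _ _)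
      rw [h2, spectrum.map_pow_of_pos _ hpos] at hspec
      obtain ⟨μ, hμ, hμl⟩ := hspec
      rw [mem_spectrum_iff_isRoot_charpoly] at hμ
      have h3 : (ρd (γ j)).1.charpoly = (C j).1.charpoly := by
        set R := P⁻¹ * Q with hR
        have hR' : (R⁻¹).1 * R.1 = 1 := congrArg Subtype.val (inv_mul_cancel R)
        rw [hQ']
        show (R.1 * (C j).1 * (R⁻¹).1).charpoly = _
        rw [Matrix.charpoly_mul_comm, ← Matrix.mul_assoc, hR', Matrix.one_mul]
      rw [← hμl, ← pow_mul, mul_comm, pow_mul, hNr j μ (h3 ▸ hμ), one_pow]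
    refine Units.ext ?_
    rw [Units.val_pow_eq_pow_val, pow_mul, h1, ← pow_mul, mul_comm, pow_mul, hl1, one_pow,
      Units.val_one]
  have hxN : ∀ v ∈ relSpan gens γ b π, mono x v ^ (e * N0) = 1 := by
    intro v hv
    induction hv using Submodule.span_induction with
    | mem v hv =>
      rcases hv with ⟨i, w, hw, rfl⟩ | ⟨k, rfl⟩
      · rw [hxw']
        rcases hw with hw | ⟨j, p, hw, hi⟩
        · rw [hw, map_one θ, SemidirectProduct.one_left, Pi.one_apply, one_pow]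
        · rw [hw]
          refine hspec j p i ?_
          rwa [← hθr, ← hw, hxw, mapMon_right]
      · rw [mono_col, show (∏ i, x (b i, k)) = 1 from hθd (gens k), one_pow]
    | zero => rw [mono_zero, one_pow]
    | add a b _ _ ha hb => rw [mono_add, mul_pow, ha, hb, one_mul]
    | smul c a _ ha =>
      rw [mono_zsmul, ← zpow_natCast, zpow_comm, zpow_natCast, ha, _root_.one_zpow]
  -- the base point
  have hroot : ∀ q, ∃ z : ℂˣ, z ^ e = (x q)⁻¹ := by
    intro q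
    obtain ⟨z, hz⟩ := IsAlgClosed.exists_pow_nat_eq ((x q)⁻¹ : ℂˣ).val hepos
    have hz0 : z ≠ 0 := fun h0 => Units.ne_zero (x q)⁻¹ (by rw [← hz, h0, zero_pow hepos.ne'])
    exact ⟨Units.mk0 z hz0, Units.ext (by rw [Units.val_pow_eq_pow_val]; exact hz)⟩
  choose z hz using hroot
  have hze : ∀ v, mono z v ^ e = (mono x v)⁻¹ := fun v => by
    rw [mono, mono, ← prod_pow, ← prod_inv_distrib]
    refine prod_congr rfl fun q _ => ?_
    rw [← zpow_natCast, zpow_comm, zpow_natCast, hz, _root_.inv_zpow]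
  obtain ⟨x0, hx0, hx0M⟩ := hbase p0 z fun v hv => by
    rw [mul_assoc, pow_mul, hze, inv_pow, hxN v hv, inv_one]
  obtain ⟨η0, hη0r, hη0g, hη0c, hη0d⟩ := exists_eta gens hgens γ b σ π (fun _ => rfl) x0 hx0
  have hd0 := det_twistMat_one gens hgens hB η0 hη0r hη0d
  set ρ0 := twist hB η0 hη0r hd0 with hρ0
  set χ0 : G → Fin m → ℂ := fun g q => ((η0 g).left q : ℂ) * χ g q with hχ0
  have hB0 : Blocked K0 b σ ρ0 χ0 := twist_blocked hB η0 hη0r hd0
  have htors : ∀ k ∈ K0, ∀ q, χ0 k q ^ M' = 1 := by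
    intro k hk q
    obtain ⟨w, hw⟩ := (MonoidHom.range_eq_top (f := FreeGroup.lift gens)).1
      (by rw [FreeGroup.range_lift_eq_closure, hgens]) k
    obtain ⟨c, hc⟩ : e * Mb p0 ∣ M' := dvd_prod_of_mem (fun p => e * Mb p) (mem_univ p0)
    set v : Fin m × Fin n → ℤ := Multiplicative.toAdd ((univLift π w).left q)
    have h0 : (η0 k).left q = mono x0 v := by
      rw [← hw, hom_left gens π x0 η0 hη0g w]; rfl
    have h1 : (η0 k).left q ^ (e * Mb p0) = ((θ k).left q)⁻¹ ^ Mb p0 := by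
      rw [h0, mul_comm, pow_mul, hx0M v, ← pow_mul, mul_comm, pow_mul, hze, hxw', hw]
    rw [hc, pow_mul, hχ0, mul_pow, ← Units.val_pow_eq_pow_val, h1, Units.val_pow_eq_pow_val,
      pow_mul (χ k q), ← mul_pow, ← hθK k hk q, Units.inv_mul, one_pow, one_pow]
  have hρ0K1 : ∀ k ∈ K1, ρ0 k = 1 := by
    intro k hk
    refine Subtype.ext ?_
    rw [hB0.diagK k (hK1le hk)]
    have h1 : ∀ q, χ0 k q = 1 := fun q => by
      let φ : K0 →* ℂˣ :=
        { toFun := fun l => Units.mk0 (χ0 l q) (hB0.ne_zero hb l.2 q)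
          map_one' := Units.ext (hB0.map_one' hb q)
          map_mul' := fun a c => Units.ext (hB0.map_mul' hb a.2 c.2 q) }
      have := hK1 φ (fun l => Units.ext (by
        rw [Units.val_pow_eq_pow_val, Units.val_one]
        exact htors l l.2 q)) k (hK1le hk) hk
      exact congrArg Units.val this
    simp [h1]
  -- the algebraic form
  have hσK1 : K1 ≤ σ.ker := fun k hk => hB.fixK k (hK1le hk)
  let σb : G ⧸ K1 →* Equiv.Perm (Fin m) := QuotientGroup.lift K1 σ hσK1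
  let ρb : G ⧸ K1 →* Matrix.SpecialLinearGroup (Fin r) ℂ := QuotientGroup.lift K1 ρ0 hρ0K1
  let p1 : J := ⟨⟨m, Nat.lt_succ_of_le hmr⟩, b, σb⟩
  obtain ⟨B, hBE, hBrep, P1, hP1, hP1b, hP1q⟩ := hE p1 (fun q => (ρb q).1) (by
    refine ⟨congrArg Subtype.val (map_one ρb), fun a c => congrArg Subtype.val (map_mul ρb a c),
      fun q i j h => ?_⟩
    induction q using QuotientGroup.induction_on with
    | _ g => exact hB0.supp g i j h)
  obtain ⟨z1, hz1⟩ : ∃ z1 : ℂ, z1 ^ r * P1.det = 1 := by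
    rcases Nat.eq_zero_or_pos r with hr0 | hr0
    · subst hr0; exact ⟨1, by simp⟩
    · obtain ⟨z1, hz1⟩ := IsAlgClosed.exists_pow_nat_eq P1.det⁻¹ hr0
      exact ⟨z1, by rw [hz1, inv_mul_cancel₀ hP1]⟩
  obtain ⟨Qc, hQc⟩ : ∃ Qc : Matrix.SpecialLinearGroup (Fin r) ℂ, Qc.1 = z1 • P1 :=
    ⟨⟨z1 • P1, by rw [det_smul, Fintype.card_fin, hz1]⟩, rfl⟩
  set Bc : G ⧸ K1 → Matrix (Fin r) (Fin r) ℂ :=
    fun q => (B q).map (algebraMap (algebraicClosure ℚ ℂ) ℂ) with hBc
  set ρB := conjRep Qc⁻¹ ρ0 with hρB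
  have hinvQ : (Qc⁻¹).1 * Qc.1 = 1 := congrArg Subtype.val (inv_mul_cancel Qc)
  have hρBg : ∀ g : G, (ρB g).1 = Bc g := by
    intro g
    show (Qc⁻¹ * ρ0 g * Qc⁻¹⁻¹).1 = _
    rw [inv_inv]
    show (Qc⁻¹).1 * (ρ0 g).1 * Qc.1 = _
    have h1 : (ρ0 g).1 * Qc.1 = Qc.1 * Bc g := by
      rw [hQc, Matrix.mul_smul, Matrix.smul_mul]
      exact congrArg (z1 • ·) (hP1q g)
    rw [Matrix.mul_assoc, h1, ← Matrix.mul_assoc, hinvQ, Matrix.one_mul]
  have hblock : ∀ c : Fin m → ℂ, Matrix.diagonal (fun i => c (b i)) * Qc.1 =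
      Qc.1 * Matrix.diagonal (fun i => c (b i)) := by
    intro c
    ext i j
    rw [diagonal_mul, mul_diagonal, hQc, Matrix.smul_apply, smul_eq_mul]
    by_cases h : b i = b j
    · rw [h, mul_comm]
    · rw [hP1b i j h, mul_zero, mul_zero, zero_mul]
  have hBB : Blocked K0 b σ ρB χ0 := by
    refine ⟨fun g i j h => ?_, hB.fixK, fun k hk => ?_⟩
    · rw [hρBg]
      show (B (g : G ⧸ K1)).map _ i j = 0
      rw [Matrix.map_apply, hBrep.2.2 (g : G ⧸ K1) i j h, map_zero]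
    · show (Qc⁻¹ * ρ0 k * Qc⁻¹⁻¹).1 = _
      rw [inv_inv]
      show (Qc⁻¹).1 * (ρ0 k).1 * Qc.1 = _
      rw [hB0.diagK k hk, Matrix.mul_assoc, hblock (χ0 k), ← Matrix.mul_assoc, hinvQ,
        Matrix.one_mul]
  have hρBK1 : ∀ k ∈ K1, ρB k = 1 := fun k hk => by
    show Qc⁻¹ * ρ0 k * Qc⁻¹⁻¹ = 1
    rw [hρ0K1 k hk]; group
  have hent : ∀ g i j, (ρB g).1 i j ∈ L := fun g i j => by
    rw [hρBg]
    exact hAL ⟨(⟨p1, B, hBE⟩, (g : G ⧸ K1), i, j), rfl⟩
  -- the polynomial on the torus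
  set F' : MvPolynomial (Fin m × Fin n) ℂ := MvPolynomial.aeval
    (fun p : Coord n r => MvPolynomial.X (b p.2.1, p.1) *
      MvPolynomial.C ((ρB (gens p.1)).1 p.2.1 p.2.2)) F with hF'd
  have hF' : ∀ y : Fin m × Fin n → ℂ, MvPolynomial.eval y F' = MvPolynomial.eval
      (fun p : Coord n r => y (b p.2.1, p.1) * (ρB (gens p.1)).1 p.2.1 p.2.2) F := by
    intro y
    rw [hF'd, eval_aeval_poly]
    simp only [map_mul, MvPolynomial.eval_X, MvPolynomial.eval_C]
  have hstart : MvPolynomial.eval (coords gens ρd) F =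
      MvPolynomial.eval (fun q => ((x0 q)⁻¹ : ℂˣ).val) F' := by
    rw [hF', ← hF ρd Qc⁻¹]
    refine congrArg (fun f : Coord n r → ℂ => MvPolynomial.eval f F) (funext fun ⟨k, a, c⟩ => ?_)
    have h1 : tmat b (fun q => (x0 (q, k))⁻¹) * (ρ0 (gens k)).1 = (ρd (gens k)).1 := by
      rw [hρ0, twist_apply, hη0g, ← Matrix.mul_assoc, tmat_mul]
      rw [show ((fun q => (x0 (q, k))⁻¹) * fun q => x0 (q, k)) = 1 from
        funext fun q => inv_mul_cancel _, tmat_one, Matrix.one_mul]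
    have h2 : (conjRep Qc⁻¹ ρd (gens k)).1 =
        tmat b (fun q => (x0 (q, k))⁻¹) * (ρB (gens k)).1 := by
      show (Qc⁻¹ * ρd (gens k) * Qc⁻¹⁻¹).1 = _ * (Qc⁻¹ * ρ0 (gens k) * Qc⁻¹⁻¹).1
      rw [inv_inv]
      show (Qc⁻¹).1 * (ρd (gens k)).1 * Qc.1 =
        tmat b _ * ((Qc⁻¹).1 * (ρ0 (gens k)).1 * Qc.1)
      have hcm : (Qc⁻¹).1 * tmat b (fun q => (x0 (q, k))⁻¹) =
          tmat b (fun q => (x0 (q, k))⁻¹) * (Qc⁻¹).1 := by
        have hQQ : Qc.1 * (Qc⁻¹).1 = 1 := congrArg Subtype.val (mul_inv_cancel Qc)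
        have h3 := congrArg (fun X => (Qc⁻¹).1 * X * (Qc⁻¹).1)
          (hblock fun q => ((x0 (q, k))⁻¹ : ℂˣ).val)
        simp only [← Matrix.mul_assoc, hinvQ, Matrix.one_mul] at h3
        simpa only [Matrix.mul_assoc, hQQ, Matrix.mul_one, tmat] using h3
      rw [← h1, ← Matrix.mul_assoc, hcm, Matrix.mul_assoc _ (Qc⁻¹).1, Matrix.mul_assoc _ _ Qc.1]
    show (conjRep Qc⁻¹ ρd (gens k)).1 a c = _
    rw [h2, tmat, diagonal_mul]
  rw [hstart]
  refine hdense p0 S u (fun ζ h => hζ ζ ?_) hu hu' hinj F' (fun q => (x0 q)⁻¹) (fun v hv => ?_)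
    fun y hy hyS => ?_
  · obtain ⟨c, hc⟩ := dvd_prod_of_mem Mt (mem_univ p0)
    rw [hc, pow_mul, h, one_pow]
  · rw [pow_one, mono]
    simp only [_root_.inv_zpow, prod_inv_distrib]
    rw [show (∏ q, x0 q ^ v q) = 1 from hx0 v hv, inv_one]
  have hy1 : ∀ v ∈ relSpan gens γ b π, mono y v = 1 := fun v hv => by
    rw [hy v hv, mono]
    simp only [_root_.inv_zpow, prod_inv_distrib]
    rw [show (∏ q, x0 q ^ v q) = 1 from hx0 v hv, inv_one]
  obtain ⟨η, hηr, hηg, hηc, hηd⟩ := exists_eta gens hgens γ b σ π (fun _ => rfl) y hy1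
  have hdy := det_twistMat_one gens hgens hBB η hηr hηd
  set τ := twist hBB η hηr hdy with hτ
  have hcoord : coords gens τ =
      fun p : Coord n r => (y (b p.2.1, p.1) : ℂ) * (ρB (gens p.1)).1 p.2.1 p.2.2 := by
    funext ⟨k, a, c⟩
    show (τ (gens k)).1 a c = _
    rw [hτ, twist_apply, tmat, diagonal_mul, hηg]
  rw [hF', ← hcoord]
  refine hvan τ ⟨(twist_blocked hBB η hηr hdy).semisimple, fun j => ?_⟩ fun F0 hF0 => ⟨?_, ?_⟩
  · obtain ⟨Q1, hQ1⟩ := twist_conj hBB η hηr hdy (γ j) (hηc j)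
    obtain ⟨Q2, hQ2⟩ := twist_conj hB η0 hη0r hd0 (γ j) (hη0c j)
    obtain ⟨Q3, hQ3⟩ := hρ.2 j
    refine ⟨Q1 * Qc⁻¹ * Q2 * P⁻¹ * Q3, ?_⟩
    rw [hτ, hQ1]
    show Q1 * (Qc⁻¹ * ρ0 (γ j) * Qc⁻¹⁻¹) * Q1⁻¹ = _
    rw [hρ0, hQ2]
    show Q1 * (Qc⁻¹ * (Q2 * (P⁻¹ * ρ (γ j) * P⁻¹⁻¹) * Q2⁻¹) * Qc⁻¹⁻¹) * Q1⁻¹ = _
    rw [hQ3]; group
  · exact (twist_integralPoint gens L hBB η hηr hdy (fun k => (hηg k) ▸ rfl) K1 hρBK1
      (fun p => hS _ (hyS p)) hent F0 hF0).1
  · exact (twist_integralPoint gens L hBB η hηr hdy (fun k => (hηg k) ▸ rfl) K1 hρBK1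
      (fun p => hS _ (hyS p)) hent F0 hF0).2

end Vale.Agent.P002
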