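import Vale.Agent.P002.MonoMain
import Vale.Agent.P002.BlockData
import Vale.Agent.P002.TorusBase
import Vale.Agent.P002.Solv
import Vale.Agent.P002.Valuation
import Vale.Agent.P002.VirtDefs

/-!
P002: the groups, the exponent lattice and the field used for virtually solvable images.
-/

open Matrix Finset

namespace Vale.Agent.P002

variable {G : Type} [Group G] {n r s m : ℕ}

lemma finite_hom (gens : Fin n → G) (hgens : Subgroup.closure (Set.range gens) = ⊤) (P : Type)
    [Group P] [Finite P] : Finite (G →* P) :=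
  Finite.of_injective (fun φ : G →* P => fun k => φ (gens k)) fun φ φ' h =>
    MonoidHom.eq_of_eqOn_dense hgens (by rintro _ ⟨k, rfl⟩; exact congrFun h k)

/-- One normal subgroup of finite index inside all subgroups of bounded index. -/
lemma exists_normal_core (gens : Fin n → G) (hgens : Subgroup.closure (Set.range gens) = ⊤)
    (B : ℕ) : ∃ K0 : Subgroup G, K0.Normal ∧ K0.FiniteIndex ∧
      ∀ H : Subgroup G, H.index ≠ 0 → H.index ≤ B → K0 ≤ H := by
  classical
  let I := Σ j : Fin (B + 1), (G →* Equiv.Perm (Fin j))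
  have : ∀ j : Fin (B + 1), Finite (G →* Equiv.Perm (Fin j)) := fun j => finite_hom gens hgens _
  refine ⟨(⨅ i : I, i.2.ker).normalCore, Subgroup.normalCore_normal _, ?_, fun H h0 hB => ?_⟩
  · have := Subgroup.finiteIndex_iInf (f := fun i : I => i.2.ker) fun i => inferInstance
    infer_instance
  · have hfi : H.FiniteIndex := ⟨h0⟩
    have hfin : Finite (G ⧸ H) := Subgroup.finite_quotient_of_finiteIndex
    let e : G ⧸ H ≃ Fin H.index := Finite.equivFin _
    let φ : G →* Equiv.Perm (Fin H.index) :=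
      e.permCongrHom.toMonoidHom.comp (MulAction.toPermHom G (G ⧸ H))
    refine (Subgroup.normalCore_le _).trans ((iInf_le _ (⟨⟨H.index, by omega⟩, φ⟩ : I)).trans ?_)
    intro g hg
    have h1 : e (g • ((1 : G) : G ⧸ H)) = e ((1 : G) : G ⧸ H) := by
      have := Equiv.congr_fun (show φ g = 1 from hg) (e ((1 : G) : G ⧸ H))
      simpa [φ, Equiv.permCongrHom, Equiv.permCongr_apply] using this
    have h2 : ((g * 1 : G) : G ⧸ H) = ((1 : G) : G ⧸ H) := e.injective h1
    simpa using QuotientGroup.eq.1 h2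

/-- One normal subgroup of finite index on which all characters of bounded order are trivial. -/
lemma exists_small_subgroup (gens : Fin n → G) (hgens : Subgroup.closure (Set.range gens) = ⊤)
    (K0 : Subgroup G) [K0.FiniteIndex] (M : ℕ) (hM : 0 < M) :
    ∃ K1 : Subgroup G, K1.Normal ∧ K1.FiniteIndex ∧ K1 ≤ K0 ∧
      ∀ φ : K0 →* ℂˣ, (∀ k, φ k ^ M = 1) → ∀ k (hk : k ∈ K0), k ∈ K1 → φ ⟨k, hk⟩ = 1 := by
  classical
  have : NeZero M := ⟨hM.ne'⟩
  have : Group.FG G := Group.fg_iff.2 ⟨_, hgens, Set.finite_range gens⟩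
  obtain ⟨c, hc⟩ := (Group.fg_def.1 (inferInstance : Group.FG K0))
  have : Finite (K0 →* rootsOfUnity M ℂ) :=
    Finite.of_injective (fun φ : K0 →* rootsOfUnity M ℂ => fun k : c => φ k) fun φ φ' h =>
      MonoidHom.eq_of_eqOn_dense hc fun k hk => congrFun h ⟨k, hk⟩
  set J : Subgroup K0 := ⨅ φ : K0 →* rootsOfUnity M ℂ, φ.ker
  have : J.FiniteIndex := Subgroup.finiteIndex_iInf fun φ => inferInstance
  have hJ : (J.map K0.subtype).FiniteIndex := ⟨by
    rw [Subgroup.index_map_subtype]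
    exact mul_ne_zero Subgroup.FiniteIndex.index_ne_zero Subgroup.FiniteIndex.index_ne_zero⟩
  refine ⟨(J.map K0.subtype).normalCore, Subgroup.normalCore_normal _, inferInstance,
    (Subgroup.normalCore_le _).trans (Subgroup.map_subtype_le _), fun φ hφ k hk hk1 => ?_⟩
  obtain ⟨l, hl, hlk⟩ := Subgroup.normalCore_le _ hk1
  obtain rfl : l = ⟨k, hk⟩ := Subtype.ext hlk
  have h2 := Subgroup.mem_iInf.1 hl
    (φ.codRestrict (rootsOfUnity M ℂ) fun x => (mem_rootsOfUnity M _).2 (hφ x))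
  exact congrArg Subtype.val (show _ = (1 : rootsOfUnity M ℂ) from h2)

/-- The exponent vectors whose monomials a twist must kill. -/
def relSpan (gens : Fin n → G) (γ : Fin s → G) (b : Fin r → Fin m)
    (π : Fin n → Equiv.Perm (Fin m)) : Submodule ℤ (Fin m × Fin n → ℤ) :=
  Submodule.span ℤ
    ({v | ∃ i w, (FreeGroup.lift gens w = 1 ∨
          ∃ j p, FreeGroup.lift gens w = γ j ^ p ∧ (univLift π w).right i = i) ∧
        v = Multiplicative.toAdd ((univLift π w).left i)} ∪
      Set.range fun k : Fin n => ∑ i, (1 : ℤ) • (Pi.single (b i, k) 1 : Fin m × Fin n → ℤ))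

lemma mono_single {I : Type} [Fintype I] [DecidableEq I] (y : I → ℂˣ) (p : I) :
    mono y (Pi.single p 1) = y p := by
  rw [mono, prod_eq_single p (fun q _ hq => by simp [Pi.single_eq_of_ne hq])
    (fun h => absurd (mem_univ p) h)]
  simp

lemma mono_col (y : Fin m × Fin n → ℂˣ) (b : Fin r → Fin m) (k : Fin n) :
    mono y (∑ i, (1 : ℤ) • (Pi.single (b i, k) 1 : Fin m × Fin n → ℤ)) = ∏ i, y (b i, k) := by
  rw [mono_sum]
  simp only [zpow_one, mono_single]

lemma hom_left (gens : Fin n → G) (π : Fin n → Equiv.Perm (Fin m)) (y : Fin m × Fin n → ℂˣ)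
    (θ : G →* MonGrp ℂˣ m) (hθ : ∀ k, θ (gens k) = ⟨fun q => y (q, k), π k⟩)
    (w : FreeGroup (Fin n)) : θ (FreeGroup.lift gens w) = mapMon (monoHom y) (univLift π w) := by
  rw [← entryLift_eq]
  exact congrFun (congrArg DFunLike.coe (FreeGroup.ext_hom (θ.comp (FreeGroup.lift gens))
    (entryLift π y) fun k => by
      rw [MonoidHom.comp_apply, entryLift, FreeGroup.lift_apply_of, FreeGroup.lift_apply_of, hθ])) w

/-- A point killing the lattice gives a cocycle for the permutations. -/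
theorem exists_eta (gens : Fin n → G) (hgens : Subgroup.closure (Set.range gens) = ⊤)
    (γ : Fin s → G) (b : Fin r → Fin m) (σ : G →* Equiv.Perm (Fin m))
    (π : Fin n → Equiv.Perm (Fin m)) (hπ : ∀ k, σ (gens k) = π k) (y : Fin m × Fin n → ℂˣ)
    (hy : ∀ v ∈ relSpan gens γ b π, mono y v = 1) :
    ∃ η : G →* MonGrp ℂˣ m, (∀ g, (η g).right = σ g) ∧
      (∀ k, η (gens k) = ⟨fun q => y (q, k), π k⟩) ∧
      (∀ j q p, ((σ (γ j)) ^ p) q = q → (η (γ j ^ p)).left q = 1) ∧
      ∀ k, ∏ i, (η (gens k)).left (b i) = 1 := by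
  classical
  set ψ : FreeGroup (Fin n) →* G := FreeGroup.lift gens with hψ
  have hsurj : Function.Surjective ψ :=
    MonoidHom.range_eq_top.1 (by rw [hψ, FreeGroup.range_lift_eq_closure, hgens])
  set E := entryLift π y with hE
  have hr : ∀ w, (E w).right = σ (ψ w) := fun w =>
    congrFun (congrArg DFunLike.coe (FreeGroup.ext_hom
      (SemidirectProduct.rightHom.comp E) (σ.comp ψ) fun k => by
        simp [hE, entryLift, hψ, hπ])) w
  have hl : ∀ i w, (ψ w = 1 ∨ ∃ j p, ψ w = γ j ^ p ∧ (univLift π w).right i = i) →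
      (E w).left i = 1 := fun i w hw => by
    rw [hE, entryLift_eq, mapMon_left]
    exact hy _ (Submodule.subset_span (Or.inl ⟨i, w, hw, rfl⟩))
  have hker : ψ.ker ≤ E.ker := fun w hw => by
    rw [MonoidHom.mem_ker] at hw ⊢
    refine SemidirectProduct.ext (funext fun i => hl i w (Or.inl hw)) ?_
    rw [hr, hw, map_one σ]
    rfl
  let η : G →* MonGrp ℂˣ m := ψ.liftOfSurjective hsurj ⟨E, hker⟩
  have hη : ∀ w, η (ψ w) = E w := fun w => MonoidHom.liftOfRightInverse_comp_apply _ _ _ _ w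
  have hηg : ∀ k, η (gens k) = ⟨fun q => y (q, k), π k⟩ := fun k => by
    have := hη (FreeGroup.of k)
    rwa [hψ, FreeGroup.lift_apply_of, hE, entryLift, FreeGroup.lift_apply_of] at this
  refine ⟨η, fun g => ?_, hηg, fun j q p hp => ?_, fun k => ?_⟩
  · obtain ⟨w, rfl⟩ := hsurj g
    rw [hη, hr]
  · obtain ⟨w, hw⟩ := hsurj (γ j ^ p)
    rw [← hw, hη]
    refine hl q w (Or.inr ⟨j, p, hw, ?_⟩)
    rw [← mapMon_right (monoHom y) (univLift π w), ← entryLift_eq, ← hE, hr, hw, map_pow, hp]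
  · have h2 := hy _ (Submodule.subset_span (Or.inr ⟨k, rfl⟩))
    rw [mono_col] at h2
    simpa [hηg] using h2

lemma det_twistMat_one (gens : Fin n → G) (hgens : Subgroup.closure (Set.range gens) = ⊤)
    {K : Subgroup G} {b : Fin r → Fin m} {σ : G →* Equiv.Perm (Fin m)} {ρ : Rep G r}
    {χ : G → Fin m → ℂ} (hB : Blocked K b σ ρ χ) (η : G →* MonGrp ℂˣ m)
    (hη : ∀ g, (η g).right = σ g) (hd : ∀ k, ∏ i, (η (gens k)).left (b i) = 1) :
    ∀ g, (twistMat hB η hη g).det = 1 := by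
  have : (Matrix.detMonoidHom.comp (twistMat hB η hη) : G →* ℂ) = 1 :=
    MonoidHom.eq_of_eqOn_dense hgens (by
      rintro _ ⟨k, rfl⟩
      show (twistMat hB η hη (gens k)).det = 1
      rw [det_twistMat, hd, Units.val_one])
  exact fun g => congrFun (congrArg DFunLike.coe this) g

/-- A field with the roots of unity, a fundamental unit and finitely many algebraic numbers. -/
lemma exists_field' (M : ℕ) (hM : 0 < M) (A : Set ℂ) (hA : A.Finite)
    (hint : ∀ a ∈ A, IsIntegral ℚ a) :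
    ∃ L : IntermediateField ℚ ℂ, FiniteDimensional ℚ L ∧ A ⊆ L ∧ ∃ (S : Subring ℂ) (u : ℂˣ),
      (∀ x ∈ S, IsInt L x) ∧ (∀ ζ : ℂ, ζ ^ M = 1 → ζ ∈ S) ∧ (u : ℂ) ∈ S ∧
      (↑u⁻¹ : ℂ) ∈ S ∧ ∀ a b : ℕ, u ^ a = u ^ b → a = b := by
  obtain ⟨L, hL, S, u, hS, hζ, hu, hu', hinj⟩ := exists_field M hM
  have : Finite A := hA
  have : FiniteDimensional ℚ (IntermediateField.adjoin ℚ A) :=
    IntermediateField.finiteDimensional_adjoin hint
  exact ⟨L ⊔ IntermediateField.adjoin ℚ A, inferInstance,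
    (IntermediateField.subset_adjoin ℚ A).trans
      (SetLike.coe_subset_coe.2 (le_sup_right : _ ≤ L ⊔ IntermediateField.adjoin ℚ A)),
    S, u, fun x hx => ⟨(le_sup_left : L ≤ _) (hS x hx).1, (hS x hx).2⟩, hζ, hu, hu', hinj⟩

lemma mem_valuationSubring (V : ValuationSubring ℂ) {x : ℂ} (h : IsIntegral ℤ x) : x ∈ V := by
  obtain ⟨y, hy⟩ := (IsIntegrallyClosed.isIntegral_iff (R := V) (K := ℂ)).1 (h.tower_top (A := V))
  exact hy ▸ y.2

end Vale.Agent.P002
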