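import Vale.Agent.P002.Jordan
import Vale.Agent.P002.Solv

/-!
P002: semisimple representations with virtually solvable image are solvable on a subgroup of
bounded index.
-/

open Matrix Finset
open scoped commutatorElement

namespace Vale.Agent.P002

variable {G : Type} [Group G] {r : ℕ}

lemma semiOn_top (ρ : Rep G r) (hs : Semisimple ρ) : SemiOn (linRep ρ) ⊤ ⊤ := by
  intro U _ hU
  obtain ⟨U', hU', hc⟩ := hs U fun g v hv => hU g trivial v hv
  exact ⟨U', le_top, fun g _ v hv => hU' g v hv, hc.disjoint, hc.sup_eq_top⟩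

/-- From a commutative normal subgroup of finite index to a solvable one of bounded index. -/
theorem exists_bounded_solvable (r : ℕ) :
    ∃ J : ℕ, ∀ {G : Type} [Group G] (ρ : Rep G r) (K : Subgroup G), K.Normal → K.FiniteIndex →
      CommOn (linRep ρ) K ⊤ →
      ∃ H : Subgroup G, H.index ≠ 0 ∧ H.index ≤ J ∧ SolvOn (linRep ρ) H ⊤ := by
  classical
  choose J hJ using exists_solvable_bound
  refine ⟨(range (r * r + 1)).sup J, fun {G} _ ρ K hKn hKf hK => ?_⟩
  have hab : ∀ a ∈ K, ∀ c ∈ K, (ρ a).1 * (ρ c).1 = (ρ c).1 * (ρ a).1 := fun a ha c hc =>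
    congrArg Subtype.val (abelianImage_of_commOn ρ K hK ⟨a, ha⟩ ⟨c, hc⟩)
  let W : Submodule ℂ (Matrix (Fin r) (Fin r) ℂ) :=
    { carrier := {M | ∀ k ∈ K, (ρ k).1 * M = M * (ρ k).1}
      zero_mem' := fun k _ => by simp
      add_mem' := fun {a c} ha hc k hk => by rw [Matrix.mul_add, Matrix.add_mul, ha k hk, hc k hk]
      smul_mem' := fun z M hM k hk => by rw [Matrix.mul_smul, Matrix.smul_mul, hM k hk] }
  have hmul : ∀ a c : G, (ρ (a * c)).1 = (ρ a).1 * (ρ c).1 := fun a c =>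
    congrArg Subtype.val (map_mul ρ a c)
  have hinv : ∀ a : G, (ρ a⁻¹).1 * (ρ a).1 = 1 := fun a => by
    rw [← hmul, inv_mul_cancel, map_one ρ]; rfl
  have hmem : ∀ g, ∀ M ∈ W, (ρ g).1 * M * (ρ g⁻¹).1 ∈ W := by
    intro g M hM k hk
    have hk' : g⁻¹ * k * g ∈ K := by simpa using hKn.conj_mem k hk g⁻¹
    have h1 : (ρ k).1 * (ρ g).1 = (ρ g).1 * (ρ (g⁻¹ * k * g)).1 := by
      rw [← hmul, ← hmul]; exact congrArg (fun z => (ρ z).1) (by group)
    have h2 : (ρ g⁻¹).1 * (ρ k).1 = (ρ (g⁻¹ * k * g)).1 * (ρ g⁻¹).1 := by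
      rw [← hmul, ← hmul]; exact congrArg (fun z => (ρ z).1) (by group)
    rw [← Matrix.mul_assoc, ← Matrix.mul_assoc, h1, Matrix.mul_assoc _ _ (ρ k).1, h2,
      Matrix.mul_assoc (ρ g).1 _ M, hM _ hk']
    simp only [Matrix.mul_assoc]
  let act : G →* Module.End ℂ W :=
    { toFun := fun g =>
        { toFun := fun M => ⟨(ρ g).1 * M.1 * (ρ g⁻¹).1, hmem g M.1 M.2⟩
          map_add' := fun a c => Subtype.ext (by simp [Matrix.mul_add, Matrix.add_mul])
          map_smul' := fun z a => Subtype.ext (by simp) }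
      map_one' := LinearMap.ext fun M => Subtype.ext (by simp [map_one ρ])
      map_mul' := fun a c => LinearMap.ext fun M => Subtype.ext (by
        show (ρ (a * c)).1 * M.1 * (ρ (a * c)⁻¹).1 =
          (ρ a).1 * ((ρ c).1 * M.1 * (ρ c⁻¹).1) * (ρ a⁻¹).1
        rw [_root_.mul_inv_rev, hmul, hmul]
        simp only [Matrix.mul_assoc]) }
  let e := LinearMap.toMatrixAlgEquiv (Module.finBasis ℂ W)
  let Φ : G →* Matrix _ _ ℂ := 
    { toFun := fun g => e (act g)
      map_one' := (congrArg e (map_one act)).trans (map_one e)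
      map_mul' := fun a c => (congrArg e (map_mul act a c)).trans (map_mul e _ _) }
  have hK1 : ∀ k ∈ K, act k = 1 := fun k hk => LinearMap.ext fun M => Subtype.ext (by
    show (ρ k).1 * M.1 * (ρ k⁻¹).1 = M.1
    rw [M.2 k hk, Matrix.mul_assoc, ← hmul, mul_inv_cancel, map_one ρ]
    exact Matrix.mul_one _)
  have hfin : (Set.range Φ).Finite := by
    have : Finite (G ⧸ K) := Subgroup.finite_quotient_of_finiteIndex
    refine (Set.finite_range fun u : G ⧸ K => Φ u.out).subset ?_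
    rintro _ ⟨g, rfl⟩
    obtain ⟨k, hk⟩ := QuotientGroup.mk_out_eq_mul K g
    refine ⟨(g : G ⧸ K), ?_⟩
    show Φ _ = Φ g
    rw [hk, map_mul, show Φ (k : G) = 1 from (congrArg e (hK1 k k.2)).trans (map_one e), mul_one]
  obtain ⟨H, hH0, hHJ, k, hk⟩ := hJ _ Φ hfin
  have hfix : ∀ x ∈ series H k, ∀ M ∈ W, (ρ x).1 * M = M * (ρ x).1 := by
    intro x hx M hM
    have h1 : act x = 1 := e.injective ((hk x hx).trans (map_one e).symm)
    have h2 : (ρ x).1 * M * (ρ x⁻¹).1 = M :=
      congrArg Subtype.val (LinearMap.congr_fun h1 ⟨M, hM⟩)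
    conv_rhs => rw [← h2]
    rw [Matrix.mul_assoc, hinv, Matrix.mul_one]
  refine ⟨H, hH0, hHJ.trans (Finset.le_sup (mem_range.2 (Nat.lt_succ_of_le ?_))), k + 1,
    fun x hx v _ => ?_⟩
  · refine (Submodule.finrank_le W).trans ?_
    rw [Module.finrank_matrix, Module.finrank_self, mul_one, Fintype.card_fin]
  · have hle : series H (k + 1) ≤ ρ.ker := Subgroup.commutator_le.2 fun a ha c hc => by
      rw [MonoidHom.mem_ker, map_commutatorElement, commutatorElement_eq_one_iff_mul_comm]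
      exact Subtype.ext (hfix a ha _ fun l hl =>
        (hfix c hc _ fun l' hl' => hab l' hl' l hl).symm)
    show (ρ x).1.mulVecLin v = v
    rw [show ρ x = 1 from hle hx]
    simp

/-- Semisimple with virtually solvable image: solvable on a subgroup of bounded index. -/
theorem exists_virtual_bound (r : ℕ) :
    ∃ J : ℕ, ∀ {G : Type} [Group G] (ρ : Rep G r), Semisimple ρ →
      (∃ K : Subgroup G, K.FiniteIndex ∧ SolvOn (linRep ρ) K ⊤) →
      ∃ H : Subgroup G, H.index ≠ 0 ∧ H.index ≤ J ∧ SolvOn (linRep ρ) H ⊤ := by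
  obtain ⟨N, hN⟩ := exists_comm_subgroup r r
  obtain ⟨J, hJ⟩ := exists_bounded_solvable r
  refine ⟨J, fun {G} _ ρ hs ⟨K, hKf, hK⟩ => ?_⟩
  have h2 := semiOn_restrict (linRep ρ) ⊤ K.normalCore le_top
    (fun g _ x hx => (Subgroup.normalCore_normal K).conj_mem x hx g) ⊤
    (fun _ _ _ _ => trivial) (semiOn_top ρ hs)
  obtain ⟨H', hH'le, hH'0, -, hH'c⟩ := hN (linRep ρ) K.normalCore ⊤ (by simp)
    (fun _ _ _ _ => trivial) h2 (solvOn_mono _ K.normalCore_le le_rfl hK)
  have : H'.FiniteIndex := ⟨by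
    rw [← Subgroup.relIndex_mul_index hH'le]
    exact mul_ne_zero hH'0 Subgroup.FiniteIndex.index_ne_zero⟩
  exact hJ ρ H'.normalCore (Subgroup.normalCore_normal _) inferInstance fun a ha c hc =>
    hH'c a (H'.normalCore_le ha) c (H'.normalCore_le hc)

end Vale.Agent.P002
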